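import Crest.Agent.R324.TileProg
/-! Row 324, piece AMPLIFY: run the tile program in all tiles of one block `b`. -/
set_option autoImplicit false
set_option linter.unusedSectionVars false
open scoped Classical Kronecker
open Matrix
namespace Crest.Agent.R324

noncomputable section
variable {β P P' : Type}

/-- row vector of a form in tile `(J,K)` of block `b` -/
def rowF (b : β) (J : P) (K : P') (f : Form) : Reg β P P' → ℂ
  | Sum.inl _ => 0
  | Sum.inr (Sum.inl (b', p, J')) => if b' = b ∧ J' = J then (f (Sum.inl p) : ℂ) else 0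
  | Sum.inr (Sum.inr (Sum.inl (b', p, K'))) =>
      if b' = b ∧ K' = K then (f (Sum.inr (Sum.inl p)) : ℂ) else 0
  | Sum.inr (Sum.inr (Sum.inr (x, J', K'))) =>
      if J' = J ∧ K' = K then (f (Sum.inr (Sum.inr x)) : ℂ) else 0

/-- `u_(b,t)(J,K) += goalForm t`, for all tiles, block `b` -/
def Nblk (b : β) : Matrix (Reg β P P') (Reg β P P') ℂ :=
  Matrix.of fun x y => match x with
    | Sum.inl (b', t, J, K) => if b' = b then rowF b J K (goalForm t) y else 0
    | _ => 0

namespace AMPLIFYaux

theorem rowF_add (b : β) (J : P) (K : P') (f g : Form) (y : Reg β P P') :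
    rowF b J K (f + g) y = rowF b J K f y + rowF b J K g y := by
  rcases y with y | ⟨b', p, J'⟩ | ⟨b', p, K'⟩ | ⟨x, J', K'⟩
  · simp [rowF]
  all_goals
    simp only [rowF, Pi.add_apply, Int.cast_add]
    split_ifs <;> simp

theorem rowF_sub (b : β) (J : P) (K : P') (f g : Form) (y : Reg β P P') :
    rowF b J K (f - g) y = rowF b J K f y - rowF b J K g y := by
  rcases y with y | ⟨b', p, J'⟩ | ⟨b', p, K'⟩ | ⟨x, J', K'⟩
  · simp [rowF]
  all_goals
    simp only [rowF, Pi.sub_apply, Int.cast_sub]
    split_ifs <;> simp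

theorem rowF_neg (b : β) (J : P) (K : P') (f : Form) (y : Reg β P P') :
    rowF b J K (-f) y = - rowF b J K f y := by
  rcases y with y | ⟨b', p, J'⟩ | ⟨b', p, K'⟩ | ⟨x, J', K'⟩
  · simp [rowF]
  all_goals
    simp only [rowF, Pi.neg_apply, Int.cast_neg]
    split_ifs <;> simp

theorem rowF_zero (b : β) (J : P) (K : P') (y : Reg β P P') :
    rowF b J K 0 y = 0 := by
  rcases y with y | ⟨b', p, J'⟩ | ⟨b', p, K'⟩ | ⟨x, J', K'⟩ <;> simp [rowF]

theorem optA_none : optA none = 0 := by
  funext v; rcases v with v | v | v <;> rfl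

theorem optC_none : optC none = 0 := by
  funext v; rcases v with v | v | v <;> rfl

theorem rowF_optA (b : β) (J : P) (K : P') (p : AV) (y : Reg β P P') :
    rowF b J K (optA (some p)) y = if rA b p J = y then 1 else 0 := by
  rcases y with y | ⟨b', p', J'⟩ | ⟨b', p', K'⟩ | ⟨x, J', K'⟩
  · simp [rowF]
  · simp only [rowF, optA, rA, Sum.inr.injEq, Sum.inl.injEq, Prod.mk.injEq]
    by_cases h1 : b' = b <;> by_cases h2 : J' = J <;> by_cases h3 : p = p' <;>
      simp [h1, h2, h3]
    · intro h; exact absurd h (by simpa [eq_comm] using h2)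
    · intro h; exact absurd h (by simpa [eq_comm] using h1)
    · intro h; exact absurd h (by simpa [eq_comm] using h1)
  · simp [rowF, optA]
  · simp [rowF, optA]


theorem rowF_optC (b : β) (J : P) (K : P') (p : CV) (y : Reg β P P') :
    rowF b J K (optC (some p)) y = if rC b p K = y then 1 else 0 := by
  rcases y with y | ⟨b', p', J'⟩ | ⟨b', p', K'⟩ | ⟨x, J', K'⟩
  · simp [rowF]
  · simp [rowF, optC]
  · simp only [rowF, optC, rC, Sum.inr.injEq, Sum.inl.injEq, Prod.mk.injEq]
    by_cases h1 : b' = b <;> by_cases h2 : K' = K <;> by_cases h3 : p = p' <;>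
      simp [h1, h2, h3]
    · intro h; exact absurd h (by simpa [eq_comm] using h2)
    · intro h; exact absurd h (by simpa [eq_comm] using h1)
    · intro h; exact absurd h (by simpa [eq_comm] using h1)
  · simp [rowF, optC]

theorem rowF_formB (b : β) (J : P) (K : P') (x : Fin 4) (y : Reg β P P') :
    rowF b J K (formB x) y = if rB x J K = y then 1 else 0 := by
  rcases y with y | ⟨b', p', J'⟩ | ⟨b', p', K'⟩ | ⟨x', J', K'⟩
  · simp [rowF]
  · simp [rowF, formB]
  · simp [rowF, formB]
  · simp only [rowF, formB, rB, Sum.inr.injEq, Prod.mk.injEq]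
    by_cases h1 : J' = J <;> by_cases h2 : K' = K <;> by_cases h3 : x = x' <;>
      simp [h1, h2, h3]
    · intro h; exact absurd h (by simpa [eq_comm] using h2)
    · intro h; exact absurd h (by simpa [eq_comm] using h1)
    · intro h; exact absurd h (by simpa [eq_comm] using h1)

/-- register of a target -/
def tg (b : β) (t : Tgt) (J : P) (K : P') : Reg β P P' :=
  match t with
  | Tgt.R => rB 0 J K
  | Tgt.U u => rU b u J K

/-- add the form `f` to the target, in all tiles -/
def Dm (b : β) (t : Tgt) (f : Form) : Matrix (Reg β P P') (Reg β P P') ℂ :=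
  Matrix.of fun x y => match t, x with
    | Tgt.R, Sum.inr (Sum.inr (Sum.inr (x', J, K))) => if x' = 0 then rowF b J K f y else 0
    | Tgt.U u, Sum.inl (b', u', J, K) => if b' = b ∧ u' = u then rowF b J K f y else 0
    | _, _ => 0

theorem Dm_row (b : β) (t : Tgt) (x : Reg β P P') :
    (∃ J K, x = tg b t J K ∧ ∀ f y, Dm b t f x y = rowF b J K f y) ∨
      ((∀ J K, x ≠ tg b t J K) ∧ ∀ f y, Dm b t f x y = 0) := by
  cases t with
  | R =>
    rcases x with ⟨b', u', J, K⟩ | ⟨b', p', J⟩ | ⟨b', p', K⟩ | ⟨x', J, K⟩
    · right; exact ⟨by simp [tg], by simp [Dm]⟩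
    · right; exact ⟨by simp [tg], by simp [Dm]⟩
    · right; exact ⟨by simp [tg], by simp [Dm]⟩
    · by_cases h : x' = 0
      · left
        subst h
        exact ⟨J, K, rfl, by simp [Dm]⟩
      · right
        exact ⟨by simp [tg, h], by simp [Dm, h]⟩
  | U u =>
    rcases x with ⟨b', u', J, K⟩ | ⟨b', p', J⟩ | ⟨b', p', K⟩ | ⟨x', J, K⟩
    · by_cases h : b' = b ∧ u' = u
      · left
        obtain ⟨h1, h2⟩ := h
        subst h1 h2
        exact ⟨J, K, rfl, by simp [Dm]⟩
      · right
        refine ⟨?_, ?_⟩
        · intro J' K' he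
          simp only [tg, rU, Sum.inl.injEq, Prod.mk.injEq] at he
          exact h ⟨he.1, he.2.1⟩
        · intro f y
          simp only [Dm, Matrix.of_apply]
          rw [if_neg h]
    · right; exact ⟨by simp [tg], by simp [Dm]⟩
    · right; exact ⟨by simp [tg], by simp [Dm]⟩
    · right; exact ⟨by simp [tg], by simp [Dm]⟩

theorem tg_inj (b : β) (t : Tgt) {J J' : P} {K K' : P'} (h : tg b t J K = tg b t J' K') :
    J = J' ∧ K = K' := by
  cases t with
  | R => simpa [tg] using h
  | U u => simpa [tg] using h

/-- matrix of a symbolic state -/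
def MS (b : β) (S : TState) : Matrix (Reg β P P') (Reg β P P') ℂ :=
  Matrix.of fun x y => match x with
    | Sum.inl (b', t, J, K) => (1 : Matrix (Reg β P P') (Reg β P P') ℂ) x y +
        (if b' = b then rowF b J K (S.U t) y else 0)
    | Sum.inr (Sum.inr (Sum.inr (x', J, K))) =>
        if x' = 0 then rowF b J K S.R y else (1 : Matrix (Reg β P P') (Reg β P P') ℂ) x y
    | x => (1 : Matrix (Reg β P P') (Reg β P P') ℂ) x y

theorem MS_addTo (b : β) (S : TState) (t : Tgt) (f : Form) :
    (MS b (S.addTo t f) : Matrix (Reg β P P') (Reg β P P') ℂ) = MS b S + Dm b t f := by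
  ext x y
  rw [Matrix.add_apply]
  cases t with
  | R =>
    rcases x with ⟨b', u', J, K⟩ | ⟨b', p', J⟩ | ⟨b', p', K⟩ | ⟨x', J, K⟩
    · simp [MS, Dm, TState.addTo]
    · simp [MS, Dm, TState.addTo]
    · simp [MS, Dm, TState.addTo]
    · by_cases h : x' = 0
      · simp [MS, Dm, TState.addTo, h, rowF_add]
      · simp [MS, Dm, TState.addTo, h]
  | U u =>
    rcases x with ⟨b', u', J, K⟩ | ⟨b', p', J⟩ | ⟨b', p', K⟩ | ⟨x', J, K⟩
    · by_cases h : b' = b
      · by_cases h2 : u' = u
        · simp [MS, Dm, TState.addTo, h, h2, rowF_add, add_assoc]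
        · simp [MS, Dm, TState.addTo, h, h2]
      · simp [MS, Dm, TState.addTo, h]
    · simp [MS, Dm, TState.addTo]
    · simp [MS, Dm, TState.addTo]
    · simp [MS, Dm, TState.addTo]

theorem MS_init (b : β) : (MS b tInit : Matrix (Reg β P P') (Reg β P P') ℂ) = 1 := by
  ext x y
  rcases x with ⟨b', u', J, K⟩ | ⟨b', p', J⟩ | ⟨b', p', K⟩ | ⟨x', J, K⟩
  · simp [MS, tInit, rowF_zero]
  · rfl
  · rfl
  · by_cases h : x' = 0
    · subst h
      simp only [MS, tInit, Matrix.of_apply, if_true, rowF_formB, Matrix.one_apply]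
      congr 1
    · simp [MS, h]

variable [Fintype β] [Fintype P] [Fintype P']

theorem Dm_mul_MS (b : β) (S : TState) (t : Tgt) (f : Form) (hf : f (Sum.inr (Sum.inr 0)) = 0) :
    (Dm b t f : Matrix (Reg β P P') (Reg β P P') ℂ) * MS b S = Dm b t f := by
  ext x y
  rw [Matrix.mul_apply]
  have h1 : ∀ k : Reg β P P', Dm b t f x k * MS b S k y =
      Dm b t f x k * (1 : Matrix (Reg β P P') (Reg β P P') ℂ) k y := by
    intro k
    rcases Dm_row b t x with ⟨J, K, _, h⟩ | ⟨_, h⟩
    · rw [h]
      rcases k with ⟨b', u', J', K'⟩ | ⟨b', p', J'⟩ | ⟨b', p', K'⟩ | ⟨x', J', K'⟩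
      · simp [rowF]
      · rfl
      · rfl
      · by_cases hx : x' = 0
        · subst hx
          have : rowF b J K f (Sum.inr (Sum.inr (Sum.inr (0, J', K')))) = 0 := by
            simp [rowF, hf]
          rw [this]; simp
        · simp [MS, hx]
    · rw [h]; simp
  rw [Finset.sum_congr rfl fun k _ => h1 k, ← Matrix.mul_apply, Matrix.mul_one]

theorem use_mul_MS (b : β) (S : TState) (u : UV) :
    (Dm b (Tgt.U u) (formB 0) : Matrix (Reg β P P') (Reg β P P') ℂ) * MS b S =
      Dm b (Tgt.U u) S.R := by
  ext x y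
  rw [Matrix.mul_apply]
  rcases Dm_row b (Tgt.U u) x with ⟨J, K, _, h⟩ | ⟨_, h⟩
  · rw [Finset.sum_eq_single (rB 0 J K)]
    · rw [h, h, rowF_formB, if_pos rfl, one_mul]
      simp [MS]
    · intro k _ hk
      rw [h, rowF_formB, if_neg (Ne.symm hk), zero_mul]
    · intro hn; exact absurd (Finset.mem_univ _) hn
  · simp [h]

theorem Cost_single (b : β) (t : Tgt) (f : Form) (g : P → P' → Reg β P P') (c : ℂ)
    (hg : ∀ J K y, rowF b J K f y = if g J K = y then c else 0)
    (hgt : ∀ J K J' K', g J K ≠ tg b t J' K') :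
    Cost (1 + Dm b t f : Matrix (Reg β P P') (Reg β P P') ℂ)
      (Fintype.card P * Fintype.card P') := by
  apply Cost.one_add (Dm b t f) (fun x => ∃ J K, x = tg b t J K)
  · intro i j hij
    rcases Dm_row b t i with ⟨J, K, hi, h⟩ | ⟨_, h⟩
    · rw [h, hg] at hij
      refine ⟨⟨J, K, hi⟩, ?_⟩
      rintro ⟨J', K', hj⟩
      by_cases he : g J K = j
      · exact hgt J K J' K' (he.trans hj)
      · rw [if_neg he] at hij; exact hij rfl
    · rw [h] at hij; exact absurd rfl hij
  · rw [← Fintype.card_prod]
    calc (Finset.univ.filter (fun p : Reg β P P' × Reg β P P' => Dm b t f p.1 p.2 ≠ 0)).card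
        ≤ ((Finset.univ : Finset (P × P')).image (fun q => (tg b t q.1 q.2, g q.1 q.2))).card := by
          apply Finset.card_le_card
          rintro ⟨i, j⟩ hij
          simp only [Finset.mem_filter, Finset.mem_univ, true_and] at hij
          rcases Dm_row b t i with ⟨J, K, hi, h⟩ | ⟨_, h⟩
          · rw [h, hg] at hij
            simp only [Finset.mem_image, Finset.mem_univ, true_and, Prod.exists, Prod.mk.injEq]
            refine ⟨J, K, hi.symm, ?_⟩
            by_contra he
            rw [if_neg he] at hij; exact hij rfl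
          · rw [h] at hij; exact absurd rfl hij
      _ ≤ (Finset.univ : Finset (P × P')).card := Finset.card_image_le
      _ = Fintype.card (P × P') := Finset.card_univ

/-- `a x += c * m x` for all `x` -/
def EE {X : Type} (a m : X → Reg β P P') (c : ℂ) : Matrix (Reg β P P') (Reg β P P') ℂ :=
  Matrix.of fun x y => if ∃ J : X, a J = x ∧ m J = y then c else 0

theorem Cost_EE {X : Type} [Fintype X] (a m : X → Reg β P P') (c : ℂ)
    (ham : ∀ x x', a x ≠ m x') : Cost (1 + EE a m c) (Fintype.card X) := by
  apply Cost.one_add (EE a m c) (fun x => ∃ J, x = a J)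
  · intro i j hij
    by_cases he : ∃ J : X, a J = i ∧ m J = j
    · obtain ⟨J, h1, h2⟩ := he
      refine ⟨⟨J, h1.symm⟩, ?_⟩
      rintro ⟨J', h3⟩
      exact ham J' J (h3.symm.trans h2.symm)
    · simp only [EE, Matrix.of_apply, if_neg he] at hij
      exact absurd rfl hij
  · calc (Finset.univ.filter (fun p : Reg β P P' × Reg β P P' => EE a m c p.1 p.2 ≠ 0)).card
        ≤ ((Finset.univ : Finset X).image (fun q => (a q, m q))).card := by
          apply Finset.card_le_card
          rintro ⟨i, j⟩ hij
          simp only [Finset.mem_filter, Finset.mem_univ, true_and] at hij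
          by_cases he : ∃ J : X, a J = i ∧ m J = j
          · obtain ⟨J, h1, h2⟩ := he
            simp only [Finset.mem_image, Finset.mem_univ, true_and, Prod.mk.injEq]
            exact ⟨J, h1, h2⟩
          · simp only [EE, Matrix.of_apply, if_neg he] at hij
            exact absurd rfl hij
      _ ≤ (Finset.univ : Finset X).card := Finset.card_image_le
      _ = Fintype.card X := Finset.card_univ

theorem Cost_double {X : Type} [Fintype X] (b : β) (t : Tgt) (fa fm : Form) (pj : P → P' → X)
    (a m : X → Reg β P P')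
    (ha : ∀ J K y, rowF b J K fa y = if a (pj J K) = y then 1 else 0)
    (hm : ∀ J K y, rowF b J K fm y = if m (pj J K) = y then 1 else 0)
    (hinj : Function.Injective a) (ham : ∀ x x', a x ≠ m x')
    (hat : ∀ x J K, a x ≠ tg b t J K) (hmt : ∀ x J K, m x ≠ tg b t J K) :
    Cost (1 + Dm b t (fa - fm) : Matrix (Reg β P P') (Reg β P P') ℂ)
      (Fintype.card P * Fintype.card P' + 2 * Fintype.card X) := by
  set E : Matrix (Reg β P P') (Reg β P P') ℂ := EE a m 1 with hE
  have hEneg : EE a m (-1) = - E := by
    ext x y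
    simp only [hE, EE, Matrix.of_apply, Matrix.neg_apply]
    split_ifs <;> simp
  set N : Matrix (Reg β P P') (Reg β P P') ℂ := Dm b t fa with hN
  have hEN : E * N = 0 := by
    ext x y
    rw [Matrix.mul_apply, Matrix.zero_apply]
    refine Finset.sum_eq_zero fun k _ => ?_
    by_cases he : ∃ J : X, a J = x ∧ m J = k
    · obtain ⟨J, h1, h2⟩ := he
      rcases Dm_row b t k with ⟨J', K', hi, h⟩ | ⟨_, h⟩
      · exact absurd (h2.trans hi) (hmt J J' K')
      · rw [hN, h, mul_zero]
    · simp only [hE, EE, Matrix.of_apply, if_neg he, zero_mul]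
  have hEE : E * E = 0 := by
    ext x y
    rw [Matrix.mul_apply, Matrix.zero_apply]
    refine Finset.sum_eq_zero fun k _ => ?_
    by_cases he : ∃ J : X, a J = x ∧ m J = k
    · obtain ⟨J, h1, h2⟩ := he
      have he2 : ¬ ∃ J : X, a J = k ∧ m J = y := by
        rintro ⟨J', h3, _⟩
        exact ham J' J (h3.trans h2.symm)
      simp only [hE, EE, Matrix.of_apply, if_neg he2, mul_zero]
    · simp only [hE, EE, Matrix.of_apply, if_neg he, zero_mul]
  have hNE : N * E = Dm b t fm := by
    ext x y
    rw [Matrix.mul_apply]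
    rcases Dm_row b t x with ⟨J, K, _, h⟩ | ⟨_, h⟩
    · rw [Finset.sum_eq_single (a (pj J K))]
      · rw [hN, h, h, ha, hm, if_pos rfl, one_mul]
        simp only [hE, EE, Matrix.of_apply]
        by_cases h2 : m (pj J K) = y
        · rw [if_pos h2, if_pos ⟨pj J K, rfl, h2⟩]
        · rw [if_neg h2, if_neg]
          rintro ⟨J', h3, h4⟩
          rw [hinj h3] at h4
          exact h2 h4
      · intro k _ hk
        rw [hN, h, ha, if_neg (Ne.symm hk), zero_mul]
      · intro hn; exact absurd (Finset.mem_univ _) hn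
    · simp [hN, h]
  have hsub : Dm b t (fa - fm) = N - (Dm b t fm : Matrix (Reg β P P') (Reg β P P') ℂ) := by
    ext x y
    rw [Matrix.sub_apply]
    rcases Dm_row b t x with ⟨J, K, _, h⟩ | ⟨_, h⟩
    · simp only [hN, h, rowF_sub]
    · simp [hN, h]
  have key : (1 + Dm b t (fa - fm) : Matrix (Reg β P P') (Reg β P P') ℂ) =
      (1 + E) * (1 + N) * (1 + EE a m (-1)) := by
    rw [hsub, hEneg, ← hNE]
    have e1 : (1 + E) * (1 + N) = 1 + N + E := by
      rw [mul_add, mul_one, add_mul, one_mul, hEN]
      abel
    rw [e1, mul_add, mul_one, mul_neg, add_mul, add_mul, one_mul, hEE]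
    abel
  rw [key]
  have c1 := Cost_EE a m (1 : ℂ) ham
  have c2 : Cost (1 + N) (Fintype.card P * Fintype.card P') := by
    refine Cost_single b t fa (fun J K => a (pj J K)) 1 ha ?_
    intro J K J' K'
    exact hat _ _ _
  have c3 := Cost_EE a m (-1 : ℂ) ham
  have := (c1.mul c2).mul c3
  refine this.le ?_
  omega

/-- the form that is the source of a step -/
def srcF : Step → Form
  | .A _ p m => optA p - optA m
  | .C _ p m => optC p - optC m
  | .D _ x neg => if neg then - formB x else formB x
  | .use _ => formB 0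

/-- the target of a step -/
def tgtF : Step → Tgt
  | .A t _ _ => t
  | .C t _ _ => t
  | .D t _ _ => t
  | .use u => Tgt.U u

theorem step_MS (b : β) (S : TState) (s : Step) (hs : s.ok) :
    (MS b (Step.exec S s) : Matrix (Reg β P P') (Reg β P P') ℂ) =
      (1 + Dm b (tgtF s) (srcF s)) * MS b S := by
  rw [add_mul, one_mul]
  cases s with
  | A t p m =>
    simp only [Step.exec, tgtF, srcF]
    rw [MS_addTo, Dm_mul_MS]
    cases p <;> cases m <;> rfl
  | C t p m =>
    simp only [Step.exec, tgtF, srcF]
    rw [MS_addTo, Dm_mul_MS]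
    cases p <;> cases m <;> rfl
  | D t x neg =>
    simp only [Step.exec, tgtF, srcF]
    rw [MS_addTo, Dm_mul_MS]
    have hx : x ≠ 0 := hs
    cases neg <;> simp [formB, hx]
  | use u =>
    simp only [Step.exec, tgtF, srcF]
    rw [MS_addTo, use_mul_MS]

theorem tg_ne_A (b b' : β) (t : Tgt) (p : AV) (J J' : P) (K' : P') :
    (rA b' p J : Reg β P P') ≠ tg b t J' K' := by
  cases t <;> simp [tg]

theorem tg_ne_C (b b' : β) (t : Tgt) (p : CV) (K : P') (J' : P) (K' : P') :
    (rC b' p K : Reg β P P') ≠ tg b t J' K' := by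
  cases t <;> simp [tg]

theorem Cost_step (b : β) (s : Step) (hs : s.ok) :
    Cost (1 + Dm b (tgtF s) (srcF s) : Matrix (Reg β P P') (Reg β P P') ℂ)
      (Fintype.card P * Fintype.card P' + 2 * (Fintype.card P + Fintype.card P')) := by
  cases s with
  | A t p m =>
    simp only [tgtF, srcF]
    cases p with
    | none =>
      cases m with
      | none => exact absurd rfl hs
      | some m =>
        refine (Cost_single b t _ (fun J _ => rA b m J) (-1) ?_ ?_).le (by omega)
        · intro J K y
          rw [optA_none, zero_sub, rowF_neg, rowF_optA]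
          split_ifs <;> simp
        · intro J K J' K'; exact tg_ne_A _ _ _ _ _ _ _
    | some p =>
      cases m with
      | none =>
        refine (Cost_single b t _ (fun J _ => rA b p J) 1 ?_ ?_).le (by omega)
        · intro J K y
          rw [optA_none, sub_zero, rowF_optA]
        · intro J K J' K'; exact tg_ne_A _ _ _ _ _ _ _
      | some m =>
        have hpm : p ≠ m := fun h => hs (by rw [h])
        refine (Cost_double b t _ _ (fun J _ => J) (fun J => rA b p J) (fun J => rA b m J)
          ?_ ?_ ?_ ?_ ?_ ?_).le (by omega)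
        · intro J K y; exact rowF_optA b J K p y
        · intro J K y; exact rowF_optA b J K m y
        · intro J J' h; simpa using h
        · intro J J' h
          simp only [rA, Sum.inr.injEq, Sum.inl.injEq, Prod.mk.injEq] at h
          exact hpm h.2.1
        · intro J J' K'; exact tg_ne_A _ _ _ _ _ _ _
        · intro J J' K'; exact tg_ne_A _ _ _ _ _ _ _
  | C t p m =>
    simp only [tgtF, srcF]
    cases p with
    | none =>
      cases m with
      | none => exact absurd rfl hs
      | some m =>
        refine (Cost_single b t _ (fun _ K => rC b m K) (-1) ?_ ?_).le (by omega)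
        · intro J K y
          rw [optC_none, zero_sub, rowF_neg, rowF_optC]
          split_ifs <;> simp
        · intro J K J' K'; exact tg_ne_C _ _ _ _ _ _ _
    | some p =>
      cases m with
      | none =>
        refine (Cost_single b t _ (fun _ K => rC b p K) 1 ?_ ?_).le (by omega)
        · intro J K y
          rw [optC_none, sub_zero, rowF_optC]
        · intro J K J' K'; exact tg_ne_C _ _ _ _ _ _ _
      | some m =>
        have hpm : p ≠ m := fun h => hs (by rw [h])
        refine (Cost_double b t _ _ (fun _ K => K) (fun K => rC b p K) (fun K => rC b m K)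
          ?_ ?_ ?_ ?_ ?_ ?_).le (by omega)
        · intro J K y; exact rowF_optC b J K p y
        · intro J K y; exact rowF_optC b J K m y
        · intro J J' h; simpa using h
        · intro J J' h
          simp only [rC, Sum.inr.injEq, Sum.inl.injEq, Prod.mk.injEq] at h
          exact hpm h.2.1
        · intro J J' K'; exact tg_ne_C _ _ _ _ _ _ _
        · intro J J' K'; exact tg_ne_C _ _ _ _ _ _ _
  | D t x neg =>
    simp only [tgtF, srcF]
    have hx : x ≠ 0 := hs
    have hne : ∀ (J : P) (K : P') J' K', (rB x J K : Reg β P P') ≠ tg b t J' K' := by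
      intro J K J' K'
      cases t <;> simp [tg, hx]
    cases neg with
    | false =>
      refine (Cost_single b t _ (fun J K => rB x J K) 1 ?_ hne).le (by omega)
      intro J K y
      simp only [Bool.false_eq_true, if_false]
      exact rowF_formB b J K x y
    | true =>
      refine (Cost_single b t _ (fun J K => rB x J K) (-1) ?_ hne).le (by omega)
      intro J K y
      simp only [if_true]
      rw [rowF_neg, rowF_formB]
      split_ifs <;> simp
  | use u =>
    simp only [tgtF, srcF]
    refine (Cost_single b _ _ (fun J K => rB 0 J K) 1 ?_ ?_).le (by omega)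
    · intro J K y; exact rowF_formB b J K 0 y
    · intro J K J' K'; simp [tg]

theorem run (b : β) (l : List Step) : ∀ (S : TState), (∀ s ∈ l, s.ok) →
    ∃ G : Matrix (Reg β P P') (Reg β P P') ℂ,
      Cost G (l.length *
        (Fintype.card P * Fintype.card P' + 2 * (Fintype.card P + Fintype.card P'))) ∧
      MS b (l.foldl Step.exec S) = G * MS b S := by
  induction l with
  | nil =>
    intro S _
    exact ⟨1, (Cost.of_mono Mono.one).le (by omega), by simp⟩
  | cons s l ih =>
    intro S h
    obtain ⟨G, hG, hM⟩ := ih (Step.exec S s) (fun s' hs' => h s' (List.mem_cons_of_mem _ hs'))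
    have hs : s.ok := h s List.mem_cons_self
    refine ⟨G * (1 + Dm b (tgtF s) (srcF s)), ?_, ?_⟩
    · have := hG.mul (Cost_step (P := P) (P' := P') b s hs)
      refine this.le (le_of_eq ?_)
      rw [List.length_cons]
      ring
    · rw [List.foldl_cons, hM, step_MS b S s hs, Matrix.mul_assoc]

end AMPLIFYaux

open AMPLIFYaux in
/-- Matrix of a symbolic state `S`: row of `rB 0 J K` is `rowF b J K S.R`, row of `rU b t J K` is
`e_(rU b t J K) + rowF b J K (S.U t)`, all other rows are identity rows.  `M(tInit) = 1`,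
`stepMat s * M(S) = M(exec S s)` for `s.ok`, where `stepMat s` adds the source form of `s` to the
target in every tile: cost `|P||P'|` (for `use`, `D`, and forms with one term) resp.
`|P||P'| + 2|P|` (two A-terms: first `a_p(J) -= a_m(J)` for all `J`, then add, then undo) resp.
`|P||P'| + 2|P'|`.  Everything with `Cost.one_add`.  Finally `tileProg_R`, `tileProg_U`. -/
theorem Cost_block [Fintype β] [Fintype P] [Fintype P'] (b : β) :
    Cost (1 + Nblk (P := P) (P' := P') b)
      (95 * (Fintype.card P * Fintype.card P') +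
        190 * (Fintype.card P + Fintype.card P')) := by
  obtain ⟨G, hG, hM⟩ := run (P := P) (P' := P') b tileProg tInit tileProg_ok
  rw [MS_init, Matrix.mul_one] at hM
  have h2 : (1 + Nblk b : Matrix (Reg β P P') (Reg β P P') ℂ) = G := by
    rw [← hM]
    ext x y
    rw [Matrix.add_apply]
    rcases x with ⟨b', u', J, K⟩ | ⟨b', p', J⟩ | ⟨b', p', K⟩ | ⟨x', J, K⟩
    · simp only [MS, Nblk, Matrix.of_apply, tileProg_U]
    · simp [MS, Nblk]
    · simp [MS, Nblk]
    · by_cases h : x' = 0
      · subst h
        simp only [MS, Nblk, Matrix.of_apply, if_true, tileProg_R, rowF_formB, Matrix.one_apply,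
          add_zero]
        congr 1
      · simp [MS, Nblk, h]
  rw [h2]
  refine hG.le (le_of_eq ?_)
  rw [tileProg_length]
  ring

end

end Crest.Agent.R324
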