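import Crest.Agent.R324.Fourier
import Crest.Prelude.Def_LinCircuit
/-! Row 324, piece BLUESTEIN: for `N ≥ 2n`, `ζ = exp(π i / n)`, `ζ^{2jk} = ζ^{j²} ζ^{k²} ζ^{-(j-k)²}`;
`c : ZMod N → ℂ` with `c (j - k) = ζ^{-(j-k)²}` for `|j-k| < n`, and
`c(t) = ∑_s Λ s ψ(s t)` for `Λ s = (1/N) ∑_t c t ψ(-s t)`; then
`(Fm ψ * diagonal Λ * Fm ψ) (j) (-k) = c (j - k)`. -/
set_option autoImplicit false
open scoped Classical Kronecker
open Matrix
namespace Crest.Agent.R324

/-- every function on `ZMod N` is a Fourier sum -/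
theorem BLUESTEINaux.exists_coeff {N : ℕ} [NeZero N] (ψ : AddChar (ZMod N) ℂ)
    (hψ : ψ.IsPrimitive) (c : ZMod N → ℂ) :
    ∃ Λ : ZMod N → ℂ, ∀ t, ∑ s, Λ s * ψ (s * t) = c t := by
  refine ⟨fun s => (N : ℂ)⁻¹ * ∑ u, c u * ψ (-(s * u)), fun t => ?_⟩
  have hN : (N : ℂ) ≠ 0 := Nat.cast_ne_zero.2 (NeZero.ne N)
  calc ∑ s, (N : ℂ)⁻¹ * (∑ u, c u * ψ (-(s * u))) * ψ (s * t)
      = ∑ s, ∑ u, (N : ℂ)⁻¹ * c u * ψ (s * (t - u)) := by
        refine Finset.sum_congr rfl fun s _ => ?_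
        rw [Finset.mul_sum, Finset.sum_mul]
        refine Finset.sum_congr rfl fun u _ => ?_
        have : s * (t - u) = -(s * u) + s * t := by ring
        rw [this, AddChar.map_add_eq_mul]
        ring
    _ = ∑ u, (N : ℂ)⁻¹ * c u * ∑ s, ψ (s * (t - u)) := by
        rw [Finset.sum_comm]
        refine Finset.sum_congr rfl fun u _ => ?_
        rw [Finset.mul_sum]
    _ = ∑ u, (if u = t then c u else 0) := by
        refine Finset.sum_congr rfl fun u _ => ?_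
        rw [AddChar.sum_mulShift (t - u) hψ]
        by_cases h : u = t
        · subst h
          simp [ZMod.card, hN, mul_comm]
        · have : t - u ≠ 0 := sub_ne_zero.2 (Ne.symm h)
          simp [h, this]
    _ = c t := by simp

theorem BLUESTEINaux.valMinAbs_sub {n N : ℕ} [NeZero N] (hN : 2 * n ≤ N) (j k : Fin n) :
    ((j.val : ZMod N) - (k.val : ZMod N)).valMinAbs = (j.val : ℤ) - (k.val : ℤ) := by
  rw [ZMod.valMinAbs_spec]
  refine ⟨by push_cast; rfl, ?_⟩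
  have hj := j.isLt
  have hk := k.isLt
  rw [Set.mem_Ioc]
  constructor <;> omega

theorem bluestein (n N : ℕ) [NeZero N] (hn : 0 < n) (hN : 2 * n ≤ N) (ψ : AddChar (ZMod N) ℂ)
    (hψ : ψ.IsPrimitive) :
    ∃ (d : Fin n → ℂ) (Λ : ZMod N → ℂ), ∀ j k : Fin n,
      Crest.FourierCircuit.dftMatrix n j k =
        d j * ((Fm ψ * Matrix.diagonal Λ * Fm ψ) (j.val : ZMod N) (-(k.val : ZMod N))) * d k := by
  obtain ⟨Λ, hΛ⟩ := BLUESTEINaux.exists_coeff ψ hψ (fun t : ZMod N =>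
    Complex.exp (-(Real.pi * Complex.I / n * ((t.valMinAbs : ℤ) : ℂ) ^ 2)))
  refine ⟨fun j => Complex.exp (Real.pi * Complex.I / n * (j.val : ℂ) ^ 2), Λ, fun j k => ?_⟩
  have h1 : (Fm ψ * Matrix.diagonal Λ * Fm ψ) (j.val : ZMod N) (-(k.val : ZMod N)) =
      ∑ s, Λ s * ψ (s * ((j.val : ZMod N) - (k.val : ZMod N))) := by
    rw [Matrix.mul_apply]
    refine Finset.sum_congr rfl fun s _ => ?_
    rw [Matrix.mul_diagonal]
    simp only [Fm, Matrix.of_apply]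
    have : s * ((j.val : ZMod N) - (k.val : ZMod N)) =
      (j.val : ZMod N) * s + s * (-(k.val : ZMod N)) := by ring
    rw [this, AddChar.map_add_eq_mul]
    ring
  rw [h1, hΛ, BLUESTEINaux.valMinAbs_sub hN]
  simp only [Crest.FourierCircuit.dftMatrix, Matrix.of_apply]
  rw [← Complex.exp_nat_mul, ← Complex.exp_add, ← Complex.exp_add]
  congr 1
  push_cast
  ring

end Crest.Agent.R324
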