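import Crest.Agent.R324.Defs
/-! Row 324, piece CRT: Fourier matrices and the Chinese remainder theorem.
Use a ring isomorphism `ZMod (∏ Q) ≃+* ∀ l, ZMod (Q l)` (`ZMod.prodEquivPi`), and
`ψ' l x = ψ (e.symm (Pi.single l x))`; then `ψ (e.symm z) = ∏ l, ψ' l (z l)`. -/
set_option autoImplicit false
open scoped Classical Kronecker
open Matrix
namespace Crest.Agent.R324

namespace CRTaux

theorem addChar_sum {A : Type} [AddCommMonoid A] (ψ : AddChar A ℂ) {ι : Type} (s : Finset ι)
    (f : ι → A) : ψ (∑ i ∈ s, f i) = ∏ i ∈ s, ψ (f i) := by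
  classical
  induction s using Finset.induction_on with
  | empty => simp
  | insert a s ha ih => rw [Finset.sum_insert ha, Finset.prod_insert ha, AddChar.map_add_eq_mul, ih]

theorem isPrimitive_iff {R : Type} [CommRing R] (ψ : AddChar R ℂ) :
    ψ.IsPrimitive ↔ ∀ a : R, a ≠ 0 → ∃ x, ψ (a * x) ≠ 1 := by
  unfold AddChar.IsPrimitive
  refine forall_congr' fun a => imp_congr_right fun _ => ?_
  rw [AddChar.ne_one_iff]
  simp only [AddChar.mulShift_apply]

end CRTaux

theorem Fm_crt {ι : Type} [Fintype ι] [DecidableEq ι] (Q : ι → ℕ) [∀ l, NeZero (Q l)]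
    (hQ : Pairwise (fun a b => Nat.Coprime (Q a) (Q b)))
    (ψ : AddChar (ZMod (∏ l, Q l)) ℂ) (hψ : ψ.IsPrimitive) :
    ∃ (ψ' : ∀ l, AddChar (ZMod (Q l)) ℂ) (e : ZMod (∏ l, Q l) ≃ (∀ l, ZMod (Q l))),
      (∀ l, (ψ' l).IsPrimitive) ∧ Fm ψ = (piT (fun l => Fm (ψ' l))).submatrix e e := by
  let e : ZMod (∏ l, Q l) ≃+* (∀ l, ZMod (Q l)) := ZMod.prodEquivPi Q hQ
  let ψ' : ∀ l, AddChar (ZMod (Q l)) ℂ := fun l =>
    { toFun := fun x => ψ (e.symm (Pi.single l x))
      map_zero_eq_one' := by simp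
      map_add_eq_mul' := fun x y => by
        rw [Pi.single_add, map_add, AddChar.map_add_eq_mul] }
  have hψ' : ∀ l x, ψ' l x = ψ (e.symm (Pi.single l x)) := fun l x => rfl
  have hprod : ∀ z : (∀ l, ZMod (Q l)), ψ (e.symm z) = ∏ l, ψ' l (z l) := by
    intro z
    conv_lhs => rw [← Finset.univ_sum_single z]
    rw [map_sum, CRTaux.addChar_sum]
    rfl
  refine ⟨ψ', e.toEquiv, fun l => ?_, ?_⟩
  · rw [CRTaux.isPrimitive_iff] at hψ ⊢
    intro a ha
    have ha' : e.symm (Pi.single l a) ≠ 0 := by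
      intro h
      have h1 : (Pi.single l a : ∀ l, ZMod (Q l)) = 0 := by
        have := congrArg e h
        simpa using this
      have h2 := congrFun h1 l
      rw [Pi.single_eq_same] at h2
      exact ha h2
    obtain ⟨y, hy⟩ := hψ _ ha'
    refine ⟨e y l, fun h => hy ?_⟩
    have h3 : e.symm (Pi.single l a) * y = e.symm (Pi.single l (a * e y l)) := by
      apply e.injective
      rw [map_mul, e.apply_symm_apply, e.apply_symm_apply]
      funext l'
      by_cases hl : l' = l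
      · subst hl
        simp
      · simp [Pi.single_eq_of_ne hl]
    rw [h3]
    exact h
  · ext j k
    show ψ (j * k) = ∏ l, ψ' l (e j l * e k l)
    have h := hprod (e (j * k))
    rw [e.symm_apply_apply] at h
    rw [h, map_mul]
    rfl

theorem Fm_crt_two (a b : ℕ) [NeZero a] [NeZero b] (hab : Nat.Coprime a b)
    (ψ : AddChar (ZMod (a * b)) ℂ) (hψ : ψ.IsPrimitive) :
    ∃ (ψ₁ : AddChar (ZMod a) ℂ) (ψ₂ : AddChar (ZMod b) ℂ) (e : ZMod (a * b) ≃ ZMod a × ZMod b),
      ψ₁.IsPrimitive ∧ ψ₂.IsPrimitive ∧ Fm ψ = (Fm ψ₁ ⊗ₖ Fm ψ₂).submatrix e e := by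
  let e : ZMod (a * b) ≃+* ZMod a × ZMod b := ZMod.chineseRemainder hab
  let ψ₁ : AddChar (ZMod a) ℂ :=
    { toFun := fun x => ψ (e.symm (x, 0))
      map_zero_eq_one' := by
        have : ((0, 0) : ZMod a × ZMod b) = 0 := rfl
        rw [this, map_zero, AddChar.map_zero_eq_one]
      map_add_eq_mul' := fun x y => by
        rw [← AddChar.map_add_eq_mul, ← map_add, Prod.mk_add_mk, add_zero] }
  let ψ₂ : AddChar (ZMod b) ℂ :=
    { toFun := fun x => ψ (e.symm (0, x))
      map_zero_eq_one' := by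
        have : ((0, 0) : ZMod a × ZMod b) = 0 := rfl
        rw [this, map_zero, AddChar.map_zero_eq_one]
      map_add_eq_mul' := fun x y => by
        rw [← AddChar.map_add_eq_mul, ← map_add, Prod.mk_add_mk, add_zero] }
  have hprod : ∀ z : ZMod a × ZMod b, ψ (e.symm z) = ψ₁ z.1 * ψ₂ z.2 := by
    rintro ⟨x, y⟩
    show _ = ψ (e.symm (x, 0)) * ψ (e.symm (0, y))
    rw [← AddChar.map_add_eq_mul, ← map_add, Prod.mk_add_mk, add_zero, zero_add]
  refine ⟨ψ₁, ψ₂, e.toEquiv, ?_, ?_, ?_⟩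
  · rw [CRTaux.isPrimitive_iff] at hψ ⊢
    intro c hc
    have hc' : e.symm (c, 0) ≠ 0 := by
      intro h
      have h1 : ((c, 0) : ZMod a × ZMod b) = 0 := by
        have := congrArg e h
        simpa using this
      exact hc (congrArg Prod.fst h1)
    obtain ⟨y, hy⟩ := hψ _ hc'
    refine ⟨(e y).1, fun h => hy ?_⟩
    have h3 : e.symm (c, 0) * y = e.symm (c * (e y).1, 0) := by
      apply e.injective
      rw [map_mul, e.apply_symm_apply, e.apply_symm_apply]
      ext <;> simp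
    rw [h3]
    exact h
  · rw [CRTaux.isPrimitive_iff] at hψ ⊢
    intro c hc
    have hc' : e.symm (0, c) ≠ 0 := by
      intro h
      have h1 : ((0, c) : ZMod a × ZMod b) = 0 := by
        have := congrArg e h
        simpa using this
      exact hc (congrArg Prod.snd h1)
    obtain ⟨y, hy⟩ := hψ _ hc'
    refine ⟨(e y).2, fun h => hy ?_⟩
    have h3 : e.symm (0, c) * y = e.symm (0, c * (e y).2) := by
      apply e.injective
      rw [map_mul, e.apply_symm_apply, e.apply_symm_apply]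
      ext <;> simp
    rw [h3]
    exact h
  · ext j k
    show ψ (j * k) = ψ₁ ((e j).1 * (e k).1) * ψ₂ ((e j).2 * (e k).2)
    have h := hprod (e (j * k))
    rw [e.symm_apply_apply] at h
    rw [h, map_mul]
    rfl

end Crest.Agent.R324
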