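import Crest.Agent.R324.Defs
import Crest.Prelude.Def_LinCircuit
/-! Row 324, piece CIRCUIT: from `Cost` to a linear circuit.
Suggested invariant: a circuit prefix (list of gates) and a position map `pos : I → ℕ` such that for
all inputs `x` the value at `pos i` is `f x i`. Relabelling (permutations, injections, padding by the
constant `0` at position `n`) is free, a scaling of all `|I|` registers costs `|I|` gates, a
transvection costs 2 gates (`smul`, `add`). Stages: scale inputs by `d` (n gates), embed by `v`
(other registers: constant 0), `F` (`N` scalings + permutation + `2c` gates), `Λ` (`N` gates), `F`,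
then read `u j` and scale by `d j` (n gates). -/
set_option autoImplicit false
open scoped Classical Kronecker
open Matrix
namespace Crest.Agent.R324

namespace CIRCUITaux
open Crest.FourierCircuit

variable {n : ℕ}

/-- all values -/
noncomputable def run (n : ℕ) (gs : List LGate) (x : Fin n → ℂ) : List ℂ :=
  gs.foldl (fun avail g => avail ++ [g.value avail]) (List.ofFn x ++ [0])

theorem run_append (gs : List LGate) (g : LGate) (x : Fin n → ℂ) :
    run n (gs ++ [g]) x = run n gs x ++ [g.value (run n gs x)] := by
  simp [run, List.foldl_append]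

theorem run_length (gs : List LGate) (x : Fin n → ℂ) : (run n gs x).length = n + 1 + gs.length := by
  induction gs using List.reverseRecOn with
  | nil => simp [run]
  | append_singleton gs g ih =>
    rw [run_append, List.length_append, List.length_append, ih]
    simp [add_assoc]

/-- the registers `f` can be computed with `s` gates -/
def Impl (n : ℕ) {I : Type} (f : (Fin n → ℂ) → I → ℂ) (s : ℕ) : Prop :=
  ∃ (gs : List LGate) (pos : I → ℕ), gs.length ≤ s ∧ (∀ i, pos i < n + 1 + gs.length) ∧
    ∀ x i, (run n gs x).getD (pos i) 0 = f x i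

theorem Impl.start : Impl n (fun x (i : Fin n) => x i) 0 := by
  refine ⟨[], fun i => i, le_rfl, fun i => by have := i.2; simp, fun x i => ?_⟩
  have h : (i : ℕ) < (List.ofFn x).length := by simp
  simp only [run, List.foldl_nil]
  rw [List.getD_eq_getElem?_getD, List.getElem?_append_left h]
  simp

theorem Impl.mono {I : Type} {f : (Fin n → ℂ) → I → ℂ} {s t : ℕ} (h : Impl n f s) (hst : s ≤ t) :
    Impl n f t := by
  obtain ⟨gs, pos, h1, h2, h3⟩ := h
  exact ⟨gs, pos, h1.trans hst, h2, h3⟩

theorem Impl.congr {I : Type} {f g : (Fin n → ℂ) → I → ℂ} {s : ℕ} (h : Impl n f s)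
    (hfg : ∀ x i, f x i = g x i) : Impl n g s := by
  obtain rfl : f = g := funext fun x => funext fun i => hfg x i
  exact h

theorem zero_pos (gs : List LGate) (x : Fin n → ℂ) : (run n gs x).getD n 0 = 0 := by
  induction gs using List.reverseRecOn with
  | nil =>
    simp only [run, List.foldl_nil]
    rw [List.getD_eq_getElem?_getD, List.getElem?_append_right (by simp)]
    simp
  | append_singleton gs g ih =>
    rw [run_append, List.getD_append _ _ _ _ (by rw [run_length]; omega), ih]

theorem Impl.relabel {I J : Type} {f : (Fin n → ℂ) → I → ℂ} {s : ℕ} (h : Impl n f s)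
    (r : J → Option I) : Impl n (fun x j => (r j).elim 0 (f x)) s := by
  obtain ⟨gs, pos, h1, h2, h3⟩ := h
  refine ⟨gs, fun j => (r j).elim n pos, h1, fun j => ?_, fun x j => ?_⟩
  · show (r j).elim n pos < _
    cases r j with
    | none => show n < _; omega
    | some i => exact h2 i
  · show (run n gs x).getD ((r j).elim n pos) 0 = (r j).elim 0 (f x)
    cases r j with
    | none => exact zero_pos gs x
    | some i => exact h3 x i

theorem Impl.gate {I : Type} {f : (Fin n → ℂ) → I → ℂ} {s : ℕ} (h : Impl n f s) (a : I)
    (F : (I → ℂ) → ℂ) (hF : ∀ pos : I → ℕ, ∃ g : LGate, ∀ l : List ℂ,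
      g.value l = F fun i => l.getD (pos i) 0) :
    Impl n (fun x => Function.update (f x) a (F (f x))) (s + 1) := by
  obtain ⟨gs, pos, h1, h2, h3⟩ := h
  obtain ⟨g, hg⟩ := hF pos
  refine ⟨gs ++ [g], Function.update pos a (n + 1 + gs.length), ?_, fun i => ?_, fun x i => ?_⟩
  · simp only [List.length_append, List.length_singleton]; omega
  · by_cases hi : i = a
    · subst hi
      simp
    · rw [Function.update_of_ne hi]
      have := h2 i
      simp only [List.length_append, List.length_singleton]; omega
  · rw [run_append]
    show _ = Function.update (f x) a (F (f x)) i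
    by_cases hi : i = a
    · subst hi
      rw [Function.update_self, Function.update_self, List.getD_append_right _ _ _ _
        (by rw [run_length]), run_length, Nat.sub_self, hg]
      simp only [h3]
      rfl
    · rw [Function.update_of_ne hi, Function.update_of_ne hi,
        List.getD_append _ _ _ _ (by rw [run_length]; exact h2 i), h3]

theorem Impl.smul {I : Type} {f : (Fin n → ℂ) → I → ℂ} {s : ℕ} (h : Impl n f s) (a b : I) (c : ℂ) :
    Impl n (fun x => Function.update (f x) a (c * f x b)) (s + 1) :=
  h.gate a (fun y => c * y b) fun pos => ⟨LGate.smul c (pos b), fun _ => rfl⟩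

theorem Impl.add {I : Type} {f : (Fin n → ℂ) → I → ℂ} {s : ℕ} (h : Impl n f s) (a b b' : I) :
    Impl n (fun x => Function.update (f x) a (f x b + f x b')) (s + 1) :=
  h.gate a (fun y => y b + y b') fun pos => ⟨LGate.add (pos b) (pos b'), fun _ => rfl⟩

theorem Impl.scale {I : Type} [Fintype I] {f : (Fin n → ℂ) → I → ℂ} {s : ℕ} (h : Impl n f s)
    (d : I → ℂ) : Impl n (fun x i => d i * f x i) (s + Fintype.card I) := by
  have key : ∀ T : Finset I, Impl n (fun x i => if i ∈ T then d i * f x i else f x i)
      (s + T.card) := by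
    intro T
    induction T using Finset.induction_on with
    | empty => exact h.congr fun x i => by simp
    | insert a T ha ih =>
      rw [Finset.card_insert_of_notMem ha, ← add_assoc]
      refine (ih.smul a a (d a)).congr fun x i => ?_
      by_cases hi : i = a
      · subst hi
        simp [ha]
      · rw [Function.update_of_ne hi]
        simp [hi]
  exact (key Finset.univ).congr fun x i => by simp

/-- transvection -/
theorem Impl.transv {I : Type} {f : (Fin n → ℂ) → I → ℂ} {s : ℕ} (h : Impl n f s) (a b : I)
    (c : ℂ) : Impl n (fun x i => f x i + if i = a then c * f x b else 0) (s + 2) := by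
  have h1 := h.relabel (J := Option I) id
  have h2 := h1.smul none (some b) c
  have h3 := h2.add (some a) (some a) none
  have h4 := h3.relabel (J := I) (fun i => some (some i))
  refine h4.congr fun x i => ?_
  by_cases hi : i = a
  · subst hi
    simp
  · simp [hi]

theorem Impl.mulVec {I : Type} [Fintype I] {F : Matrix I I ℂ} {c : ℕ} (hF : Cost F c)
    {f : (Fin n → ℂ) → I → ℂ} {s : ℕ} (h : Impl n f s) :
    Impl n (fun x => F.mulVec (f x)) (s + Fintype.card I + 2 * c) := by
  obtain ⟨L, M, ⟨σ, d, -, hM⟩, hL, hFL⟩ := hF
  have h1 : Impl n (fun x => M.mulVec (f x)) (s + Fintype.card I) := by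
    refine ((h.relabel (J := I) fun i => some (σ i)).scale d).congr fun x i => ?_
    rw [hM]
    simp [Matrix.mulVec, dotProduct]
  have h2 : ∀ L : List (Matrix.TransvectionStruct I ℂ),
      Impl n (fun x => ((L.map Matrix.TransvectionStruct.toMatrix).prod * M).mulVec (f x))
        (s + Fintype.card I + 2 * L.length) := by
    intro L
    induction L with
    | nil => simpa using h1
    | cons t L ih =>
      rw [List.length_cons, mul_add, ← add_assoc]
      refine (ih.transv t.i t.j t.c).congr fun x i => ?_
      rw [List.map_cons, List.prod_cons, Matrix.mul_assoc]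
      have e := (Matrix.mulVec_mulVec (f x) t.toMatrix
        ((L.map Matrix.TransvectionStruct.toMatrix).prod * M)).symm
      rw [e]
      generalize ((L.map Matrix.TransvectionStruct.toMatrix).prod * M) *ᵥ f x = y
      simp only [Matrix.TransvectionStruct.toMatrix, Matrix.transvection, Matrix.add_mulVec,
        Matrix.one_mulVec, Pi.add_apply]
      congr 1
      by_cases hi : i = t.i
      · subst hi
        simp [Matrix.mulVec, dotProduct, Matrix.single]
      · have hi' : ¬ t.i = i := fun h => hi h.symm
        simp [Matrix.mulVec, dotProduct, Matrix.single, hi, hi']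
  rw [hFL]
  exact (h2 L).mono (by omega)

end CIRCUITaux

open CIRCUITaux in
theorem circuit_of_cost {n N : ℕ} [NeZero N] (F : Matrix (ZMod N) (ZMod N) ℂ) {c : ℕ}
    (hF : Cost F c) (A : Matrix (Fin n) (Fin n) ℂ) (d : Fin n → ℂ) (Λ : ZMod N → ℂ)
    (u v : Fin n → ZMod N) (hv : Function.Injective v)
    (hA : ∀ j k, A j k = d j * ((F * Matrix.diagonal Λ * F) (u j) (v k)) * d k) :
    ∃ P : Crest.FourierCircuit.LinCircuit n, P.Computes A ∧ P.size ≤ 4 * c + 3 * N + 2 * n := by
  have h1 := (Impl.start (n := n)).scale d
  have h2 := h1.relabel (J := ZMod N) fun i => if h : ∃ k, v k = i then some h.choose else none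
  have h3 := Impl.mulVec hF h2
  have h4 := h3.scale Λ
  have h5 := Impl.mulVec hF h4
  have h6 := h5.relabel (J := Fin n) fun j => some (u j)
  have h7 := h6.scale d
  obtain ⟨gs, pos, e1, e2, e3⟩ := h7
  refine ⟨⟨gs, pos⟩, fun x j => ?_, ?_⟩
  swap
  · have : gs.length ≤ 4 * c + 3 * N + 2 * n := by
      refine e1.trans (le_of_eq ?_)
      simp only [ZMod.card, Fintype.card_fin]
      ring
    exact this
  have e4 := e3 x j
  change (run n gs x).getD (pos j) 0 = _
  rw [e4]
  set y : ZMod N → ℂ := fun i =>
    (if h : ∃ k, v k = i then some h.choose else none : Option (Fin n)).elim 0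
      (fun k => d k * x k) with hy
  have hyv : ∀ k, y (v k) = d k * x k := by
    intro k
    have h : ∃ k', v k' = v k := ⟨k, rfl⟩
    have hk : h.choose = k := hv h.choose_spec
    simp only [hy, dif_pos h, hk, Option.elim]
  have hy0 : ∀ i, (¬ ∃ k, v k = i) → y i = 0 := by
    intro i hi
    simp only [hy, dif_neg hi, Option.elim]
  have h8 : ∀ w : ZMod N → ℂ, ∑ i, w i * y i = ∑ k, w (v k) * (d k * x k) := by
    intro w
    have h9 : ∑ i, w i * y i = ∑ i ∈ Finset.univ.image v, w i * y i := by
      refine (Finset.sum_subset (Finset.subset_univ _) fun i _ hi => ?_).symm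
      rw [hy0 i, mul_zero]
      rintro ⟨k, hk⟩
      exact hi (Finset.mem_image.2 ⟨k, Finset.mem_univ _, hk⟩)
    rw [h9, Finset.sum_image fun a _ b _ h => hv h]
    exact Finset.sum_congr rfl fun k _ => by rw [hyv]
  have h10 : F *ᵥ (fun i => Λ i * (F *ᵥ y) i) = (F * Matrix.diagonal Λ * F) *ᵥ y := by
    rw [← Matrix.mulVec_mulVec, ← Matrix.mulVec_mulVec]
    congr 1
    funext i
    rw [Matrix.mulVec_diagonal]
  show d j * (F *ᵥ fun i => Λ i * (F *ᵥ y) i) (u j) = _
  rw [h10]
  show d j * ∑ i, (F * Matrix.diagonal Λ * F) (u j) i * y i = ∑ k, A j k * x k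
  rw [h8, Finset.mul_sum]
  refine Finset.sum_congr rfl fun k _ => ?_
  rw [hA]
  ring

end Crest.Agent.R324
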