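import Crest.Agent.R324.OnCopy
/-! Row 324, piece COPIES: `F_q` on all of `κ` copies, `|κ| ≥ 8`.
`8 ≤ |κ| ≤ 15`: apply `on0` for each copy in turn (equivalence `κ ≃ Fin 8 ⊕ rest` sending the chosen
copy to `0`; `on0 F ⊕ 1`), product over `κ` of commuting matrices `F on copy t`: `|κ| (96k+24)`.
`|κ| ≥ 16`: split `κ ≃ Fin 8 ⊕ κ'` and use `Lay.fromBlocks` (strong induction on `|κ|`). -/
set_option autoImplicit false
open scoped Classical Kronecker
open Matrix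
namespace Crest.Agent.R324

namespace COPIESaux

/-- block diagonal matrix on `κ × Z` -/
noncomputable def bd {κ Z : Type} (f : κ → Matrix Z Z ℂ) : Matrix (κ × Z) (κ × Z) ℂ :=
  Matrix.of fun a b => if a.1 = b.1 then f a.1 a.2 b.2 else 0

theorem bd_apply {κ Z : Type} (f : κ → Matrix Z Z ℂ) (a b : κ × Z) :
    bd f a b = if a.1 = b.1 then f a.1 a.2 b.2 else 0 := rfl

theorem bd_mul {κ Z : Type} [Fintype κ] [Fintype Z] (f g : κ → Matrix Z Z ℂ) :
    bd (fun t => f t * g t) = bd f * bd g := by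
  ext ⟨a, x⟩ ⟨b, y⟩
  rw [Matrix.mul_apply, Fintype.sum_prod_type, Finset.sum_eq_single a]
  · by_cases h : a = b
    · subst h
      simp [bd_apply, Matrix.mul_apply]
    · simp [bd_apply, h]
  · intro c _ hc
    simp [bd_apply, hc.symm]
  · simp

theorem bd_one {κ Z : Type} [DecidableEq κ] [DecidableEq Z] :
    bd (fun _ : κ => (1 : Matrix Z Z ℂ)) = 1 := by
  ext ⟨a, x⟩ ⟨b, y⟩
  simp only [bd_apply, Matrix.one_apply, Prod.mk.injEq]
  by_cases h1 : a = b <;> by_cases h2 : x = y <;> simp [h1, h2]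

theorem bd_const {κ Z : Type} [DecidableEq κ] (A : Matrix Z Z ℂ) :
    bd (fun _ : κ => A) = (1 : Matrix κ κ ℂ) ⊗ₖ A := by
  ext ⟨a, x⟩ ⟨b, y⟩
  simp only [bd_apply, Matrix.one_apply, Matrix.kroneckerMap_apply]
  by_cases h1 : a = b <;> simp [h1]

/-- choose an equivalence sending `t` to `inl 0` -/
theorem exists_equiv {κ : Type} [Fintype κ] (hκ : 8 ≤ Fintype.card κ) (t : κ) :
    ∃ e : κ ≃ Fin 8 ⊕ Fin (Fintype.card κ - 8), e t = Sum.inl 0 := by
  have h : Fintype.card κ = Fintype.card (Fin 8 ⊕ Fin (Fintype.card κ - 8)) := by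
    simp; omega
  have e0 : κ ≃ Fin 8 ⊕ Fin (Fintype.card κ - 8) := Fintype.equivOfCardEq h
  refine ⟨e0.trans (Equiv.swap (e0 t) (Sum.inl 0)), ?_⟩
  simp

/-- index equivalence for the sum -/
def eDist {κ ρ Z : Type} (e : κ ≃ Fin 8 ⊕ ρ) : κ × Z ≃ (Fin 8 × Z) ⊕ (ρ × Z) :=
  (Equiv.prodCongr e (Equiv.refl Z)).trans (Equiv.sumProdDistrib (Fin 8) ρ Z)

theorem on_one_eq {κ ρ : Type} [DecidableEq ρ] {q : ℕ} (e : κ ≃ Fin 8 ⊕ ρ) (t : κ)
    (ht : e t = Sum.inl 0) (A : Matrix (ZMod q) (ZMod q) ℂ) :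
    bd (fun u => if u = t then A else 1) =
      (Matrix.fromBlocks (on0 A) 0 0 (1 : Matrix (ρ × ZMod q) (ρ × ZMod q) ℂ)).submatrix
        (eDist e) (eDist e) := by
  ext ⟨a, x⟩ ⟨b, y⟩
  obtain ⟨a', rfl⟩ := e.symm.surjective a
  obtain ⟨b', rfl⟩ := e.symm.surjective b
  have ht' : t = e.symm (Sum.inl 0) := by rw [← ht]; simp
  subst ht'
  simp only [bd_apply, Matrix.submatrix_apply, eDist, Equiv.trans_apply, Equiv.prodCongr_apply,
    Prod.map_apply, Equiv.refl_apply, Equiv.apply_symm_apply, EmbeddingLike.apply_eq_iff_eq]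
  rcases a' with a' | a' <;> rcases b' with b' | b'
  · simp only [Equiv.sumProdDistrib_apply_left, Matrix.fromBlocks_apply₁₁, on0, Matrix.of_apply,
      Sum.inl.injEq, Prod.mk.injEq]
    by_cases h1 : a' = 0
    · subst h1
      by_cases h2 : b' = 0
      · simp [h2]
      · simp [h2, Ne.symm h2]
    · by_cases h2 : a' = b'
      · subst h2
        by_cases h3 : x = y <;> simp [h1, h3, Matrix.one_apply]
      · simp [h1, h2]
  · simp
  · simp
  · simp only [Equiv.sumProdDistrib_apply_right, Matrix.fromBlocks_apply₂₂, Matrix.one_apply,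
      Sum.inr.injEq, Prod.mk.injEq]
    by_cases h2 : a' = b'
    · by_cases h3 : x = y <;> simp [h2, h3, Matrix.one_apply]
    · simp [h2]

theorem lay_single {q d : ℕ} [NeZero q] {A : Matrix (ZMod q) (ZMod q) ℂ} (hA : Lay d (on0 A))
    {κ : Type} [Fintype κ] (hκ : 8 ≤ Fintype.card κ) (t : κ) :
    Lay d (bd (fun u => if u = t then A else 1)) := by
  obtain ⟨e, he⟩ := exists_equiv hκ t
  rw [on_one_eq e t he]
  exact (Lay.fromBlocks hA ((Lay.of_mono Mono.one).le (Nat.zero_le d))).submatrix _ _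

theorem lay_finset {q d : ℕ} [NeZero q] {A : Matrix (ZMod q) (ZMod q) ℂ} (hA : Lay d (on0 A))
    {κ : Type} [Fintype κ] (hκ : 8 ≤ Fintype.card κ) (s : Finset κ) :
    Lay (s.card * d) (bd (fun u => if u ∈ s then A else 1)) := by
  induction s using Finset.induction_on with
  | empty =>
    simp only [Finset.notMem_empty, if_false, Finset.card_empty, Nat.zero_mul]
    rw [bd_one]
    exact Lay.of_mono Mono.one
  | insert t s hts ih =>
    have h : bd (fun u => if u ∈ insert t s then A else 1) =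
        bd (fun u => if u = t then A else 1) * bd (fun u => if u ∈ s then A else 1) := by
      rw [← bd_mul]
      congr 1
      funext u
      by_cases h1 : u = t
      · subst h1
        simp [hts]
      · simp [h1]
    rw [h, Finset.card_insert_of_notMem hts, Nat.add_mul, Nat.add_comm, Nat.one_mul]
    exact (lay_single hA hκ t).mul ih

theorem lay_small {q d : ℕ} [NeZero q] {A : Matrix (ZMod q) (ZMod q) ℂ} (hA : Lay d (on0 A))
    {κ : Type} [Fintype κ] [DecidableEq κ] (hκ : 8 ≤ Fintype.card κ)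
    (hκ' : Fintype.card κ ≤ 15) : Lay (15 * d) ((1 : Matrix κ κ ℂ) ⊗ₖ A) := by
  have h := lay_finset hA hκ Finset.univ
  simp only [Finset.mem_univ, if_true] at h
  rw [bd_const, Finset.card_univ] at h
  exact h.le (Nat.mul_le_mul_right _ hκ')

theorem kron_sum {κ ρ σ Z : Type} [DecidableEq κ] [DecidableEq ρ] [DecidableEq σ]
    (e : κ ≃ ρ ⊕ σ) (A : Matrix Z Z ℂ) : (1 : Matrix κ κ ℂ) ⊗ₖ A =
    (Matrix.fromBlocks ((1 : Matrix ρ ρ ℂ) ⊗ₖ A) 0 0 ((1 : Matrix σ σ ℂ) ⊗ₖ A)).submatrix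
      ((Equiv.prodCongr e (Equiv.refl Z)).trans (Equiv.sumProdDistrib ρ σ Z))
      ((Equiv.prodCongr e (Equiv.refl Z)).trans (Equiv.sumProdDistrib ρ σ Z)) := by
  ext ⟨a, x⟩ ⟨b, y⟩
  obtain ⟨a', rfl⟩ := e.symm.surjective a
  obtain ⟨b', rfl⟩ := e.symm.surjective b
  simp only [Matrix.submatrix_apply, Equiv.trans_apply, Equiv.prodCongr_apply,
    Prod.map_apply, Equiv.refl_apply, Equiv.apply_symm_apply, Matrix.kroneckerMap_apply,
    Matrix.one_apply, EmbeddingLike.apply_eq_iff_eq]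
  rcases a' with a' | a' <;> rcases b' with b' | b' <;> simp [Matrix.one_apply]

theorem lay_fin {q d : ℕ} [NeZero q] {A : Matrix (ZMod q) (ZMod q) ℂ} (hA : Lay d (on0 A))
    (n : ℕ) : 8 ≤ n → Lay (15 * d) ((1 : Matrix (Fin n) (Fin n) ℂ) ⊗ₖ A) := by
  induction n using Nat.strong_induction_on with
  | _ n ih =>
    intro hn
    by_cases h15 : n ≤ 15
    · exact lay_small hA (by simpa using hn) (by simpa using h15)
    · have e : Fin n ≃ Fin 8 ⊕ Fin (n - 8) := Fintype.equivOfCardEq (by simp; omega)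
      rw [kron_sum e]
      exact (Lay.fromBlocks (ih 8 (by omega) le_rfl) (ih (n - 8) (by omega) (by omega))).submatrix
        _ _

theorem kron_congr {κ ρ Z : Type} [DecidableEq κ] [DecidableEq ρ]
    (e : κ ≃ ρ) (A : Matrix Z Z ℂ) : (1 : Matrix κ κ ℂ) ⊗ₖ A =
    ((1 : Matrix ρ ρ ℂ) ⊗ₖ A).submatrix
      (Equiv.prodCongr e (Equiv.refl Z)) (Equiv.prodCongr e (Equiv.refl Z)) := by
  ext ⟨a, x⟩ ⟨b, y⟩
  simp [Matrix.one_apply]

end COPIESaux

open COPIESaux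

theorem lay_copies (q k : ℕ) [NeZero q] (hodd : Odd q) (h1 : 2 * q ≤ 2 ^ k) (h2 : 2 ^ k ≤ 4 * q)
    (ψ : AddChar (ZMod q) ℂ) (hψ : ψ.IsPrimitive) (κ : Type) [Fintype κ] [DecidableEq κ]
    (hκ : 8 ≤ Fintype.card κ) : Lay (15 * (96 * k + 24)) ((1 : Matrix κ κ ℂ) ⊗ₖ Fm ψ) := by
  have h := lay_fin (lay_on0 q k hodd h1 h2 ψ hψ) (Fintype.card κ) hκ
  rw [kron_congr (Fintype.equivFin κ)]
  exact h.submatrix _ _

/-- piece PAIR (easy consequence): choose `k` with `2q ≤ 2^k < 4q`, `F ⊗ F' = (F ⊗ 1)(1 ⊗ F')`. -/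
theorem lay_pair {q q' : ℕ} [NeZero q] [NeZero q'] (hq : Odd q) (hq' : Odd q') (h8 : 8 ≤ q)
    (h8' : 8 ≤ q') {K : ℕ} (hK : 4 * q ≤ 2 ^ K) (hK' : 4 * q' ≤ 2 ^ K)
    (ψ : AddChar (ZMod q) ℂ) (hψ : ψ.IsPrimitive) (ψ' : AddChar (ZMod q') ℂ)
    (hψ' : ψ'.IsPrimitive) : Lay (2880 * K + 720) (Fm ψ ⊗ₖ Fm ψ') := by
  have key : ∀ n : ℕ, 8 ≤ n → 4 * n ≤ 2 ^ K → ∃ k ≤ K, 2 * n ≤ 2 ^ k ∧ 2 ^ k ≤ 4 * n := by
    intro n hn hnK
    have hex : ∃ k, 2 * n ≤ 2 ^ k := ⟨K, by omega⟩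
    refine ⟨Nat.find hex, Nat.find_min' hex (by omega), Nat.find_spec hex, ?_⟩
    have hpos : Nat.find hex ≠ 0 := by
      intro h0
      have := Nat.find_spec hex
      rw [h0] at this
      omega
    obtain ⟨j, hj⟩ := Nat.exists_eq_succ_of_ne_zero hpos
    have hmin := Nat.find_min hex (m := j) (by omega)
    rw [hj, Nat.pow_succ]
    omega
  obtain ⟨k, hkK, hk1, hk2⟩ := key q h8 hK
  obtain ⟨k', hkK', hk1', hk2'⟩ := key q' h8' hK'
  have L1 := lay_copies q k hq hk1 hk2 ψ hψ (ZMod q') (by rw [ZMod.card]; exact h8')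
  have L2 := lay_copies q' k' hq' hk1' hk2' ψ' hψ' (ZMod q) (by rw [ZMod.card]; exact h8)
  have e1 : Fm ψ ⊗ₖ (1 : Matrix (ZMod q') (ZMod q') ℂ) =
      ((1 : Matrix (ZMod q') (ZMod q') ℂ) ⊗ₖ Fm ψ).submatrix (Equiv.prodComm _ _)
        (Equiv.prodComm _ _) := by
    ext ⟨i, k⟩ ⟨j, l⟩
    simp [mul_comm]
  have L3 : Lay (15 * (96 * k + 24)) (Fm ψ ⊗ₖ (1 : Matrix (ZMod q') (ZMod q') ℂ)) := by
    rw [e1]
    exact L1.submatrix _ _
  have e2 : Fm ψ ⊗ₖ Fm ψ' = (Fm ψ ⊗ₖ (1 : Matrix (ZMod q') (ZMod q') ℂ)) *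
      ((1 : Matrix (ZMod q) (ZMod q) ℂ) ⊗ₖ Fm ψ') := by
    rw [← Matrix.mul_kronecker_mul, Matrix.mul_one, Matrix.one_mul]
  rw [e2]
  refine (L3.mul L2).le ?_
  omega

end Crest.Agent.R324
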