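import Crest.Agent.R324.MonoApi
/-! Row 324, piece COSTAPI: closure properties of `Cost`, `RCost`.
Key fact: a monomial matrix can be moved through a transvection:
`M * transvection i j c = transvection i' j' c' * M'`. -/
set_option autoImplicit false
open scoped Classical Kronecker
open Matrix
namespace Crest.Agent.R324

namespace COSTAPIaux

theorem transv_apply {I : Type} [DecidableEq I] (i j : I) (c : ℂ) (a b : I) :
    Matrix.transvection i j c a b = (if a = b then 1 else 0) + (if i = a ∧ j = b then c else 0) := by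
  simp only [Matrix.transvection, Matrix.add_apply, Matrix.one_apply, Matrix.single_apply]

/-- transport a transvection along an injection -/
def lift {I K : Type} (f : I → K) (hf : Function.Injective f)
    (t : Matrix.TransvectionStruct I ℂ) : Matrix.TransvectionStruct K ℂ :=
  ⟨f t.i, f t.j, fun h => t.hij (hf h), t.c⟩

theorem mk_cost {I J : Type} [Fintype I] [dI : DecidableEq I] {A : Matrix I J ℂ} {k : ℕ}
    (L : List (Matrix.TransvectionStruct I ℂ)) (M : Matrix I J ℂ) (h1 : Mono M) (h2 : L.length ≤ k)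
    (h3 : A = (L.map Matrix.TransvectionStruct.toMatrix).prod * M) : Cost A k := by
  have : dI = fun a b => Classical.propDecidable (a = b) := Subsingleton.elim _ _
  subst this
  exact ⟨L, M, h1, h2, h3⟩

theorem list_lift {I K : Type} [Fintype I] [Fintype K] [DecidableEq I] [DecidableEq K]
    (E : Matrix I I ℂ → Matrix K K ℂ)
    (h1 : E 1 = 1) (hm : ∀ A B, E (A * B) = E A * E B)
    (φ : Matrix.TransvectionStruct I ℂ → Matrix.TransvectionStruct K ℂ)
    (hφ : ∀ t, E t.toMatrix = (φ t).toMatrix) (L : List (Matrix.TransvectionStruct I ℂ)) :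
    E (L.map Matrix.TransvectionStruct.toMatrix).prod =
      ((L.map φ).map Matrix.TransvectionStruct.toMatrix).prod := by
  induction L with
  | nil => simpa using h1
  | cons t L ih => simp [hm, ih, hφ]

theorem push {I J : Type} [Fintype I] [Fintype J] {M : Matrix I J ℂ} (hM : Mono M)
    (t : Matrix.TransvectionStruct J ℂ) :
    ∃ t' : Matrix.TransvectionStruct I ℂ, M * t.toMatrix = t'.toMatrix * M := by
  obtain ⟨σ, d, hd, rfl⟩ := hM
  refine ⟨⟨σ.symm t.i, σ.symm t.j, fun h => t.hij (σ.symm.injective h),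
    t.c * d (σ.symm t.i) / d (σ.symm t.j)⟩, ?_⟩
  ext a b
  rw [Matrix.mul_apply, Matrix.mul_apply]
  simp only [Matrix.TransvectionStruct.toMatrix, transv_apply, Matrix.of_apply]
  rw [Finset.sum_eq_single (σ a)]
  · rw [if_pos rfl]
    simp only [add_mul, Finset.sum_add_distrib]
    rw [Finset.sum_eq_single a]
    · rw [Finset.sum_eq_single (σ.symm t.j)]
      · by_cases h1 : σ a = b
        · subst h1
          by_cases h2 : t.i = σ a
          · have h3 : t.j ≠ σ a := fun h => t.hij (h2.trans h.symm)
            have h4 : σ.symm t.i = a := by rw [h2]; simp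
            simp [h2, h3]
          · have h4 : ¬ (σ.symm t.i = a) := fun h => h2 (by rw [← h]; simp)
            simp [h2, h4]
        · by_cases h2 : t.i = σ a
          · have h4 : σ.symm t.i = a := by rw [h2]; simp
            by_cases h3 : t.j = b
            · have h5 : d (σ.symm t.j) ≠ 0 := hd _
              rw [h4]
              simp only [h1, h2, h3, if_false, and_self, if_true, Equiv.apply_symm_apply, zero_add, mul_zero]
              rw [← h3]
              field_simp
            · simp [h1, h2, h3]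
          · have h4 : ¬ (σ.symm t.i = a) := fun h => h2 (by rw [← h]; simp)
            simp [h1, h2, h4]
      · intro j _ hj
        rw [if_neg (fun h => hj h.2.symm), zero_mul]
      · intro h; exact absurd (Finset.mem_univ _) h
    · intro j _ hj
      rw [if_neg (fun h => hj h.symm), zero_mul]
    · intro h; exact absurd (Finset.mem_univ _) h
  · intro j _ hj
    rw [if_neg (fun h => hj h.symm), zero_mul]
  · intro h; exact absurd (Finset.mem_univ _) h

theorem push_list {I J : Type} [Fintype I] [Fintype J] {M : Matrix I J ℂ} (hM : Mono M)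
    (L : List (Matrix.TransvectionStruct J ℂ)) :
    ∃ L' : List (Matrix.TransvectionStruct I ℂ), L'.length = L.length ∧
      M * (L.map Matrix.TransvectionStruct.toMatrix).prod =
        (L'.map Matrix.TransvectionStruct.toMatrix).prod * M := by
  induction L with
  | nil => exact ⟨[], rfl, by simp⟩
  | cons t L ih =>
    obtain ⟨L', h1, h2⟩ := ih
    obtain ⟨t', h3⟩ := push hM t
    refine ⟨t' :: L', by simp [h1], ?_⟩
    simp only [List.map_cons, List.prod_cons]
    rw [← Matrix.mul_assoc, h3, Matrix.mul_assoc, h2, Matrix.mul_assoc]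

end COSTAPIaux
open COSTAPIaux

theorem Cost.of_mono {I J : Type} [Fintype I] {A : Matrix I J ℂ} (h : Mono A) : Cost A 0 :=
  ⟨[], A, h, le_rfl, by simp⟩

theorem Cost.trans {I : Type} [Fintype I] [DecidableEq I] {i j : I} (h : i ≠ j) (c : ℂ) :
    Cost (Matrix.transvection i j c) 1 := by
  refine mk_cost [⟨i, j, h, c⟩] 1 Mono.one le_rfl ?_
  simp

theorem Cost.le {I J : Type} [Fintype I] {A : Matrix I J ℂ} {k l : ℕ} (h : Cost A k)
    (hk : k ≤ l) : Cost A l := by
  obtain ⟨L, M, h1, h2, h3⟩ := h
  exact ⟨L, M, h1, h2.trans hk, h3⟩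

theorem Cost.mul {I J K : Type} [Fintype I] [Fintype J] {A : Matrix I J ℂ} {B : Matrix J K ℂ}
    {a b : ℕ} (hA : Cost A a) (hB : Cost B b) : Cost (A * B) (a + b) := by
  obtain ⟨L, M, h1, h2, rfl⟩ := hA
  obtain ⟨L', M', h1', h2', rfl⟩ := hB
  obtain ⟨L'', h3, h4⟩ := push_list h1 L'
  refine ⟨L ++ L'', M * M', h1.mul h1', by simp; omega, ?_⟩
  rw [List.map_append, List.prod_append, Matrix.mul_assoc, ← Matrix.mul_assoc M, h4]
  simp only [Matrix.mul_assoc]

theorem Cost.submatrix {I J I' J' : Type} [Fintype I] [Fintype I'] {A : Matrix I J ℂ} {k : ℕ}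
    (hA : Cost A k) (e : I' ≃ I) (f : J' ≃ J) : Cost (A.submatrix e f) k := by
  obtain ⟨L, M, h1, h2, rfl⟩ := hA
  refine ⟨L.map (lift e.symm e.symm.injective), M.submatrix e f, h1.submatrix e f,
    by simpa using h2, ?_⟩
  rw [← list_lift (fun P => P.submatrix e e) (Matrix.submatrix_one_equiv e)
    (fun A B => (Matrix.submatrix_mul_equiv A B e e e).symm) _ _ L]
  · exact (Matrix.submatrix_mul_equiv _ _ e e f).symm
  · intro t
    ext a b
    simp only [Matrix.TransvectionStruct.toMatrix, Matrix.submatrix_apply, transv_apply, lift]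
    simp only [EmbeddingLike.apply_eq_iff_eq, Equiv.symm_apply_eq]

theorem Cost.fromBlocks {I J I' J' : Type} [Fintype I] [Fintype I'] {A : Matrix I J ℂ}
    {B : Matrix I' J' ℂ} {a b : ℕ} (hA : Cost A a) (hB : Cost B b) :
    Cost (Matrix.fromBlocks A 0 0 B) (a + b) := by
  obtain ⟨L, M, h1, h2, rfl⟩ := hA
  obtain ⟨L', M', h1', h2', rfl⟩ := hB
  refine mk_cost (L.map (lift Sum.inl Sum.inl_injective) ++ L'.map (lift Sum.inr Sum.inr_injective))
    (Matrix.fromBlocks M 0 0 M') (h1.fromBlocks h1') (by simp; omega) ?_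
  rw [List.map_append, List.prod_append,
    ← list_lift (fun P : Matrix I I ℂ => Matrix.fromBlocks P 0 0 (1 : Matrix I' I' ℂ)) (by simp)
      (fun A B => by simp [Matrix.fromBlocks_multiply]) _ _ L,
    ← list_lift (fun P : Matrix I' I' ℂ => Matrix.fromBlocks (1 : Matrix I I ℂ) 0 0 P) (by simp)
      (fun A B => by simp [Matrix.fromBlocks_multiply]) _ _ L']
  · simp [Matrix.fromBlocks_multiply]
  · intro t
    ext a b
    rcases a with a | a <;> rcases b with b | b <;>
      simp [Matrix.TransvectionStruct.toMatrix, transv_apply, lift, Matrix.one_apply]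
  · intro t
    ext a b
    rcases a with a | a <;> rcases b with b | b <;>
      simp [Matrix.TransvectionStruct.toMatrix, transv_apply, lift, Matrix.one_apply]

namespace COSTAPIaux

theorem bd_aux {o : Type} [Fintype o] [DecidableEq o] {I : o → Type} [∀ b, Fintype (I b)]
    (P : ∀ b, List (Matrix.TransvectionStruct (I b) ℂ)) (s : Finset o) :
    ∃ L : List (Matrix.TransvectionStruct (Σ b, I b) ℂ), L.length = ∑ b ∈ s, (P b).length ∧
      Matrix.blockDiagonal' (fun b => if b ∈ s then ((P b).map Matrix.TransvectionStruct.toMatrix).prod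
        else (1 : Matrix (I b) (I b) ℂ)) = (L.map Matrix.TransvectionStruct.toMatrix).prod := by
  induction s using Finset.induction_on with
  | empty =>
    refine ⟨[], by simp, ?_⟩
    simp only [Finset.notMem_empty, if_false, List.map_nil, List.prod_nil]
    rw [← Matrix.blockDiagonal'_one (α := ℂ) (m' := I)]
    rfl
  | insert b s hb ih =>
    obtain ⟨L, h1, h2⟩ := ih
    set Q : Matrix (I b) (I b) ℂ → (∀ b, Matrix (I b) (I b) ℂ) :=
      fun P => Function.update (fun _ => 1) b P with hQ
    have hQ1 : Q 1 = fun _ => 1 := Function.update_eq_self_iff.2 rfl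
    have key : Matrix.blockDiagonal' (Q ((P b).map Matrix.TransvectionStruct.toMatrix).prod) =
        ((((P b).map (lift (fun x => (⟨b, x⟩ : Σ b, I b)) sigma_mk_injective))).map
          Matrix.TransvectionStruct.toMatrix).prod := by
      refine list_lift (fun P => Matrix.blockDiagonal' (Q P)) ?_ ?_ _ ?_ (P b)
      · show Matrix.blockDiagonal' (Q 1) = 1
        rw [hQ1]
        exact Matrix.blockDiagonal'_one
      · intro A B
        show Matrix.blockDiagonal' (Q (A * B)) = Matrix.blockDiagonal' (Q A) * Matrix.blockDiagonal' (Q B)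
        rw [← Matrix.blockDiagonal'_mul]
        congr 1
        funext c
        by_cases hc : c = b
        · subst hc; simp [hQ]
        · simp [hQ, Function.update_of_ne hc]
      · intro t
        ext ⟨c, x⟩ ⟨c', y⟩
        simp only [Matrix.TransvectionStruct.toMatrix, transv_apply, lift]
        by_cases hcc : c = c'
        · subst hcc
          rw [Matrix.blockDiagonal'_apply_eq]
          by_cases hc : c = b
          · subst hc
            simp [hQ, transv_apply]
          · have hc' : ¬ b = c := fun h => hc h.symm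
            simp [hQ, Function.update_of_ne hc, Matrix.one_apply, hc']
        · rw [Matrix.blockDiagonal'_apply_ne _ _ _ hcc]
          have h3 : ¬ ((⟨c, x⟩ : Σ b, I b) = ⟨c', y⟩) := fun h => hcc (congrArg Sigma.fst h)
          rw [if_neg h3, if_neg, add_zero]
          rintro ⟨h4, h5⟩
          exact hcc ((congrArg Sigma.fst h4).symm.trans (congrArg Sigma.fst h5))
    refine ⟨(P b).map (lift (fun x => (⟨b, x⟩ : Σ b, I b)) sigma_mk_injective) ++ L, ?_, ?_⟩
    · rw [Finset.sum_insert hb, List.length_append, h1, List.length_map]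
    · rw [List.map_append, List.prod_append, ← key, ← h2, ← Matrix.blockDiagonal'_mul]
      congr 1
      funext c
      by_cases hc : c = b
      · subst hc
        simp [hQ, hb]
      · simp [hQ, Function.update_of_ne hc, hc]

end COSTAPIaux

theorem Cost.blockDiagonal' {o : Type} [Fintype o] [DecidableEq o] {I J : o → Type}
    [∀ b, Fintype (I b)] {A : ∀ b, Matrix (I b) (J b) ℂ} {k : o → ℕ}
    (h : ∀ b, Cost (A b) (k b)) : Cost (Matrix.blockDiagonal' A) (∑ b, k b) := by
  choose P M h1 h2 h3 using h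
  obtain ⟨L, h4, h5⟩ := bd_aux P Finset.univ
  refine mk_cost L (Matrix.blockDiagonal' M) (Mono.blockDiagonal' h1) ?_ ?_
  · rw [h4]
    exact Finset.sum_le_sum fun b _ => h2 b
  · rw [← h5]
    rw [← Matrix.blockDiagonal'_mul]
    congr 1
    funext b
    rw [h3 b]
    simp

theorem Cost.kron_one {β I J : Type} [Fintype β] [DecidableEq β] [Fintype I] {A : Matrix I J ℂ}
    {a : ℕ} (hA : Cost A a) : Cost (A ⊗ₖ (1 : Matrix β β ℂ)) (Fintype.card β * a) := by
  have h1 := Cost.blockDiagonal' (o := β) (I := fun _ => I) (J := fun _ => J) (A := fun _ => A)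
    (k := fun _ => a) (fun _ => hA)
  have h2 := h1.submatrix ((Equiv.prodComm I β).trans (Equiv.sigmaEquivProd β I).symm)
    ((Equiv.prodComm J β).trans (Equiv.sigmaEquivProd β J).symm)
  rw [Finset.sum_const, Finset.card_univ, smul_eq_mul] at h2
  convert h2 using 1
  rw [Matrix.kronecker_one]
  rfl

theorem Cost.one_kron {β I J : Type} [Fintype β] [DecidableEq β] [Fintype I] {A : Matrix I J ℂ}
    {a : ℕ} (hA : Cost A a) : Cost ((1 : Matrix β β ℂ) ⊗ₖ A) (Fintype.card β * a) := by
  have h1 := (Cost.kron_one (β := β) hA).submatrix (Equiv.prodComm β I) (Equiv.prodComm β J)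
  convert h1 using 1
  ext ⟨a, b⟩ ⟨c, d⟩
  simp [Matrix.kroneckerMap_apply, mul_comm]

theorem RCost.of_mono {I J : Type} [Fintype I] {A : Matrix I J ℂ} (h : Mono A) :
    RCost A 0 := ⟨0, Cost.of_mono h, by simp⟩

theorem RCost.le {I J : Type} [Fintype I] {A : Matrix I J ℂ} {x y : ℝ} (h : RCost A x)
    (hk : x ≤ y) : RCost A y := by
  obtain ⟨k, h1, h2⟩ := h
  exact ⟨k, h1, h2.trans hk⟩

theorem RCost.mul {I J K : Type} [Fintype I] [Fintype J] {A : Matrix I J ℂ} {B : Matrix J K ℂ}
    {a b : ℝ} (hA : RCost A a) (hB : RCost B b) : RCost (A * B) (a + b) := by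
  obtain ⟨k, h1, h2⟩ := hA
  obtain ⟨l, h3, h4⟩ := hB
  exact ⟨k + l, h1.mul h3, by push_cast; linarith⟩

theorem RCost.submatrix {I J I' J' : Type} [Fintype I] [Fintype I'] {A : Matrix I J ℂ} {x : ℝ}
    (hA : RCost A x) (e : I' ≃ I) (f : J' ≃ J) : RCost (A.submatrix e f) x := by
  obtain ⟨k, h1, h2⟩ := hA
  exact ⟨k, h1.submatrix e f, h2⟩

theorem RCost.blockDiagonal' {o : Type} [Fintype o] [DecidableEq o] {I J : o → Type}
    [∀ b, Fintype (I b)] {A : ∀ b, Matrix (I b) (J b) ℂ} {x : o → ℝ}
    (h : ∀ b, RCost (A b) (x b)) : RCost (Matrix.blockDiagonal' A) (∑ b, x b) := by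
  choose k h1 h2 using h
  refine ⟨∑ b, k b, Cost.blockDiagonal' h1, ?_⟩
  push_cast
  exact Finset.sum_le_sum fun b _ => h2 b

theorem RCost.one_kron {β I J : Type} [Fintype β] [DecidableEq β] [Fintype I]
    {A : Matrix I J ℂ} {x : ℝ} (hA : RCost A x) :
    RCost ((1 : Matrix β β ℂ) ⊗ₖ A) (Fintype.card β * x) := by
  obtain ⟨k, h1, h2⟩ := hA
  refine ⟨_, h1.one_kron, ?_⟩
  push_cast
  exact mul_le_mul_of_nonneg_left h2 (by positivity)

theorem RCost.kron_one {β I J : Type} [Fintype β] [DecidableEq β] [Fintype I]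
    {A : Matrix I J ℂ} {x : ℝ} (hA : RCost A x) :
    RCost (A ⊗ₖ (1 : Matrix β β ℂ)) (Fintype.card β * x) := by
  obtain ⟨k, h1, h2⟩ := hA
  refine ⟨_, h1.kron_one, ?_⟩
  push_cast
  exact mul_le_mul_of_nonneg_left h2 (by positivity)

end Crest.Agent.R324
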