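import Mathlib

/-!
# Row 324 (S0501): DFT in `n (log n)^θ`.  Definitions.

* `Mono A`     : `A` is a monomial matrix (one nonzero entry per row/column); FREE.
* `Cost A k`   : `A` = (product of at most `k` transvections) * (monomial matrix).
* `RCost A x`  : `Cost A k` for some natural number `k ≤ x` (`x` real).
* `piT A`      : tensor product `⨂ l, A l` of a finite family, on functions.
* `kpow ι A`   : tensor power.
* `Pow θ N A κ`: for all `k ≤ N` the tensor power `A^{⊗k}` costs at most `κ k^θ |I|^k`.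
* `starM α`    : star matrix on `Option α`: every leaf `some i` receives the centre `none`.
* `zM`         : `starM Unit`, i.e. `[[1,0],[1,1]]`.
* `Layer G`, `Lay d A` : `A` is a product of `d` full layers and a monomial matrix (a layer is, up to
  monomial matrices, a block sum of copies of `zM` and an identity).
-/

set_option autoImplicit false

open scoped Classical Kronecker
open Matrix

namespace Crest.Agent.R324

noncomputable section

/-- monomial matrix -/
def Mono {I J : Type} (A : Matrix I J ℂ) : Prop :=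
  ∃ (σ : I ≃ J) (d : I → ℂ), (∀ i, d i ≠ 0) ∧ A = Matrix.of fun i j => if σ i = j then d i else 0

/-- `A` is a product of at most `k` transvections, times a monomial matrix -/
def Cost {I J : Type} [Fintype I] (A : Matrix I J ℂ) (k : ℕ) : Prop :=
  ∃ (L : List (Matrix.TransvectionStruct I ℂ)) (M : Matrix I J ℂ),
    Mono M ∧ L.length ≤ k ∧ A = (L.map Matrix.TransvectionStruct.toMatrix).prod * M

/-- real version of the cost -/
def RCost {I J : Type} [Fintype I] (A : Matrix I J ℂ) (x : ℝ) : Prop :=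
  ∃ k : ℕ, Cost A k ∧ (k : ℝ) ≤ x

/-- tensor product of a family of matrices -/
def piT {ι : Type} [Fintype ι] {I J : ι → Type} (A : ∀ l, Matrix (I l) (J l) ℂ) :
    Matrix (∀ l, I l) (∀ l, J l) ℂ :=
  Matrix.of fun x y => ∏ l, A l (x l) (y l)

/-- tensor power -/
def kpow (ι : Type) [Fintype ι] {I J : Type} (A : Matrix I J ℂ) : Matrix (ι → I) (ι → J) ℂ :=
  piT (fun _ : ι => A)

/-- cost bound for tensor powers -/
def Pow (θ : ℝ) (N : ℕ) {I J : Type} [Fintype I] (A : Matrix I J ℂ) (κ : ℝ) : Prop :=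
  ∀ k ≤ N, RCost (kpow (Fin k) A) (κ * (k : ℝ) ^ θ * (Fintype.card I : ℝ) ^ k)

/-- star matrix: leaf `some i` receives the centre `none` -/
def starM (α : Type) : Matrix (Option α) (Option α) ℂ :=
  Matrix.of fun x y => if x = y ∨ y = none then 1 else 0

/-- the `2 × 2` matrix `[[1,0],[1,1]]` -/
abbrev zM : Matrix (Option Unit) (Option Unit) ℂ := starM Unit

/-- `β` copies of `B` and an identity on `γ` -/
def blk (β γ : Type) {S : Type} (B : Matrix S S ℂ) :
    Matrix ((β × S) ⊕ γ) ((β × S) ⊕ γ) ℂ :=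
  Matrix.fromBlocks ((1 : Matrix β β ℂ) ⊗ₖ B) 0 0 (1 : Matrix γ γ ℂ)

/-- a full layer -/
def Layer {I : Type} [Fintype I] (G : Matrix I I ℂ) : Prop :=
  ∃ (β γ : Type) (_ : Fintype β) (_ : Fintype γ) (e : I ≃ (β × Option Unit) ⊕ γ)
    (M₁ M₂ : Matrix I I ℂ), Mono M₁ ∧ Mono M₂ ∧ G = M₁ * (blk β γ zM).submatrix e e * M₂

/-- `A` is a product of `d` layers and a monomial matrix -/
def Lay {I J : Type} [Fintype I] : ℕ → Matrix I J ℂ → Prop
  | 0, A => Mono A
  | d + 1, A => ∃ (G : Matrix I I ℂ) (A' : Matrix I J ℂ), Layer G ∧ Lay d A' ∧ A = G * A'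

/-- the exponent used in the proof -/
def th : ℝ := 1 - 1 / 10 ^ 12

/-- Fourier matrix of an additive character of `ZMod m` -/
def Fm {m : ℕ} (ψ : AddChar (ZMod m) ℂ) : Matrix (ZMod m) (ZMod m) ℂ :=
  Matrix.of fun j k => ψ (j * k)

/-- elementary block matrix `y += A x` on `X ⊕ Y` -/
def Eblk {X Y : Type} (A : Matrix Y X ℂ) : Matrix (X ⊕ Y) (X ⊕ Y) ℂ :=
  Matrix.fromBlocks (1 : Matrix X X ℂ) 0 A (1 : Matrix Y Y ℂ)

/-- eight copies of `ZMod q`; copy `1` += `A` (copy `0`) -/
def Ecop {q : ℕ} (A : Matrix (ZMod q) (ZMod q) ℂ) :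
    Matrix (Fin 8 × ZMod q) (Fin 8 × ZMod q) ℂ :=
  1 + Matrix.of fun a b => if a.1 = 1 ∧ b.1 = 0 then A a.2 b.2 else 0

/-- eight copies of `ZMod q`; `A` applied in place to copy `0`, identity on the others -/
def on0 {q : ℕ} (A : Matrix (ZMod q) (ZMod q) ℂ) :
    Matrix (Fin 8 × ZMod q) (Fin 8 × ZMod q) ℂ :=
  Matrix.of fun a b => if a.1 = 0 ∧ b.1 = 0 then A a.2 b.2 else if a = b ∧ a.1 ≠ 0 then 1 else 0

end

end Crest.Agent.R324
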