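import Crest.Agent.R324.MonoApi
/-! Row 324, piece FOURIER: basic identities for `Fm ψ`, `ψ` primitive on `ZMod m`. -/
set_option autoImplicit false
open scoped Classical Kronecker
open Matrix
namespace Crest.Agent.R324

namespace FOURIERaux

theorem sum_shift {m : ℕ} [NeZero m] (ψ : AddChar (ZMod m) ℂ) (hψ : ψ.IsPrimitive) (b : ZMod m) :
    ∑ t : ZMod m, ψ (t * b) = if b = 0 then (m : ℂ) else 0 := by
  have h := AddChar.sum_mulShift (R := ZMod m) (R' := ℂ) (ψ := ψ) b hψ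
  rw [ZMod.card] at h
  rw [h]
  split_ifs <;> simp

end FOURIERaux

/-- `∑_t ψ(j t) ψ(-t k) = m [j = k]` -/
theorem Fm_mul_rev {m : ℕ} [NeZero m] (ψ : AddChar (ZMod m) ℂ) (hψ : ψ.IsPrimitive) :
    Fm ψ * (Fm ψ).submatrix (Equiv.neg (ZMod m)) (Equiv.refl _) =
      (m : ℂ) • (1 : Matrix (ZMod m) (ZMod m) ℂ) := by
  ext j k
  rw [Matrix.mul_apply, Matrix.smul_apply, Matrix.one_apply]
  have h : ∀ t : ZMod m, Fm ψ j t *
      (Fm ψ).submatrix (Equiv.neg (ZMod m)) (Equiv.refl _) t k = ψ (t * (j - k)) := by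
    intro t
    simp only [Fm, Matrix.submatrix_apply, Matrix.of_apply, Equiv.neg_apply, Equiv.refl_apply]
    rw [← AddChar.map_add_eq_mul]
    congr 1
    ring
  rw [Finset.sum_congr rfl (fun t _ => h t), FOURIERaux.sum_shift ψ hψ]
  simp only [sub_eq_zero, smul_eq_mul]
  split_ifs <;> simp

/-- two-sided inverse: `G = (1/m) • (Fm ψ with rows negated)` -/
theorem Fm_inv {m : ℕ} [NeZero m] (ψ : AddChar (ZMod m) ℂ) (hψ : ψ.IsPrimitive) :
    Fm ψ * ((m : ℂ)⁻¹ • (Fm ψ).submatrix (Equiv.neg (ZMod m)) (Equiv.refl _)) = 1 ∧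
      ((m : ℂ)⁻¹ • (Fm ψ).submatrix (Equiv.neg (ZMod m)) (Equiv.refl _)) * Fm ψ = 1 := by
  have hm : (m : ℂ) ≠ 0 := by exact_mod_cast NeZero.ne m
  have h : Fm ψ * ((m : ℂ)⁻¹ • (Fm ψ).submatrix (Equiv.neg (ZMod m)) (Equiv.refl _)) = 1 := by
    rw [Matrix.mul_smul, Fm_mul_rev ψ hψ, smul_smul, inv_mul_cancel₀ hm, one_smul]
  exact ⟨h, mul_eq_one_comm.1 h⟩

/-- diagonalisation of circulants (`Matrix.circulant c i j = c (i - j)`) -/
theorem Fm_mul_circulant {m : ℕ} [NeZero m] (ψ : AddChar (ZMod m) ℂ) (c : ZMod m → ℂ) :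
    Fm ψ * Matrix.circulant c =
      Matrix.diagonal (fun k => ∑ t, c t * ψ (k * t)) * Fm ψ := by
  ext j k
  rw [Matrix.mul_apply, Matrix.diagonal_mul, Finset.sum_mul]
  rw [← Equiv.sum_comp (Equiv.addRight k)]
  refine Finset.sum_congr rfl fun t _ => ?_
  simp only [Fm, Matrix.of_apply, Matrix.circulant_apply, Equiv.coe_addRight, add_sub_cancel_right]
  rw [mul_add, AddChar.map_add_eq_mul]
  ring

/-- for every `m ≠ 0` there is a primitive character -/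
theorem exists_primitive (m : ℕ) [NeZero m] : ∃ ψ : AddChar (ZMod m) ℂ, ψ.IsPrimitive :=
  ⟨ZMod.stdAddChar, ZMod.isPrimitive_stdAddChar m⟩

end Crest.Agent.R324
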