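import Crest.Agent.R324.FFT
import Crest.Agent.R324.Fourier
/-! Row 324, piece ECIRC: `y += C x` for a circulant `C` of order `2^k`:
`Eblk C = (F⁻¹ ⊕ F⁻¹) * Eblk (diagonal ĉ) * (F ⊕ F)` (`Eblk_conj`, `Fm_mul_circulant`,
`Lay.Eblk_diagonal`, `lay_fft`, `Fm_inv`). -/
set_option autoImplicit false
open scoped Classical Kronecker
open Matrix
namespace Crest.Agent.R324

theorem lay_E_circ (k : ℕ) (c : ZMod (2 ^ k) → ℂ) :
    Lay (4 * k + 1) (Eblk (Matrix.circulant c)) := by
  haveI : NeZero (2 ^ k) := ⟨pow_ne_zero _ two_ne_zero⟩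
  obtain ⟨ψ, hψ⟩ := exists_primitive (2 ^ k)
  obtain ⟨h1, h2⟩ := Fm_inv ψ hψ
  set G := (((2 ^ k : ℕ) : ℂ)⁻¹ • (Fm ψ).submatrix (Equiv.neg (ZMod (2 ^ k))) (Equiv.refl _)) with hG
  have hF := lay_fft k ψ hψ
  have hGd : G = Matrix.diagonal (fun _ => ((2 ^ k : ℕ) : ℂ)⁻¹) *
      (Fm ψ).submatrix (Equiv.neg (ZMod (2 ^ k))) (Equiv.refl _) := by
    rw [hG]
    ext i j
    rw [Matrix.diagonal_mul]
    rfl
  have hm : ((2 ^ k : ℕ) : ℂ) ≠ 0 := by
    push_cast
    exact pow_ne_zero _ two_ne_zero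
  have hGL : Lay (2 * k) G := by
    rw [hGd]
    have := (Lay.of_mono (Mono.diagonal (fun _ : ZMod (2 ^ k) => inv_ne_zero hm))).mul
      (hF.submatrix (Equiv.neg (ZMod (2 ^ k))) (Equiv.refl _))
    rwa [zero_add] at this
  have hc := Fm_mul_circulant ψ c
  set D := (fun k_1 => ∑ t, c t * ψ (k_1 * t)) with hD
  have hC : Matrix.circulant c = G * Matrix.diagonal D * Fm ψ := by
    rw [Matrix.mul_assoc, ← hc, ← Matrix.mul_assoc, h2, Matrix.one_mul]
  have key := Eblk_conj (Matrix.diagonal D) G (Fm ψ) G (Fm ψ) h2 h2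
  rw [hC, ← key]
  have := ((hGL.fromBlocks hGL).mul (Lay.Eblk_diagonal D)).mul (hF.fromBlocks hF)
  have e : 2 * k + 1 + 2 * k = 4 * k + 1 := by ring
  rw [e] at this
  exact this

namespace ECIRCaux

/-- conjugation with signs -/
theorem lay_sign {X : Type} [Fintype X] [DecidableEq X] {A : Matrix X X ℂ} {d : ℕ}
    (hA : Lay d (Eblk A)) (s t : X → ℂ) (hs : ∀ i, s i * s i = 1) (ht : ∀ i, t i * t i = 1) :
    Lay d (Eblk (Matrix.diagonal s * A * Matrix.diagonal t)) := by
  have hs0 : ∀ i, s i ≠ 0 := fun i h => by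
    have := hs i; rw [h] at this; simp at this
  have ht0 : ∀ i, t i ≠ 0 := fun i h => by
    have := ht i; rw [h] at this; simp at this
  have e1 : Matrix.diagonal s * Matrix.diagonal s = 1 := by
    rw [Matrix.diagonal_mul_diagonal]
    simp only [hs, Matrix.diagonal_one]
  have e2 : Matrix.diagonal t * Matrix.diagonal t = 1 := by
    rw [Matrix.diagonal_mul_diagonal]
    simp only [ht, Matrix.diagonal_one]
  have key := Eblk_conj A (Matrix.diagonal t) (Matrix.diagonal t) (Matrix.diagonal s)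
    (Matrix.diagonal s) e2 e1
  rw [← key]
  have hM : Lay 0 (Matrix.fromBlocks (Matrix.diagonal t) 0 0 (Matrix.diagonal s)) :=
    Lay.of_mono ((Mono.diagonal ht0).fromBlocks (Mono.diagonal hs0))
  have := (hM.mul hA).mul hM
  rwa [zero_add, add_zero] at this

end ECIRCaux

/-- restriction to a set `R` of rows/columns (dirty padding, sign trick): with
`S = diagonal (±1)` (`+` on `R`), `P = (1+S)/2`:
`Eblk (P C P) = Eblk (C/4) * Eblk (C S/4) * Eblk (S C/4) * Eblk (S C S/4)`, each factor a conjugate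
of `Eblk (C/4)` by a monomial matrix. -/
theorem lay_E_circ_restrict (k : ℕ) (c : ZMod (2 ^ k) → ℂ) (R : ZMod (2 ^ k) → Prop) :
    Lay (16 * k + 4)
      (Eblk (Matrix.of fun i j => if R i ∧ R j then c (i - j) else 0)) := by
  haveI : NeZero (2 ^ k) := ⟨pow_ne_zero _ two_ne_zero⟩
  have h0 := lay_E_circ k (fun i => c i / 4)
  set s : ZMod (2 ^ k) → ℂ := fun i => if R i then 1 else -1 with hs
  set o : ZMod (2 ^ k) → ℂ := fun _ => 1 with ho
  have hss : ∀ i, s i * s i = 1 := by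
    intro i
    simp only [hs]
    split_ifs <;> norm_num
  have hoo : ∀ i, o i * o i = 1 := fun i => by simp [ho]
  have h1 := ECIRCaux.lay_sign h0 o o hoo hoo
  have h2 := ECIRCaux.lay_sign h0 s o hss hoo
  have h3 := ECIRCaux.lay_sign h0 o s hoo hss
  have h4 := ECIRCaux.lay_sign h0 s s hss hss
  have h := ((h1.mul h2).mul h3).mul h4
  rw [Eblk_mul, Eblk_mul, Eblk_mul] at h
  have e : 4 * k + 1 + (4 * k + 1) + (4 * k + 1) + (4 * k + 1) = 16 * k + 4 := by ring
  rw [e] at h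
  convert h using 2
  ext i j
  simp only [Matrix.of_apply, Matrix.add_apply, Matrix.mul_diagonal, Matrix.diagonal_mul,
    Matrix.circulant_apply, hs, ho]
  by_cases hi : R i <;> by_cases hj : R j <;> simp [hi, hj] <;> ring

end Crest.Agent.R324
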