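import Crest.Agent.R324.ECirc
/-! Row 324, piece ECOPY: copy 1 += H (copy 0) inside `Fin 8 × ZMod q`, `H` circulant of order `q`.
Let `m = 2^k`, `2q ≤ m ≤ 4q`, `ι : ZMod q → ZMod m`, `ι j = (j.val : ZMod m)` (injective),
`c : ZMod m → ℂ` with `c (ι x - ι y) = h (x - y)` (possible as `m ≥ 2q`), `R i := i ∈ range ι`.
Choose an equivalence `Fin 8 × ZMod q ≃ (ZMod m ⊕ ZMod m) ⊕ Fin (8q-2m)` with
`(0,j) ↦ inl (inl (ι j))`, `(1,j) ↦ inl (inr (ι j))` (extend a partial injection). Then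
`Ecop (circulant h) = (fromBlocks (Eblk (restricted c)) 0 0 1).submatrix e e`. -/
set_option autoImplicit false
open scoped Classical Kronecker
open Matrix
namespace Crest.Agent.R324

namespace ECOPYaux

/-- copy index, first family -/
def ca (n : ℕ) : Fin 8 := if n = 0 then 0 else if n = 1 then 2 else if n = 2 then 3 else 4

/-- copy index, second family -/
def cb (n : ℕ) : Fin 8 := if n = 0 then 1 else if n = 1 then 5 else if n = 2 then 6 else 7

theorem ca_inj {a b : ℕ} (ha : a < 4) (hb : b < 4) (h : ca a = ca b) : a = b := by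
  interval_cases a <;> interval_cases b <;> first | rfl | (exfalso; revert h; decide)

theorem cb_inj {a b : ℕ} (ha : a < 4) (hb : b < 4) (h : cb a = cb b) : a = b := by
  interval_cases a <;> interval_cases b <;> first | rfl | (exfalso; revert h; decide)

theorem ca_ne_cb (a b : ℕ) : ca a ≠ cb b := by
  unfold ca cb
  split_ifs <;> decide

theorem ca_ne_one (a : ℕ) : ca a ≠ 1 := by
  unfold ca; split_ifs <;> decide

theorem cb_ne_zero (a : ℕ) : cb a ≠ 0 := by
  unfold cb; split_ifs <;> decide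

theorem ca_eq_zero {a : ℕ} : ca a = 0 ↔ a = 0 := by
  unfold ca; split_ifs with h1 h2 h3 <;> simp [h1] <;> decide

theorem cb_eq_one {a : ℕ} : cb a = 1 ↔ a = 0 := by
  unfold cb; split_ifs with h1 h2 h3 <;> simp [h1] <;> decide

/-- the embedding of two copies of `ZMod m` -/
def psi (q m : ℕ) : ZMod m ⊕ ZMod m → Fin 8 × ZMod q
  | .inl t => (ca (t.val / q), ((t.val % q : ℕ) : ZMod q))
  | .inr t => (cb (t.val / q), ((t.val % q : ℕ) : ZMod q))

theorem val_mod (q : ℕ) [NeZero q] (n : ℕ) : (((n % q : ℕ) : ZMod q)).val = n % q :=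
  ZMod.val_cast_of_lt (Nat.mod_lt _ (Nat.pos_of_ne_zero (NeZero.ne q)))

theorem div_lt_four {q m : ℕ} [NeZero q] [NeZero m] (h2 : m ≤ 4 * q) (t : ZMod m) :
    t.val / q < 4 := by
  have hq : 0 < q := Nat.pos_of_ne_zero (NeZero.ne q)
  rw [Nat.div_lt_iff_lt_mul hq]
  have := ZMod.val_lt t
  omega

theorem val_eq_of {q m : ℕ} [NeZero q] [NeZero m] {s t : ZMod m} (h1 : s.val / q = t.val / q)
    (h2 : ((s.val % q : ℕ) : ZMod q) = ((t.val % q : ℕ) : ZMod q)) : s = t := by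
  have h3 : s.val % q = t.val % q := by
    have := congrArg ZMod.val h2
    rwa [val_mod, val_mod] at this
  apply ZMod.val_injective
  rw [← Nat.div_add_mod s.val q, ← Nat.div_add_mod t.val q, h1, h3]

theorem psi_injective {q m : ℕ} [NeZero q] [NeZero m] (h2 : m ≤ 4 * q) :
    Function.Injective (psi q m) := by
  rintro (s | s) (t | t) h
  · have h' := Prod.mk.inj h
    exact congrArg _ (val_eq_of (ca_inj (div_lt_four h2 s) (div_lt_four h2 t) h'.1) h'.2)
  · exact absurd (Prod.mk.inj h).1 (ca_ne_cb _ _)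
  · exact absurd (Prod.mk.inj h).1.symm (ca_ne_cb _ _)
  · have h' := Prod.mk.inj h
    exact congrArg _ (val_eq_of (cb_inj (div_lt_four h2 s) (div_lt_four h2 t) h'.1) h'.2)

theorem psi_inl_cast {q m : ℕ} [NeZero q] [NeZero m] (h1 : 2 * q ≤ m) (j : ZMod q) :
    psi q m (.inl ((j.val : ℕ) : ZMod m)) = (0, j) := by
  have hj := ZMod.val_lt j
  have hv : (((j.val : ℕ) : ZMod m)).val = j.val := ZMod.val_cast_of_lt (by omega)
  show (ca _, _) = _
  rw [hv, Nat.div_eq_of_lt hj, Nat.mod_eq_of_lt hj, ZMod.natCast_zmod_val]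
  rfl

theorem psi_inr_cast {q m : ℕ} [NeZero q] [NeZero m] (h1 : 2 * q ≤ m) (j : ZMod q) :
    psi q m (.inr ((j.val : ℕ) : ZMod m)) = (1, j) := by
  have hj := ZMod.val_lt j
  have hv : (((j.val : ℕ) : ZMod m)).val = j.val := ZMod.val_cast_of_lt (by omega)
  show (cb _, _) = _
  rw [hv, Nat.div_eq_of_lt hj, Nat.mod_eq_of_lt hj, ZMod.natCast_zmod_val]
  rfl

/-- the lifted circulant -/
noncomputable def cc {q : ℕ} (m : ℕ) (h : ZMod q → ℂ) (t : ZMod m) : ℂ :=
  h ((t.valMinAbs : ℤ) : ZMod q)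

theorem cc_sub {q m : ℕ} [NeZero q] [NeZero m] (h1 : 2 * q ≤ m) (h : ZMod q → ℂ) (s t : ZMod m)
    (hs : s.val < q) (ht : t.val < q) :
    cc m h (s - t) = h (((s.val : ℕ) : ZMod q) - ((t.val : ℕ) : ZMod q)) := by
  have hv : (s - t).valMinAbs = (s.val : ℤ) - (t.val : ℤ) := by
    rw [ZMod.valMinAbs_spec]
    refine ⟨?_, ?_⟩
    · push_cast
      rw [ZMod.natCast_zmod_val, ZMod.natCast_zmod_val]
    · constructor <;> omega
  unfold cc
  rw [hv]
  push_cast
  rfl

theorem Ecop_submatrix (q m : ℕ) [NeZero q] [NeZero m] (h1 : 2 * q ≤ m) (h2 : m ≤ 4 * q)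
    (h : ZMod q → ℂ)
    (e : (ZMod m ⊕ ZMod m) ⊕ {x : Fin 8 × ZMod q // x ∉ Set.range (psi q m)} ≃ Fin 8 × ZMod q)
    (hl : ∀ u, e (.inl u) = psi q m u) (hr : ∀ w, e (.inr w) = w.1) :
    (Ecop (Matrix.circulant h)).submatrix e e
      = Matrix.fromBlocks (Eblk (Matrix.of fun i j : ZMod m =>
          if i.val < q ∧ j.val < q then cc m h (i - j) else 0)) 0 0 1 := by
  have hq : 0 < q := Nat.pos_of_ne_zero (NeZero.ne q)
  have hw0 : ∀ w : {x : Fin 8 × ZMod q // x ∉ Set.range (psi q m)}, w.1.1 ≠ 0 := by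
    rintro ⟨⟨a, j⟩, hw⟩ h0
    exact hw ⟨.inl ((j.val : ℕ) : ZMod m), by rw [psi_inl_cast h1 j]; exact Prod.ext h0.symm rfl⟩
  have hw1 : ∀ w : {x : Fin 8 × ZMod q // x ∉ Set.range (psi q m)}, w.1.1 ≠ 1 := by
    rintro ⟨⟨a, j⟩, hw⟩ h0
    exact hw ⟨.inr ((j.val : ℕ) : ZMod m), by rw [psi_inr_cast h1 j]; exact Prod.ext h0.symm rfl⟩
  have hinj := psi_injective (q := q) (m := m) h2
  have hdiv : ∀ t : ZMod m, t.val / q = 0 ↔ t.val < q := by
    intro t
    rw [Nat.div_eq_zero_iff]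
    omega
  ext u v
  rw [Matrix.submatrix_apply]
  unfold Ecop
  rw [Matrix.add_apply, Matrix.of_apply, Matrix.one_apply, Matrix.circulant_apply]
  rcases u with u | w <;> rcases v with v | w'
  · rw [hl, hl, Matrix.fromBlocks_apply₁₁]
    rcases u with s | s <;> rcases v with t | t
    · have hs : ¬ ((psi q m (.inl s)).1 = 1 ∧ (psi q m (.inl t)).1 = 0) :=
        fun h' => ca_ne_one _ h'.1
      rw [if_neg hs]
      simp only [Eblk, Matrix.fromBlocks_apply₁₁, Matrix.one_apply, hinj.eq_iff, Sum.inl.injEq,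
        add_zero]
      by_cases hst : s = t <;> simp [hst]
    · have hs : ¬ ((psi q m (.inl s)).1 = 1 ∧ (psi q m (.inr t)).1 = 0) :=
        fun h' => ca_ne_one _ h'.1
      rw [if_neg hs]
      simp [Eblk, hinj.eq_iff]
    · rw [if_neg (fun h' => by simpa using hinj h')]
      have hcond : ((psi q m (.inr s)).1 = 1 ∧ (psi q m (.inl t)).1 = 0)
          ↔ (s.val < q ∧ t.val < q) := by
        show (cb _ = 1 ∧ ca _ = 0) ↔ _
        rw [cb_eq_one, ca_eq_zero, hdiv, hdiv]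
      simp only [hcond, Eblk, Matrix.fromBlocks_apply₂₁, Matrix.of_apply, zero_add]
      by_cases hc : s.val < q ∧ t.val < q
      · rw [if_pos hc, if_pos hc, cc_sub h1 h s t hc.1 hc.2]
        show h (((s.val % q : ℕ) : ZMod q) - ((t.val % q : ℕ) : ZMod q)) = _
        rw [Nat.mod_eq_of_lt hc.1, Nat.mod_eq_of_lt hc.2]
      · rw [if_neg hc, if_neg hc]
    · have hs : ¬ ((psi q m (.inr s)).1 = 1 ∧ (psi q m (.inr t)).1 = 0) :=
        fun h' => cb_ne_zero _ h'.2
      rw [if_neg hs]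
      simp only [Eblk, Matrix.fromBlocks_apply₂₂, Matrix.one_apply, hinj.eq_iff, Sum.inr.injEq,
        add_zero]
      by_cases hst : s = t <;> simp [hst]
  · rw [hl, hr, Matrix.fromBlocks_apply₁₂, Matrix.zero_apply,
      if_neg (fun h' => w'.2 ⟨u, h'⟩), if_neg (fun h' => hw0 w' h'.2), add_zero]
  · rw [hl, hr, Matrix.fromBlocks_apply₂₁, Matrix.zero_apply,
      if_neg (fun h' => w.2 ⟨v, h'.symm⟩), if_neg (fun h' => hw1 w h'.1), add_zero]
  · have hs : ¬ ((w.1).1 = 1 ∧ (w'.1).1 = 0) := fun h' => hw1 w h'.1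
    rw [hr, hr, Matrix.fromBlocks_apply₂₂, if_neg hs, add_zero, Matrix.one_apply]
    by_cases hww : w = w'
    · simp [hww]
    · have hww' : w.1 ≠ w'.1 := fun h' => hww (Subtype.ext h')
      rw [if_neg hww', if_neg hww]

end ECOPYaux

open ECOPYaux in
theorem lay_Ecop_circ (q k : ℕ) [NeZero q] (h1 : 2 * q ≤ 2 ^ k) (h2 : 2 ^ k ≤ 4 * q)
    (h : ZMod q → ℂ) : Lay (16 * k + 4) (Ecop (Matrix.circulant h)) := by
  have hinj := psi_injective (q := q) (m := 2 ^ k) h2
  let e : (ZMod (2 ^ k) ⊕ ZMod (2 ^ k)) ⊕ {x : Fin 8 × ZMod q // x ∉ Set.range (psi q (2 ^ k))}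
      ≃ Fin 8 × ZMod q :=
    ((Equiv.ofInjective (psi q (2 ^ k)) hinj).sumCongr (Equiv.refl _)).trans
      (Equiv.Set.sumCompl (Set.range (psi q (2 ^ k))))
  have hl : ∀ u, e (.inl u) = psi q (2 ^ k) u := fun u => rfl
  have hr : ∀ w, e (.inr w) = w.1 := fun w => rfl
  have hsub := Ecop_submatrix q (2 ^ k) h1 h2 h e hl hr
  have hlay := (lay_E_circ_restrict k (cc (2 ^ k) h) (fun i => i.val < q)).fromBlocks
    ((Lay.of_mono (Mono.one (I := {x : Fin 8 × ZMod q // x ∉ Set.range (psi q (2 ^ k))}))).le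
      (Nat.zero_le (16 * k + 4)))
  have h3 : Ecop (Matrix.circulant h) = ((Ecop (Matrix.circulant h)).submatrix e e).submatrix
      e.symm e.symm := by
    ext x y
    simp
  rw [h3, hsub]
  refine Lay.submatrix ?_ e.symm e.symm
  convert hlay

end Crest.Agent.R324
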