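import Crest.Agent.R324.LayApi
/-! Row 324, piece FFT: in-place radix 2 FFT with `2k` layers.
With `ω = ψ 1` (primitive root of order `2m`, `m = 2^k`) and indices `j = 2 j₁ + j₀`,
`k = k₀ + m k₁` one has `ω^{jk} = (ω²)^{j₁ k₀} ω^{j₀ k₀} (-1)^{j₀ k₁}`, i.e. up to reindexing
`F_{2m} = (F_m ⊗ 1_2) * diag(ω^{j₀ k₀}) * (1_m ⊗ H₂)` and
`H₂ = [[1,1],[1,-1]] = [[1,0],[1,1]] * diag(1,-2) * [[1,1],[0,1]]` is two layers
(use `Lay.one_kron`, `Lay.kron_one`, `Lay.submatrix`, `Lay.mul`). -/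
set_option autoImplicit false
open scoped Classical Kronecker
open Matrix
namespace Crest.Agent.R324

namespace FFTaux

/-- Hadamard matrix of order two -/
noncomputable def H2 : Matrix (Fin 2) (Fin 2) ℂ := Matrix.of fun i j => (-1) ^ ((i : ℕ) * (j : ℕ))

/-- the equivalence `Fin 2 ≃ Unit ⊕ Unit` -/
def e2 : Fin 2 ≃ Unit ⊕ Unit where
  toFun := ![Sum.inl (), Sum.inr ()]
  invFun := Sum.elim (fun _ => 0) (fun _ => 1)
  left_inv := by intro i; fin_cases i <;> rfl
  right_inv := by rintro (⟨⟩ | ⟨⟩) <;> rfl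

/-- the equivalence `Fin 2 ≃ Unit ⊕ Unit`, swapped -/
def e2' : Fin 2 ≃ Unit ⊕ Unit where
  toFun := ![Sum.inr (), Sum.inl ()]
  invFun := Sum.elim (fun _ => 1) (fun _ => 0)
  left_inv := by intro i; fin_cases i <;> rfl
  right_inv := by rintro (⟨⟩ | ⟨⟩) <;> rfl

theorem H2_lay : Lay 2 H2 := by
  have h1 : Lay 1 ((Eblk (Matrix.diagonal (fun _ : Unit => (1 : ℂ)))).submatrix e2 e2) :=
    (Lay.Eblk_diagonal _).submatrix _ _
  have h2 : Lay 1 ((Eblk (Matrix.diagonal (fun _ : Unit => (1 : ℂ)))).submatrix e2' e2') :=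
    (Lay.Eblk_diagonal _).submatrix _ _
  have h3 : Lay 0 (Matrix.diagonal (![1, -2] : Fin 2 → ℂ)) :=
    Lay.of_mono (Mono.diagonal (by intro i; fin_cases i <;> norm_num))
  have h4 := Lay.mul (Lay.mul h1 h3) h2
  have h5 : (Eblk (Matrix.diagonal (fun _ : Unit => (1 : ℂ)))).submatrix e2 e2 *
      Matrix.diagonal (![1, -2] : Fin 2 → ℂ) *
      (Eblk (Matrix.diagonal (fun _ : Unit => (1 : ℂ)))).submatrix e2' e2' = H2 := by
    have E1 : Eblk (Matrix.diagonal (fun _ : Unit => (1 : ℂ))) (Sum.inl ()) (Sum.inl ()) = 1 := by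
      simp [Eblk]
    have E2 : Eblk (Matrix.diagonal (fun _ : Unit => (1 : ℂ))) (Sum.inl ()) (Sum.inr ()) = 0 := by
      simp [Eblk]
    have E3 : Eblk (Matrix.diagonal (fun _ : Unit => (1 : ℂ))) (Sum.inr ()) (Sum.inl ()) = 1 := by
      simp [Eblk]
    have E4 : Eblk (Matrix.diagonal (fun _ : Unit => (1 : ℂ))) (Sum.inr ()) (Sum.inr ()) = 1 := by
      simp [Eblk]
    have hA : ∀ i j, (Eblk (Matrix.diagonal (fun _ : Unit => (1 : ℂ)))).submatrix e2 e2 i j =
        if j ≤ i then 1 else 0 := by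
      intro i j
      rw [Matrix.submatrix_apply]
      fin_cases i <;> fin_cases j
      · refine E1.trans ?_; simp
      · refine E2.trans ?_; simp
      · refine E3.trans ?_; simp
      · refine E4.trans ?_; simp
    have hB : ∀ i j, (Eblk (Matrix.diagonal (fun _ : Unit => (1 : ℂ)))).submatrix e2' e2' i j =
        if i ≤ j then 1 else 0 := by
      intro i j
      rw [Matrix.submatrix_apply]
      fin_cases i <;> fin_cases j
      · refine E4.trans ?_; simp
      · refine E3.trans ?_; simp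
      · refine E2.trans ?_; simp
      · refine E1.trans ?_; simp
    ext i j
    rw [Matrix.mul_apply, Fin.sum_univ_two, Matrix.mul_diagonal, Matrix.mul_diagonal, hA, hA, hB,
      hB]
    fin_cases i <;> fin_cases j <;> simp [H2] <;> norm_num
  rw [h5] at h4
  exact h4

/-- rows `2 a + b` -/
def fr (m M : ℕ) (p : ZMod m × Fin 2) : ZMod M := ((2 * p.1.val + (p.2 : ℕ) : ℕ) : ZMod M)

/-- columns `c + m d` -/
def fc (m M : ℕ) (p : ZMod m × Fin 2) : ZMod M := ((p.1.val + m * (p.2 : ℕ) : ℕ) : ZMod M)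

theorem fr_bij (m M : ℕ) [NeZero m] [NeZero M] (hM : M = 2 * m) :
    Function.Bijective (fr m M) := by
  rw [Fintype.bijective_iff_injective_and_card]
  constructor
  · rintro ⟨a, b⟩ ⟨a', b'⟩ h
    have ha := ZMod.val_lt a
    have ha' := ZMod.val_lt a'
    have hb := b.isLt
    have hb' := b'.isLt
    have h1 := congrArg ZMod.val h
    simp only [fr] at h1
    rw [ZMod.val_cast_of_lt (by omega), ZMod.val_cast_of_lt (by omega)] at h1
    have h2 : a.val = a'.val := by omega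
    have h3 : (b : ℕ) = b' := by omega
    exact Prod.ext (ZMod.val_injective _ h2) (Fin.ext h3)
  · rw [Fintype.card_prod, ZMod.card, ZMod.card, Fintype.card_fin, hM, mul_comm]

theorem fc_bij (m M : ℕ) [NeZero m] [NeZero M] (hM : M = 2 * m) :
    Function.Bijective (fc m M) := by
  rw [Fintype.bijective_iff_injective_and_card]
  constructor
  · rintro ⟨a, b⟩ ⟨a', b'⟩ h
    have ha := ZMod.val_lt a
    have ha' := ZMod.val_lt a'
    have hlt : ∀ (a : ZMod m) (b : Fin 2), a.val + m * (b : ℕ) < M := by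
      intro a b
      have ha := ZMod.val_lt a
      have : m * (b : ℕ) ≤ m * 1 := Nat.mul_le_mul_left _ (by omega)
      omega
    have h1 := congrArg ZMod.val h
    simp only [fc] at h1
    rw [ZMod.val_cast_of_lt (hlt a b), ZMod.val_cast_of_lt (hlt a' b')] at h1
    have h2 : a.val = a'.val := by
      have := congrArg (· % m) h1
      simpa [Nat.mod_eq_of_lt ha, Nat.mod_eq_of_lt ha'] using this
    have h3 : (b : ℕ) = b' := by
      rw [h2] at h1
      exact Nat.eq_of_mul_eq_mul_left (Nat.pos_of_ne_zero (NeZero.ne m)) (Nat.add_left_cancel h1)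
    exact Prod.ext (ZMod.val_injective _ h2) (Fin.ext h3)
  · rw [Fintype.card_prod, ZMod.card, ZMod.card, Fintype.card_fin, hM, mul_comm]

theorem root_of_primitive (M : ℕ) [NeZero M] (ψ : AddChar (ZMod M) ℂ) (hψ : ψ.IsPrimitive) :
    IsPrimitiveRoot (ψ 1) M := by
  have hn : ∀ n : ℕ, ψ (n : ZMod M) = ψ 1 ^ n := by
    intro n
    rw [← AddChar.map_nsmul_eq_pow, nsmul_one]
  rw [IsPrimitiveRoot.iff_def]
  constructor
  · rw [← hn, ZMod.natCast_self, AddChar.map_zero_eq_one]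
  · intro l hl
    rw [← hn] at hl
    by_contra hdvd
    have hne : (l : ZMod M) ≠ 0 := by
      intro h
      exact hdvd ((ZMod.natCast_eq_zero_iff l M).1 h)
    refine hψ hne ?_
    ext x
    rw [AddChar.mulShift_apply]
    have : (l : ZMod M) * x = x.val • (l : ZMod M) := by
      rw [nsmul_eq_mul, ZMod.natCast_zmod_val, mul_comm]
    rw [this, AddChar.map_nsmul_eq_pow, hl, one_pow]
    simp

theorem step (m M : ℕ) [NeZero m] [NeZero M] (hM : M = 2 * m) (ψ : AddChar (ZMod M) ℂ)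
    (hψ : ψ.IsPrimitive) (d : ℕ)
    (ih : ∀ ψ' : AddChar (ZMod m) ℂ, ψ'.IsPrimitive → Lay d (Fm ψ')) : Lay (d + 2) (Fm ψ) := by
  have hroot := root_of_primitive M ψ hψ
  set ω : ℂ := ψ 1 with hω
  have hn : ∀ n : ℕ, ψ (n : ZMod M) = ω ^ n := by
    intro n
    rw [hω, ← AddChar.map_nsmul_eq_pow, nsmul_one]
  have hroot2 : IsPrimitiveRoot (ω ^ 2) m :=
    hroot.pow (Nat.pos_of_ne_zero (NeZero.ne M)) hM
  set ψ' : AddChar (ZMod m) ℂ :=
    AddChar.zmodChar m ((IsPrimitiveRoot.iff_def (ω ^ 2) m).mp hroot2).left with hψ'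
  have hψ'p : ψ'.IsPrimitive := AddChar.zmodChar_primitive_of_primitive_root m hroot2
  have hn' : ∀ n : ℕ, ψ' (n : ZMod m) = (ω ^ 2) ^ n := fun n => AddChar.zmodChar_apply' _ n
  have hω0 : ω ≠ 0 := hroot.ne_zero (NeZero.ne M)
  have hωM : ω ^ M = 1 := hroot.pow_eq_one
  have hωm : ω ^ m = -1 := by
    have h1 : (ω ^ m) ^ 2 = 1 := by rw [← pow_mul, mul_comm, ← hM, hωM]
    rcases sq_eq_one_iff.1 h1 with h | h
    · exfalso
      have := hroot.dvd_of_pow_eq_one m h
      have hm := Nat.pos_of_ne_zero (NeZero.ne m)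
      have := Nat.le_of_dvd hm this
      omega
    · exact h
  set er : ZMod m × Fin 2 ≃ ZMod M := Equiv.ofBijective _ (fr_bij m M hM) with her
  set ec : ZMod m × Fin 2 ≃ ZMod M := Equiv.ofBijective _ (fc_bij m M hM) with hec
  have h1 : Lay d ((Fm ψ') ⊗ₖ (1 : Matrix (Fin 2) (Fin 2) ℂ)) := (ih ψ' hψ'p).kron_one
  have h2 : Lay 0 (Matrix.diagonal (fun p : ZMod m × Fin 2 => ω ^ ((p.2 : ℕ) * p.1.val))) :=
    Lay.of_mono (Mono.diagonal fun i => pow_ne_zero _ hω0)
  have h3 : Lay 2 ((1 : Matrix (ZMod m) (ZMod m) ℂ) ⊗ₖ H2) := H2_lay.one_kron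
  have h4 := Lay.mul (Lay.mul h1 h2) h3
  have h5 : Fm ψ = ((Fm ψ') ⊗ₖ (1 : Matrix (Fin 2) (Fin 2) ℂ) *
      Matrix.diagonal (fun p : ZMod m × Fin 2 => ω ^ ((p.2 : ℕ) * p.1.val)) *
      (1 : Matrix (ZMod m) (ZMod m) ℂ) ⊗ₖ H2).submatrix er.symm ec.symm := by
    have h6 : (Fm ψ).submatrix er ec = (Fm ψ') ⊗ₖ (1 : Matrix (Fin 2) (Fin 2) ℂ) *
      Matrix.diagonal (fun p : ZMod m × Fin 2 => ω ^ ((p.2 : ℕ) * p.1.val)) *
      (1 : Matrix (ZMod m) (ZMod m) ℂ) ⊗ₖ H2 := by
      ext ⟨a, b⟩ ⟨c, e⟩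
      have hL : (Fm ψ).submatrix er ec (a, b) (c, e) =
          ω ^ ((2 * a.val + (b : ℕ)) * (c.val + m * (e : ℕ))) := by
        show ψ (fr m M (a, b) * fc m M (c, e)) = _
        rw [fr, fc, ← Nat.cast_mul, hn]
      have hR : ((Fm ψ') ⊗ₖ (1 : Matrix (Fin 2) (Fin 2) ℂ) *
          Matrix.diagonal (fun p : ZMod m × Fin 2 => ω ^ ((p.2 : ℕ) * p.1.val)) *
          (1 : Matrix (ZMod m) (ZMod m) ℂ) ⊗ₖ H2) (a, b) (c, e) =
          ψ' (a * c) * ω ^ ((b : ℕ) * c.val) * (-1) ^ ((b : ℕ) * (e : ℕ)) := by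
        rw [Matrix.mul_apply, Finset.sum_eq_single (c, b)]
        · rw [Matrix.mul_diagonal]
          simp [Matrix.kroneckerMap_apply, Fm, H2]
        · rintro ⟨c', b'⟩ _ hne
          rw [Matrix.mul_diagonal]
          simp only [Matrix.kroneckerMap_apply]
          by_cases hc : c' = c
          · have hb : b ≠ b' := by
              rintro rfl
              exact hne (by rw [hc])
            rw [Matrix.one_apply_ne hb]
            simp
          · rw [Matrix.one_apply_ne hc]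
            simp
        · intro h; exact absurd (Finset.mem_univ _) h
      rw [hL, hR]
      have h7 : ψ' (a * c) = (ω ^ 2) ^ (a.val * c.val) := by
        have : a * c = ((a.val * c.val : ℕ) : ZMod m) := by
          rw [Nat.cast_mul, ZMod.natCast_zmod_val, ZMod.natCast_zmod_val]
        rw [this, hn']
      have h8 : (2 * a.val + (b : ℕ)) * (c.val + m * (e : ℕ)) =
          2 * (a.val * c.val) + (b : ℕ) * c.val + M * (a.val * (e : ℕ)) +
            m * ((b : ℕ) * (e : ℕ)) := by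
        rw [hM]; ring
      rw [h7, h8, pow_add, pow_add, pow_add, pow_mul ω M, hωM, one_pow, mul_one, pow_mul ω m,
        hωm, pow_mul ω 2]
    rw [← h6]
    ext i j
    simp
  rw [h5]
  have h6 : d + 2 = d + 0 + 2 := by omega
  rw [h6]
  exact h4.submatrix _ _

end FFTaux

open FFTaux in
theorem lay_fft (k : ℕ) (ψ : AddChar (ZMod (2 ^ k)) ℂ) (hψ : ψ.IsPrimitive) :
    Lay (2 * k) (Fm ψ) := by
  induction k with
  | zero =>
    have : Subsingleton (ZMod (2 ^ 0)) := by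
      rw [pow_zero]
      infer_instance
    refine Lay.of_mono ?_
    have h1 : Fm ψ = 1 := by
      ext i j
      have hi : i = 0 := Subsingleton.elim _ _
      have hj : j = 0 := Subsingleton.elim _ _
      subst hi
      subst hj
      simp [Fm]
    rw [h1]
    exact Mono.one
  | succ k ih =>
    exact step (2 ^ k) (2 ^ (k + 1)) (pow_succ' 2 k) ψ hψ (2 * k) ih

end Crest.Agent.R324
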