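import Crest.Agent.R324.NumRec
import Crest.Prelude.Def_LinCircuit
/-! Row 324, piece FINALBOUND: asymptotics. `th ≤ savingExponent` (NumRec `th_le_savingExponent`),
`r + 1 ≤ log n` , `K = O(log log n)`, `4 - savingExponent ≥ 3`. -/
set_option autoImplicit false
open scoped Classical Kronecker
open Matrix
namespace Crest.Agent.R324

/-- asymptotics -/
theorem final_bound (C κ : ℝ) (hC : 0 < C) (hκ : 0 ≤ κ) :
    ∃ (C' : ℝ) (n₁ : ℕ), ∀ n : ℕ, n₁ ≤ n → ∀ r a K N : ℕ,
      (64 : ℕ) ^ r ≤ 4 * n → (2 : ℝ) ^ K ≤ 8 * C * Real.log n ^ 2 + 8 → N ≤ 4 * n →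
      4 * (((2880 * K + 720 : ℕ) : ℝ) * (κ * ((r : ℝ) + 1) ^ th * N)) + 3 * N + 2 * n ≤
        C' * n * Real.log n ^ Crest.FourierCircuit.savingExponent *
          Real.log (Real.log n) ^ (4 - Crest.FourierCircuit.savingExponent) := by
  set sv := Crest.FourierCircuit.savingExponent with hsv
  have hth : th ≤ sv := th_le_savingExponent
  have hth0 : 0 < th := by unfold th; norm_num
  have hsv0 : 0 < sv := lt_of_lt_of_le hth0 hth
  have hsv1 : sv ≤ 1 := by
    rw [hsv]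
    unfold Crest.FourierCircuit.savingExponent
    rw [Real.logb_le_iff_le_rpow (by norm_num) (by norm_num)]
    norm_num
  have hlog2 : 0 < Real.log 2 := Real.log_pos (by norm_num)
  set D : ℝ := (Real.log (8 * C + 8) + 2) / Real.log 2 with hD
  have hlogC : 0 ≤ Real.log (8 * C + 8) := Real.log_nonneg (by linarith)
  have hD0 : 0 ≤ D := by rw [hD]; positivity
  refine ⟨16 * κ * (2880 * D + 720) + 14, ⌈Real.exp (Real.exp 1)⌉₊, ?_⟩
  intro n hn r a K N hr hK hN
  have hn1 : Real.exp (Real.exp 1) ≤ n := (Nat.le_ceil _).trans (by exact_mod_cast hn)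
  have hn0 : (0 : ℝ) < n := lt_of_lt_of_le (Real.exp_pos _) hn1
  set L := Real.log n with hL
  have hLe : Real.exp 1 ≤ L := by
    rw [hL, Real.le_log_iff_exp_le hn0]; exact hn1
  have he : (2.7 : ℝ) ≤ Real.exp 1 := by
    have := Real.exp_one_gt_d9; linarith
  have hL27 : (2.7 : ℝ) ≤ L := he.trans hLe
  have hL0 : 0 < L := by linarith
  set M := Real.log L with hM
  have hM1 : 1 ≤ M := by
    rw [hM, Real.le_log_iff_exp_le hL0]; exact hLe
  -- bound for r
  have hr1 : (r : ℝ) + 1 ≤ L := by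
    have h1 : ((64 : ℝ)) ^ r ≤ 4 * n := by exact_mod_cast hr
    have h2 : Real.log ((64 : ℝ) ^ r) ≤ Real.log (4 * n) :=
      Real.log_le_log (by positivity) h1
    rw [Real.log_pow, Real.log_mul (by norm_num) hn0.ne'] at h2
    have h3 : Real.log 64 = 6 * Real.log 2 := by
      rw [show (64 : ℝ) = 2 ^ 6 by norm_num, Real.log_pow]; norm_num
    have h4 : Real.log 4 = 2 * Real.log 2 := by
      rw [show (4 : ℝ) = 2 ^ 2 by norm_num, Real.log_pow]; norm_num
    rw [h3, h4] at h2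
    have h5 := Real.log_two_gt_d9
    have h6 := Real.log_two_lt_d9
    have h7 : (0 : ℝ) ≤ r := Nat.cast_nonneg r
    have h8 : (r : ℝ) * (6 * 0.6931471803) ≤ (r : ℝ) * (6 * Real.log 2) := by
      apply mul_le_mul_of_nonneg_left _ h7; linarith
    rw [← hL] at h2
    nlinarith
  have hrpow : ((r : ℝ) + 1) ^ th ≤ L ^ sv := by
    have h1 : ((r : ℝ) + 1) ^ th ≤ L ^ th :=
      Real.rpow_le_rpow (by positivity) hr1 hth0.le
    exact h1.trans (Real.rpow_le_rpow_of_exponent_le (by linarith) hth)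
  -- bound for K
  have hK1 : (K : ℝ) ≤ D * M := by
    have h0 : 1 ≤ L ^ 2 := by nlinarith
    have h1 : (2 : ℝ) ^ K ≤ (8 * C + 8) * L ^ 2 := by nlinarith
    have h2 : Real.log ((2 : ℝ) ^ K) ≤ Real.log ((8 * C + 8) * L ^ 2) :=
      Real.log_le_log (by positivity) h1
    rw [Real.log_pow, Real.log_mul (by positivity) (by positivity), Real.log_pow] at h2
    push_cast at h2
    rw [← hM] at h2
    have h3 : D * M = (Real.log (8 * C + 8) * M + 2 * M) / Real.log 2 := by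
      rw [hD]; ring
    rw [h3, le_div_iff₀ hlog2]
    nlinarith
  have hLs : 1 ≤ L ^ sv := Real.one_le_rpow (by linarith) hsv0.le
  have hMs : M ≤ M ^ (4 - sv) := by
    calc M = M ^ (1 : ℝ) := (Real.rpow_one M).symm
      _ ≤ M ^ (4 - sv) := Real.rpow_le_rpow_of_exponent_le hM1 (by linarith)
  have hN' : (N : ℝ) ≤ 4 * n := by exact_mod_cast hN
  have hN0 : (0 : ℝ) ≤ N := Nat.cast_nonneg N
  push_cast
  have hA : (2880 * (K : ℝ) + 720) ≤ (2880 * D + 720) * M := by nlinarith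
  have hA0 : 0 ≤ (2880 * (K : ℝ) + 720) := by positivity
  have hB : κ * ((r : ℝ) + 1) ^ th * N ≤ κ * L ^ sv * (4 * n) := by
    have h1 : κ * ((r : ℝ) + 1) ^ th ≤ κ * L ^ sv := mul_le_mul_of_nonneg_left hrpow hκ
    exact mul_le_mul h1 hN' hN0 (by positivity)
  have hB0 : 0 ≤ κ * ((r : ℝ) + 1) ^ th * N := by positivity
  have hAB : (2880 * (K : ℝ) + 720) * (κ * ((r : ℝ) + 1) ^ th * N) ≤
      ((2880 * D + 720) * M) * (κ * L ^ sv * (4 * n)) :=
    mul_le_mul hA hB hB0 (by positivity)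
  have hX : 1 ≤ L ^ sv * M := by nlinarith
  have h14 : 3 * (N : ℝ) + 2 * n ≤ 14 * n * (L ^ sv * M) := by
    have : 14 * (n : ℝ) * 1 ≤ 14 * n * (L ^ sv * M) :=
      mul_le_mul_of_nonneg_left hX (by positivity)
    linarith
  calc 4 * ((2880 * (K : ℝ) + 720) * (κ * ((r : ℝ) + 1) ^ th * N)) + 3 * N + 2 * n
      ≤ 4 * (((2880 * D + 720) * M) * (κ * L ^ sv * (4 * n))) + 14 * n * (L ^ sv * M) := by
        linarith
    _ = (16 * κ * (2880 * D + 720) + 14) * n * L ^ sv * M := by ring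
    _ ≤ (16 * κ * (2880 * D + 720) + 14) * n * L ^ sv * M ^ (4 - sv) :=
        mul_le_mul_of_nonneg_left hMs (by positivity)

end Crest.Agent.R324
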