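import Crest.Agent.R324.LayTensor
import Crest.Agent.R324.Copies
import Crest.Agent.R324.CRT
import Crest.Agent.R324.Fourier
/-! Row 324, piece FMCOST (helper27): cost of the Fourier matrix of order `2^a ∏ (q l * q' l)`:
index type `Option (Fin r)`, factors `2^a` and `q l * q' l`. -/
set_option autoImplicit false
open scoped Classical Kronecker
open Matrix
namespace Crest.Agent.R324

namespace FMCOSTaux

/-- the moduli -/
def Q {r : ℕ} (a : ℕ) (q q' : Fin r → ℕ) : Option (Fin r) → ℕ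
  | none => 2 ^ a
  | some l => q l * q' l

theorem th_pos : 0 < th := by unfold th; norm_num

theorem lay_two {m a K : ℕ} [NeZero m] (hm : m = 2 ^ a) (ψ : AddChar (ZMod m) ℂ)
    (hψ : ψ.IsPrimitive) (haK : a ≤ K) : Lay (2880 * K + 720) (Fm ψ) := by
  subst hm
  exact (lay_fft a ψ hψ).le (by omega)

theorem lay_odd {m u v K : ℕ} [NeZero m] (hm : m = u * v)
    (hq : Odd u ∧ Odd v ∧ 8 ≤ u ∧ 8 ≤ v ∧ Nat.Coprime u v ∧ 4 * u ≤ 2 ^ K ∧ 4 * v ≤ 2 ^ K)
    (ψ : AddChar (ZMod m) ℂ) (hψ : ψ.IsPrimitive) : Lay (2880 * K + 720) (Fm ψ) := by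
  subst hm
  obtain ⟨h1, h2, h3, h4, h5, h6, h7⟩ := hq
  have : NeZero u := ⟨by omega⟩
  have : NeZero v := ⟨by omega⟩
  obtain ⟨ψ₁, ψ₂, e', hψ₁, hψ₂, he'⟩ := Fm_crt_two u v h5 ψ hψ
  rw [he']
  exact (lay_pair h1 h2 h3 h4 h6 h7 ψ₁ hψ₁ ψ₂ hψ₂).submatrix e' e'

end FMCOSTaux

open FMCOSTaux in
/-- cost of the Fourier matrix of order `2^a ∏ (q l * q' l)` -/
theorem RCost_Fm_moduli {κ : ℝ} (hκ : 0 ≤ κ) (hz : ∀ N : ℕ, Pow th N zM κ) {r a K : ℕ}
    (q q' : Fin r → ℕ)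
    (hq : ∀ l, Odd (q l) ∧ Odd (q' l) ∧ 8 ≤ q l ∧ 8 ≤ q' l ∧ Nat.Coprime (q l) (q' l) ∧
      4 * q l ≤ 2 ^ K ∧ 4 * q' l ≤ 2 ^ K)
    (hpair : Pairwise (fun l l' => Nat.Coprime (q l * q' l) (q l' * q' l')))
    (haK : a ≤ K) {N : ℕ} [NeZero N] (hN : N = 2 ^ a * ∏ l, (q l * q' l)) :
    ∃ ψ : AddChar (ZMod N) ℂ, ψ.IsPrimitive ∧
      RCost (Fm ψ) (((2880 * K + 720 : ℕ) : ℝ) * (κ * ((r : ℝ) + 1) ^ th * N)) := by
  have hN' : N = ∏ l, Q a q q' l := by
    rw [Fintype.prod_option, hN]; rfl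
  subst hN'
  have hne1 : ∀ l, NeZero (q l) := fun l => ⟨by have := (hq l).2.2.1; omega⟩
  have hne2 : ∀ l, NeZero (q' l) := fun l => ⟨by have := (hq l).2.2.2.1; omega⟩
  have hne : ∀ l, NeZero (Q a q q' l) := fun l => by
    cases l with
    | none => exact ⟨by simp [Q]⟩
    | some l => exact ⟨Nat.mul_ne_zero (hne1 l).out (hne2 l).out⟩
  have hodd : ∀ l, Nat.Coprime (2 ^ a) (q l * q' l) := fun l =>
    Nat.Coprime.pow_left a (Nat.coprime_two_left.2 ((hq l).1.mul (hq l).2.1))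
  have hcop : Pairwise (fun x y => Nat.Coprime (Q a q q' x) (Q a q q' y)) := by
    intro x y hxy
    cases x with
    | none =>
      cases y with
      | none => exact absurd rfl hxy
      | some y => exact hodd y
    | some x =>
      cases y with
      | none => exact (hodd x).symm
      | some y => exact hpair (fun h => hxy (by rw [h]))
  obtain ⟨ψ, hψ⟩ := exists_primitive (∏ l, Q a q q' l)
  refine ⟨ψ, hψ, ?_⟩
  obtain ⟨ψ', e, hψ', he⟩ := Fm_crt (Q a q q') hcop ψ hψ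
  have hlay : ∀ l, Lay (2880 * K + 720) (Fm (ψ' l)) := by
    intro l
    cases l with
    | none => exact lay_two rfl _ (hψ' none) haK
    | some l => exact lay_odd rfl (hq l) _ (hψ' (some l))
  have hcost := RCost_piT_of_lay hlay th_pos hκ (hz _)
  have h2 := hcost.submatrix e e
  rw [← he] at h2
  refine h2.le (le_of_eq ?_)
  congr 2
  · rw [Fintype.card_option, Fintype.card_fin]; push_cast; rfl
  · push_cast
    exact Finset.prod_congr rfl fun l _ => by rw [ZMod.card]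

end Crest.Agent.R324
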