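import Crest.Agent.R324.LayerCost
/-! Row 324, gadget part. Registers of one "big box":
`b : β` block of 8 values of the first index, `J : P`, `K : P'` tiles.
* `U` registers  `(b, (i,r,s), J, K)`,  `i : Fin 8`, `r s : Fin 2`
* `A` registers  `(b, (i,r), J)`
* `C` registers  `(b, (s,i), K)`
* `B` registers  `(x, J, K)`, `x : Fin 4` cell number (0 = (0,0), 1 = (0,1), 2 = (1,0), 3 = (1,1)).
-/
set_option autoImplicit false
open scoped Classical Kronecker
open Matrix
namespace Crest.Agent.R324

/-- A-variables, C-variables, U-variables of one tile and one block -/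
abbrev AV := Fin 8 × Fin 2
abbrev CV := Fin 2 × Fin 8
abbrev UV := Fin 8 × Fin 2 × Fin 2

/-- cell number of `(r,s)` -/
def cellNo (r s : Fin 2) : Fin 4 := ⟨2 * r.val + s.val, by omega⟩

/-- all registers -/
abbrev Reg (β P P' : Type) : Type :=
  (β × UV × P × P') ⊕ (β × AV × P) ⊕ (β × CV × P') ⊕ (Fin 4 × P × P')

variable {β P P' : Type}

abbrev rU (b : β) (t : UV) (J : P) (K : P') : Reg β P P' := Sum.inl (b, t, J, K)
abbrev rA (b : β) (p : AV) (J : P) : Reg β P P' := Sum.inr (Sum.inl (b, p, J))
abbrev rC (b : β) (p : CV) (K : P') : Reg β P P' := Sum.inr (Sum.inr (Sum.inl (b, p, K)))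
abbrev rB (x : Fin 4) (J : P) (K : P') : Reg β P P' := Sum.inr (Sum.inr (Sum.inr (x, J, K)))

/-- target of a step inside a tile: the walker `R` (= B register 0) or an output register -/
inductive Tgt
  | R : Tgt
  | U : UV → Tgt
deriving DecidableEq

/-- one step of the tile program; cost 1 per tile -/
inductive Step
  /-- target `+= a_p - a_m` (a missing index contributes nothing) -/
  | A : Tgt → Option AV → Option AV → Step
  /-- target `+= c_p - c_m` -/
  | C : Tgt → Option CV → Option CV → Step
  /-- target `+= ± B_x`, `x = 1,2,3` (these registers hold `b_x - b_0`) -/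
  | D : Tgt → Fin 4 → Bool → Step
  /-- `u_t += R` -/
  | use : UV → Step

/-- integer linear forms in the A-, C- and B-registers of one tile -/
abbrev Form := (AV ⊕ CV ⊕ Fin 4) → ℤ

def optA (p : Option AV) : Form := fun v => match p, v with
  | some p, Sum.inl v => if p = v then 1 else 0
  | _, _ => 0
def optC (p : Option CV) : Form := fun v => match p, v with
  | some p, Sum.inr (Sum.inl v) => if p = v then 1 else 0
  | _, _ => 0
def formB (x : Fin 4) : Form := fun v => match v with
  | Sum.inr (Sum.inr v) => if x = v then 1 else 0
  | _ => 0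

/-- symbolic state of one tile: content of `R` and what has been added to each `u_t` -/
structure TState where
  R : Form
  U : UV → Form

def TState.addTo (s : TState) (t : Tgt) (f : Form) : TState := match t with
  | Tgt.R => { s with R := s.R + f }
  | Tgt.U u => { s with U := fun v => if v = u then s.U v + f else s.U v }

def Step.exec (s : TState) : Step → TState
  | .A t p m => s.addTo t (optA p - optA m)
  | .C t p m => s.addTo t (optC p - optC m)
  | .D t x neg => s.addTo t (if neg then - formB x else formB x)
  | .use u => s.addTo (Tgt.U u) s.R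

/-- well-formed steps: only `B_x` with `x ≠ 0` is used as a source of `D` -/
def Step.ok : Step → Prop
  | .A _ p m => p ≠ m
  | .C _ p m => p ≠ m
  | .D _ x _ => x ≠ 0
  | .use _ => True

end Crest.Agent.R324
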