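import Crest.Agent.R324.Amplify
/-! Row 324, piece GAMMAREG: all blocks, and encoding `B_x -= B_0` / decoding. -/
set_option autoImplicit false
open scoped Classical Kronecker
open Matrix
namespace Crest.Agent.R324

noncomputable section
variable {β P P' : Type}

/-- `u(b,(i,r,s),J,K) += a(b,(i,r),J) + c(b,(s,i),K) + B(cellNo r s,J,K)` -/
def NGam : Matrix (Reg β P P') (Reg β P P') ℂ :=
  Matrix.of fun x y => match x, y with
    | Sum.inl (b, t, J, _), Sum.inr (Sum.inl (b', p, J')) =>
        if b' = b ∧ p = (t.1, t.2.1) ∧ J' = J then 1 else 0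
    | Sum.inl (b, t, _, K), Sum.inr (Sum.inr (Sum.inl (b', p, K'))) =>
        if b' = b ∧ p = (t.2.2, t.1) ∧ K' = K then 1 else 0
    | Sum.inl (_, t, J, K), Sum.inr (Sum.inr (Sum.inr (x, J', K'))) =>
        if x = cellNo t.2.1 t.2.2 ∧ J' = J ∧ K' = K then 1 else 0
    | _, _ => 0

namespace GAMMAREGaux

/-- `B_x += c B_0`, `x ≠ 0`. -/
def NB (c : ℂ) : Matrix (Reg β P P') (Reg β P P') ℂ :=
  Matrix.of fun x y => match x, y with
    | Sum.inr (Sum.inr (Sum.inr (x, J, K))), Sum.inr (Sum.inr (Sum.inr (x', J', K'))) =>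
        if x ≠ 0 ∧ x' = 0 ∧ J' = J ∧ K' = K then c else 0
    | _, _ => 0

theorem NB_ne {c : ℂ} {x y : Reg β P P'} (h : NB c x y ≠ 0) :
    ∃ (u : Fin 4) (J : P) (K : P'), u ≠ 0 ∧ x = rB u J K ∧ y = rB 0 J K := by
  rcases x with x | x | x | ⟨u, J, K⟩
  · simp [NB] at h
  · simp [NB] at h
  · simp [NB] at h
  · rcases y with y | y | y | ⟨u', J', K'⟩
    · simp [NB] at h
    · simp [NB] at h
    · simp [NB] at h
    · simp only [NB, Matrix.of_apply] at h
      split_ifs at h with h1
      · obtain ⟨h2, h3, h4, h5⟩ := h1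
        exact ⟨u, J, K, h2, rfl, by rw [h3, h4, h5]⟩
      · exact absurd rfl h

theorem Nblk_ne {b : β} {x y : Reg β P P'} (h : Nblk b x y ≠ 0) :
    (∃ v, x = Sum.inl v) ∧ ∃ v, y = Sum.inr v := by
  rcases x with x | x
  · refine ⟨⟨x, rfl⟩, ?_⟩
    rcases y with y | y
    · simp [Nblk, rowF] at h
    · exact ⟨y, rfl⟩
  · simp [Nblk] at h

variable [Fintype β] [Fintype P] [Fintype P']

theorem mul_zero_of {A B : Matrix (Reg β P P') (Reg β P P') ℂ}
    (h : ∀ x z y, A x z ≠ 0 → B z y ≠ 0 → False) : A * B = 0 := by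
  ext x y
  rw [Matrix.mul_apply, Matrix.zero_apply]
  refine Finset.sum_eq_zero fun z _ => ?_
  by_cases h1 : A x z = 0
  · rw [h1, zero_mul]
  · by_cases h2 : B z y = 0
    · rw [h2, mul_zero]
    · exact (h x z y h1 h2).elim

theorem NB_mul_NB (c c' : ℂ) : NB c * NB c' = (0 : Matrix (Reg β P P') (Reg β P P') ℂ) := by
  refine mul_zero_of fun x z y h1 h2 => ?_
  obtain ⟨u, J, K, hu, hx, hz⟩ := NB_ne h1
  obtain ⟨u', J', K', hu', hz', hy⟩ := NB_ne h2
  rw [hz] at hz'
  simp only [Sum.inr.injEq, Prod.mk.injEq] at hz'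
  exact hu' hz'.1.symm

theorem NB_mul_Nblk (c : ℂ) (b : β) :
    NB c * Nblk b = (0 : Matrix (Reg β P P') (Reg β P P') ℂ) := by
  refine mul_zero_of fun x z y h1 h2 => ?_
  obtain ⟨u, J, K, hu, hx, hz⟩ := NB_ne h1
  obtain ⟨⟨v, hv⟩, -⟩ := Nblk_ne h2
  rw [hz] at hv
  cases hv

theorem Nblk_mul_Nblk (b b' : β) :
    Nblk b * Nblk b' = (0 : Matrix (Reg β P P') (Reg β P P') ℂ) := by
  refine mul_zero_of fun x z y h1 h2 => ?_
  obtain ⟨-, ⟨v, hv⟩⟩ := Nblk_ne h1
  obtain ⟨⟨v', hv'⟩, -⟩ := Nblk_ne h2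
  rw [hv] at hv'
  cases hv'

theorem Cost_NB (c : ℂ) : Cost (1 + NB (β := β) (P := P) (P' := P') c)
    (3 * (Fintype.card P * Fintype.card P')) := by
  refine Cost.one_add _ (fun x => ∃ (u : Fin 4) (J : P) (K : P'), u ≠ 0 ∧ x = rB u J K) ?_ _ ?_
  · intro x y h
    obtain ⟨u, J, K, hu, hx, hy⟩ := NB_ne h
    refine ⟨⟨u, J, K, hu, hx⟩, ?_⟩
    rintro ⟨u', J', K', hu', hy'⟩
    rw [hy] at hy'
    simp only [Sum.inr.injEq, Prod.mk.injEq] at hy'
    exact hu' hy'.1.symm
  · have h1 : (Finset.univ.filter (fun p : Reg β P P' × Reg β P P' => NB c p.1 p.2 ≠ 0))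
        ⊆ (Finset.univ : Finset (Fin 3 × P × P')).image
          (fun q => ((rB q.1.succ q.2.1 q.2.2 : Reg β P P'), (rB 0 q.2.1 q.2.2 : Reg β P P'))) := by
      intro p hp
      rw [Finset.mem_filter] at hp
      obtain ⟨u, J, K, hu, hx, hy⟩ := NB_ne hp.2
      rw [Finset.mem_image]
      obtain ⟨v, rfl⟩ := Fin.exists_succ_eq.mpr hu
      exact ⟨(v, J, K), Finset.mem_univ _, by rw [← hx, ← hy]⟩
    calc _ ≤ _ := Finset.card_le_card h1
      _ ≤ (Finset.univ : Finset (Fin 3 × P × P')).card := Finset.card_image_le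
      _ = _ := by simp [Finset.card_univ, Fintype.card_prod]

theorem Cost_blocks (s : Finset β) :
    Cost (1 + ∑ b ∈ s, Nblk (P := P) (P' := P') b)
      (s.card * (95 * (Fintype.card P * Fintype.card P') +
        190 * (Fintype.card P + Fintype.card P'))) := by
  induction s using Finset.induction_on with
  | empty =>
    simp only [Finset.sum_empty, add_zero, Finset.card_empty, zero_mul]
    exact Cost.of_mono Mono.one
  | insert b s hb ih =>
    have h1 := (Cost_block (P := P) (P' := P') b).mul ih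
    have h2 : (1 + Nblk (P := P) (P' := P') b) * (1 + ∑ b ∈ s, Nblk b)
        = 1 + ∑ b ∈ insert b s, Nblk b := by
      have e : Nblk (P := P) (P' := P') b * ∑ b ∈ s, Nblk b = 0 := by
        rw [Matrix.mul_sum]
        exact Finset.sum_eq_zero fun b' _ => Nblk_mul_Nblk b b'
      rw [Finset.sum_insert hb, Matrix.add_mul, Matrix.mul_add, Matrix.mul_add, e,
        Matrix.one_mul, Matrix.one_mul, Matrix.mul_one, add_zero]
      abel
    rw [h2] at h1
    refine h1.le (le_of_eq ?_)
    rw [Finset.card_insert_of_notMem hb]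
    ring

omit [Fintype P] [Fintype P'] in
theorem sum_Nblk_apply (b : β) (t : UV) (J : P) (K : P') (y : Reg β P P') :
    (∑ b, Nblk (P := P) (P' := P') b) (rU b t J K) y = rowF b J K (goalForm t) y := by
  rw [Matrix.sum_apply]
  simp only [Nblk, Matrix.of_apply]
  rw [Finset.sum_ite_eq]
  simp

omit [Fintype P] [Fintype P'] in
theorem sum_Nblk_apply' (v) (y : Reg β P P') :
    (∑ b, Nblk (P := P) (P' := P') b) (Sum.inr v) y = 0 := by
  rw [Matrix.sum_apply]
  simp only [Nblk, Matrix.of_apply]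
  simp

theorem main_id : (∑ b, Nblk (P := P) (P' := P') b)
    + (∑ b, Nblk (P := P) (P' := P') b) * NB (-1) = NGam (β := β) := by
  ext x y
  rw [Matrix.add_apply, Matrix.mul_apply]
  rcases x with ⟨b, t, J, K⟩ | x
  · simp only [sum_Nblk_apply]
    rcases y with y | ⟨b', p, J'⟩ | ⟨b', p, K'⟩ | ⟨u, J', K'⟩
    · have h1 : ∀ z : Reg β P P', NB (-1) z (Sum.inl y) = 0 := by
        intro z; by_contra h; obtain ⟨_, _, _, _, _, h⟩ := NB_ne h; cases h
      simp [h1, rowF, NGam]
    · have h1 : ∀ z : Reg β P P', NB (-1) z (Sum.inr (Sum.inl (b', p, J'))) = 0 := by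
        intro z; by_contra h; obtain ⟨_, _, _, _, _, h⟩ := NB_ne h; cases h
      simp only [h1, mul_zero, Finset.sum_const_zero, add_zero, rowF, NGam, Matrix.of_apply]
      simp only [goalForm, Pi.add_apply, optA, optC, formB]
      by_cases hb : b' = b
      · by_cases hJ : J' = J
        · by_cases hp : (t.1, t.2.1) = p
          · subst hp; subst hb; subst hJ
            simp
            split_ifs <;> simp [formB]
          · subst hb; subst hJ
            have hp' : ¬ p = (t.1, t.2.1) := fun h => hp h.symm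
            simp [hp, hp']
            split_ifs <;> simp [formB]
        · simp [hJ]
      · simp [hb]
    · have h1 : ∀ z : Reg β P P', NB (-1) z (Sum.inr (Sum.inr (Sum.inl (b', p, K')))) = 0 := by
        intro z; by_contra h; obtain ⟨_, _, _, _, _, h⟩ := NB_ne h; cases h
      simp only [h1, mul_zero, Finset.sum_const_zero, add_zero, rowF, NGam, Matrix.of_apply]
      simp only [goalForm, Pi.add_apply, optA, optC, formB]
      by_cases hb : b' = b
      · by_cases hK : K' = K
        · by_cases hp : (t.2.2, t.1) = p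
          · subst hp; subst hb; subst hK
            simp
            split_ifs <;> simp [formB]
          · subst hb; subst hK
            have hp' : ¬ p = (t.2.2, t.1) := fun h => hp h.symm
            simp [hp, hp']
            split_ifs <;> simp [formB]
        · simp [hK]
      · simp [hb]
    · have h2 : ∑ z : Reg β P P', rowF b J K (goalForm t) z * NB (-1) z (rB u J' K')
          = ∑ z : Fin 4, rowF b J K (goalForm t) (rB z J' K') * NB (β := β) (-1) (rB z J' K') (rB u J' K') := by
        symm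
        refine Finset.sum_of_injOn (fun z : Fin 4 => (rB z J' K' : Reg β P P')) ?_ ?_ ?_ ?_
        · intro a _ a' _ h
          simp only [Sum.inr.injEq, Prod.mk.injEq] at h
          exact h.1
        · intro a _; simp
        · intro z _ hz
          by_contra h
          have h3 : NB (β := β) (-1) z (rB u J' K') ≠ 0 := fun h4 => h (by rw [h4, mul_zero])
          obtain ⟨v, J1, K1, _, hz1, hz2⟩ := NB_ne h3
          simp only [Sum.inr.injEq, Prod.mk.injEq] at hz2
          apply hz
          refine ⟨v, by simp, ?_⟩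
          rw [hz1, ← hz2.2.1, ← hz2.2.2]
        · intro a _; rfl
      rw [show (Sum.inr (Sum.inr (Sum.inr (u, J', K'))) : Reg β P P') = rB u J' K' from rfl, h2]
      simp only [rowF, NGam, NB, Matrix.of_apply]
      by_cases hJ : J' = J
      · by_cases hK : K' = K
        · subst hJ; subst hK
          simp only [goalForm, Pi.add_apply, optA, optC, formB, and_true, if_true]
          generalize cellNo t.2.1 t.2.2 = w
          fin_cases w <;> fin_cases u <;>
            (simp [Fin.sum_univ_succ, formB] <;> intro x <;> exact (Fin.succ_ne_zero x).symm)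
        · simp [hK]
      · simp [hJ]
  · simp only [sum_Nblk_apply', zero_mul, Finset.sum_const_zero, add_zero]
    rfl

end GAMMAREGaux

open GAMMAREGaux

/-- `1 + NGam = E⁻¹ * (∏ b, (1 + Nblk b)) * E`, `E` : `B_x(J,K) -= B_0(J,K)` for `x = 1,2,3`
(cost `3|P||P'|`), `E⁻¹` : `+=`.  `∏ b (1 + Nblk b) = 1 + ∑ b, Nblk b` (targets are U registers,
sources are not). -/
theorem Cost_gammaReg [Fintype β] [Fintype P] [Fintype P'] :
    Cost (1 + NGam (β := β) (P := P) (P' := P'))
      (Fintype.card β * (95 * (Fintype.card P * Fintype.card P') +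
        190 * (Fintype.card P + Fintype.card P')) + 6 * (Fintype.card P * Fintype.card P')) := by
  have h1 := Cost_NB (β := β) (P := P) (P' := P') 1
  have h2 := Cost_blocks (P := P) (P' := P') (Finset.univ : Finset β)
  have h3 := Cost_NB (β := β) (P := P) (P' := P') (-1)
  have h4 := (h1.mul h2).mul h3
  have h5 : (1 + NB (β := β) (P := P) (P' := P') 1) * (1 + ∑ b, Nblk b) * (1 + NB (-1))
      = 1 + NGam := by
    have e1 : NB 1 * ∑ b, Nblk b = (0 : Matrix (Reg β P P') (Reg β P P') ℂ) := by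
      rw [Matrix.mul_sum]
      exact Finset.sum_eq_zero fun b _ => NB_mul_Nblk 1 b
    have e2 : NB 1 + NB (-1) = (0 : Matrix (Reg β P P') (Reg β P P') ℂ) := by
      ext x y
      rcases x with x | x | x | ⟨u, J, K⟩ <;> rcases y with y | y | y | ⟨u', J', K'⟩ <;>
        simp only [NB, Matrix.add_apply, Matrix.of_apply, Matrix.zero_apply, add_zero]
      split_ifs <;> simp
    rw [Matrix.add_mul 1 (NB 1), Matrix.mul_add (NB 1), e1, Matrix.one_mul, Matrix.mul_one,
      add_zero, Matrix.mul_add, Matrix.mul_one, Matrix.add_mul, Matrix.add_mul, Matrix.one_mul,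
      NB_mul_NB, add_zero, ← main_id]
    calc (1 + ∑ b, Nblk b + NB 1 + (NB (-1) + (∑ b, Nblk b) * NB (-1)) :
          Matrix (Reg β P P') (Reg β P P') ℂ)
        = 1 + (∑ b, Nblk b + (∑ b, Nblk b) * NB (-1)) + (NB 1 + NB (-1)) := by abel
      _ = _ := by rw [e2, add_zero]
  rw [h5] at h4
  refine h4.le (le_of_eq ?_)
  rw [Finset.card_univ]
  ring

end

end Crest.Agent.R324
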