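import Mathlib
/-! Row 324, piece JENSEN: `∑_x |active x|^θ ≤ (#x) (average of |active x|)^θ`. -/
set_option autoImplicit false
open scoped Classical
namespace Crest.Agent.R324

namespace JensenAux

/-- number of words whose letter `l` is of the left type, times the alphabet size -/
theorem count_letter {A : Type} [Fintype A] (k : ℕ) (l : Fin k) (p : A → Prop)
    [DecidablePred p] :
    (Fintype.card A : ℝ) * ∑ x : Fin k → A, (if p (x l) then (1 : ℝ) else 0) =
      (∑ a : A, if p a then (1 : ℝ) else 0) * (Fintype.card A : ℝ) ^ k := by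
  have h1 : ∀ x : Fin k → A, (if p (x l) then (1 : ℝ) else 0) =
      ∏ i, (if i = l then (if p (x i) then (1 : ℝ) else 0) else 1) := by
    intro x
    rw [Finset.prod_ite_eq' Finset.univ l (fun i => if p (x i) then (1 : ℝ) else 0)]
    simp
  simp only [h1]
  have h2 := Finset.prod_univ_sum (fun _ : Fin k => (Finset.univ : Finset A))
    (fun i a => (if i = l then (if p a then (1 : ℝ) else 0) else 1))
  rw [Fintype.piFinset_univ] at h2
  rw [← h2]
  rw [← Finset.mul_prod_erase Finset.univ _ (Finset.mem_univ l)]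
  have h3 : ∏ i ∈ Finset.univ.erase l, ∑ a : A, (if i = l then (if p a then (1 : ℝ) else 0) else 1)
      = ∏ i ∈ Finset.univ.erase l, (Fintype.card A : ℝ) := by
    refine Finset.prod_congr rfl fun i hi => ?_
    have hne : i ≠ l := Finset.ne_of_mem_erase hi
    simp [hne]
  rw [h3]
  have h4 : (Fintype.card A : ℝ) ^ k =
      (Fintype.card A : ℝ) * ∏ i ∈ Finset.univ.erase l, (Fintype.card A : ℝ) := by
    rw [Finset.mul_prod_erase Finset.univ (fun _ : Fin k => (Fintype.card A : ℝ))
      (Finset.mem_univ l)]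
    simp
  rw [h4]
  simp only [if_true]
  ring

end JensenAux

/-- Jensen for `t ↦ t^θ` over all words `x : Fin k → (β × S) ⊕ γ`; the average number of letters of
the left type is `k * ρ` with `ρ = |β||S| / (|β||S| + |γ|)`. -/
theorem jensen_active {β γ S : Type} [Fintype β] [Fintype γ] [Fintype S] (k : ℕ) {θ : ℝ}
    (h0 : 0 < θ) (h1 : θ ≤ 1) (hne : 0 < Fintype.card β * Fintype.card S + Fintype.card γ) :
    (∑ x : (Fin k → (β × S) ⊕ γ),
        ((Finset.univ.filter (fun l => (x l).isLeft = true)).card : ℝ) ^ θ)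
      ≤ ((Fintype.card β * Fintype.card S + Fintype.card γ : ℕ) : ℝ) ^ k *
        ((k : ℝ) * ((Fintype.card β * Fintype.card S : ℕ) : ℝ) /
          ((Fintype.card β * Fintype.card S + Fintype.card γ : ℕ) : ℝ)) ^ θ := by
  set N : ℝ := ((Fintype.card β * Fintype.card S + Fintype.card γ : ℕ) : ℝ) with hN
  have hNpos : 0 < N := by rw [hN]; exact_mod_cast hne
  have hcard : (Fintype.card ((β × S) ⊕ γ) : ℝ) = N := by
    rw [hN, Fintype.card_sum, Fintype.card_prod]
  set f : (Fin k → (β × S) ⊕ γ) → ℝ := fun x =>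
    ((Finset.univ.filter (fun l => (x l).isLeft = true)).card : ℝ) with hf
  have hf0 : ∀ x, 0 ≤ f x := fun x => Nat.cast_nonneg _
  have hNk : 0 < N ^ k := pow_pos hNpos k
  have htot : ∑ x : (Fin k → (β × S) ⊕ γ), (1 / N ^ k) = 1 := by
    rw [Finset.sum_const, Finset.card_univ, Fintype.card_fun, Fintype.card_fin, nsmul_eq_mul]
    push_cast
    rw [hcard]
    field_simp
  have hJ := (Real.concaveOn_rpow h0.le h1).le_map_sum (t := Finset.univ)
    (w := fun _ : (Fin k → (β × S) ⊕ γ) => 1 / N ^ k) (p := f)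
    (fun _ _ => by positivity) htot (fun x _ => hf0 x)
  simp only [smul_eq_mul] at hJ
  rw [← Finset.mul_sum, ← Finset.mul_sum] at hJ
  have hsum : ∑ x, f x = k * ((Fintype.card β * Fintype.card S : ℕ) : ℝ) / N * N ^ k := by
    have e1 : ∀ x, f x = ∑ l : Fin k, if (x l).isLeft = true then (1 : ℝ) else 0 := by
      intro x
      rw [hf]
      simp only
      rw [Finset.card_filter]
      push_cast
      rfl
    simp only [e1]
    rw [Finset.sum_comm]
    have e2 : ∀ l : Fin k, ∑ x : (Fin k → (β × S) ⊕ γ),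
        (if (x l).isLeft = true then (1 : ℝ) else 0) =
        ((Fintype.card β * Fintype.card S : ℕ) : ℝ) / N * N ^ k := by
      intro l
      have h := JensenAux.count_letter (A := (β × S) ⊕ γ) k l (fun a => a.isLeft = true)
      have e3 : (∑ a : (β × S) ⊕ γ, if a.isLeft = true then (1 : ℝ) else 0) =
          ((Fintype.card β * Fintype.card S : ℕ) : ℝ) := by
        rw [Fintype.sum_sum_type]
        simp
      rw [e3, hcard] at h
      rw [div_mul_eq_mul_div, ← h]
      field_simp
    simp only [e2]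
    rw [Finset.sum_const, Finset.card_univ, Fintype.card_fin, nsmul_eq_mul]
    ring
  rw [hsum] at hJ
  have e5 : 1 / N ^ k * (k * ((Fintype.card β * Fintype.card S : ℕ) : ℝ) / N * N ^ k) =
      k * ((Fintype.card β * Fintype.card S : ℕ) : ℝ) / N := by
    field_simp
  rw [e5] at hJ
  calc ∑ x, f x ^ θ = N ^ k * (1 / N ^ k * ∑ x, f x ^ θ) := by field_simp
    _ ≤ N ^ k * (k * ((Fintype.card β * Fintype.card S : ℕ) : ℝ) / N) ^ θ :=
        mul_le_mul_of_nonneg_left hJ hNk.le

end Crest.Agent.R324
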