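import Crest.Agent.R324.CostApi
/-! Row 324, piece LAYAPI: closure properties of `Lay`. -/
set_option autoImplicit false
set_option linter.unusedSimpArgs false
open scoped Classical Kronecker
open Matrix
namespace Crest.Agent.R324

namespace LAYAPIaux

/-- permutation matrix of an equivalence -/
theorem mono_one_submatrix {I J K : Type} (e : I ≃ K) (f : J ≃ K) :
    Mono ((1 : Matrix K K ℂ).submatrix e f) :=
  Mono.submatrix Mono.one e f

theorem submatrix_conj {I J : Type} [Fintype I] [Fintype J] (X : Matrix J J ℂ) (σ : I ≃ J) :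
    X = (1 : Matrix J J ℂ).submatrix (Equiv.refl J) σ * X.submatrix σ σ *
      (1 : Matrix J J ℂ).submatrix σ (Equiv.refl J) := by
  rw [Matrix.submatrix_mul_equiv, Matrix.submatrix_mul_equiv, Matrix.one_mul, Matrix.mul_one]
  rfl

theorem layer_submatrix {I I' : Type} [Fintype I] [Fintype I'] {G : Matrix I I ℂ} (h : Layer G)
    (σ : I' ≃ I) : Layer (G.submatrix σ σ) := by
  obtain ⟨β, γ, hβ, hγ, e, M₁, M₂, h1, h2, rfl⟩ := h
  refine ⟨β, γ, hβ, hγ, σ.trans e, M₁.submatrix σ σ, M₂.submatrix σ σ, h1.submatrix σ σ,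
    h2.submatrix σ σ, ?_⟩
  have : (blk β γ zM).submatrix (σ.trans e) (σ.trans e) =
      ((blk β γ zM).submatrix e e).submatrix σ σ := rfl
  rw [this, Matrix.submatrix_mul_equiv, Matrix.submatrix_mul_equiv]

theorem layer_mono_mul {I : Type} [Fintype I] {G M : Matrix I I ℂ} (h : Layer G) (hM : Mono M) :
    Layer (M * G) := by
  obtain ⟨β, γ, hβ, hγ, e, M₁, M₂, h1, h2, rfl⟩ := h
  exact ⟨β, γ, hβ, hγ, e, M * M₁, M₂, hM.mul h1, h2, by simp only [Matrix.mul_assoc]⟩

theorem layer_mul_mono {I : Type} [Fintype I] {G M : Matrix I I ℂ} (h : Layer G) (hM : Mono M) :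
    Layer (G * M) := by
  obtain ⟨β, γ, hβ, hγ, e, M₁, M₂, h1, h2, rfl⟩ := h
  exact ⟨β, γ, hβ, hγ, e, M₁, M₂ * M, h1, h2.mul hM, by simp only [Matrix.mul_assoc]⟩

/-- a monomial matrix is moved through a layer -/
theorem mono_layer {I J : Type} [Fintype I] [Fintype J] {M : Matrix I J ℂ} (hM : Mono M)
    {G : Matrix J J ℂ} (hG : Layer G) :
    ∃ G' : Matrix I I ℂ, Layer G' ∧ ∃ M' : Matrix I J ℂ, Mono M' ∧ M * G = G' * M' := by
  obtain ⟨σ, d, hd, hMd⟩ := hM
  refine ⟨M * (1 : Matrix J J ℂ).submatrix (Equiv.refl J) σ * G.submatrix σ σ, ?_,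
    (1 : Matrix J J ℂ).submatrix σ (Equiv.refl J), mono_one_submatrix _ _, ?_⟩
  · refine layer_mono_mul (layer_submatrix hG σ) (Mono.mul ⟨σ, d, hd, hMd⟩ (mono_one_submatrix _ _))
  · conv_lhs => rw [submatrix_conj G σ]
    simp only [Matrix.mul_assoc]

theorem mono_lay {I J K : Type} [Fintype I] [Fintype J] {M : Matrix I J ℂ} (hM : Mono M)
    {b : ℕ} : ∀ {B : Matrix J K ℂ}, Lay b B → Lay b (M * B) := by
  induction b generalizing M with
  | zero => intro B hB; exact hM.mul hB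
  | succ b ih =>
    rintro B ⟨G, B', hG, hB', rfl⟩
    obtain ⟨G', hG', M', hM', e⟩ := mono_layer hM hG
    exact ⟨G', M' * B', hG', ih hM' hB', by rw [← Matrix.mul_assoc, e, Matrix.mul_assoc]⟩

theorem blk_empty {γ : Type} : blk Empty γ zM = 1 := by
  unfold blk
  ext x y
  rcases x with ⟨x, _⟩ | x
  · exact x.elim
  · rcases y with ⟨y, _⟩ | y
    · exact y.elim
    · simp [Matrix.one_apply]

theorem layer_one {I : Type} [Fintype I] : Layer (1 : Matrix I I ℂ) := by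
  refine ⟨Empty, I, inferInstance, inferInstance,
    ⟨Sum.inr, fun x => x.elim (fun y => y.1.elim) id, fun _ => rfl, ?_⟩, 1, 1, Mono.one,
    Mono.one, ?_⟩
  · rintro (⟨x, _⟩ | x)
    · exact x.elim
    · rfl
  · rw [blk_empty, Matrix.submatrix_one_equiv, Matrix.one_mul, Matrix.mul_one]

end LAYAPIaux

open LAYAPIaux

theorem Lay.of_mono {I J : Type} [Fintype I] {A : Matrix I J ℂ} (h : Mono A) : Lay 0 A := h

theorem Lay.layer {I : Type} [Fintype I] {G : Matrix I I ℂ} (h : Layer G) : Lay 1 G :=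
  ⟨G, 1, h, Mono.one, (Matrix.mul_one G).symm⟩

/-- move the monomial part of `A` through the layers of `B` -/
theorem Lay.mul {I J K : Type} [Fintype I] [Fintype J] {A : Matrix I J ℂ} {B : Matrix J K ℂ}
    {a b : ℕ} (hA : Lay a A) (hB : Lay b B) : Lay (a + b) (A * B) := by
  induction a generalizing A with
  | zero => rw [Nat.zero_add]; exact mono_lay hA hB
  | succ a ih =>
    obtain ⟨G, A', hG, hA', rfl⟩ := hA
    rw [Nat.succ_add]
    exact ⟨G, A' * B, hG, ih hA', Matrix.mul_assoc _ _ _⟩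

/-- the identity is a layer (`β = Empty`) -/
theorem Lay.le {I J : Type} [Fintype I] {A : Matrix I J ℂ} {a b : ℕ} (hA : Lay a A)
    (hab : a ≤ b) : Lay b A := by
  induction b, hab using Nat.le_induction with
  | base => exact hA
  | succ b _ ih => exact ⟨1, A, layer_one, ih, (Matrix.one_mul A).symm⟩

theorem Lay.submatrix {I J I' J' : Type} [Fintype I] [Fintype I'] {A : Matrix I J ℂ} {d : ℕ}
    (hA : Lay d A) (e : I' ≃ I) (f : J' ≃ J) : Lay d (A.submatrix e f) := by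
  induction d generalizing A with
  | zero => exact Mono.submatrix hA e f
  | succ d ih =>
    obtain ⟨G, A', hG, hA', rfl⟩ := hA
    exact ⟨G.submatrix e e, A'.submatrix e f, layer_submatrix hG e, ih hA',
      (Matrix.submatrix_mul_equiv _ _ _ _ _).symm⟩

namespace LAYAPIaux

/-- rearrangement of the index set of a block sum of two layers -/
def eSum {I I' β β' γ γ' S : Type} (e : I ≃ (β × S) ⊕ γ) (e' : I' ≃ (β' × S) ⊕ γ') :
    I ⊕ I' ≃ ((β ⊕ β') × S) ⊕ (γ ⊕ γ') :=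
  (Equiv.sumCongr e e').trans ((Equiv.sumSumSumComm _ _ _ _).trans
    (Equiv.sumCongr (Equiv.sumProdDistrib β β' S).symm (Equiv.refl _)))

theorem blk_sum {I I' β β' γ γ' S : Type} (B : Matrix S S ℂ) (e : I ≃ (β × S) ⊕ γ)
    (e' : I' ≃ (β' × S) ⊕ γ') :
    (blk (β ⊕ β') (γ ⊕ γ') B).submatrix (eSum e e') (eSum e e') =
      Matrix.fromBlocks ((blk β γ B).submatrix e e) 0 0 ((blk β' γ' B).submatrix e' e') := by
  ext x y
  rcases x with x | x <;> rcases y with y | y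
  · simp only [Matrix.submatrix_apply, Matrix.fromBlocks_apply₁₁, eSum, Equiv.trans_apply,
      Equiv.sumCongr_apply, Sum.map_inl]
    rcases e x with x' | x' <;> rcases e y with y' | y' <;>
      simp [blk, Matrix.one_apply, Matrix.kroneckerMap_apply]
  · simp only [Matrix.submatrix_apply, Matrix.fromBlocks_apply₁₂, eSum, Equiv.trans_apply,
      Equiv.sumCongr_apply, Sum.map_inl, Sum.map_inr]
    rcases e x with x' | x' <;> rcases e' y with y' | y' <;>
      simp [blk, Matrix.one_apply, Matrix.kroneckerMap_apply]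
  · simp only [Matrix.submatrix_apply, Matrix.fromBlocks_apply₂₁, eSum, Equiv.trans_apply,
      Equiv.sumCongr_apply, Sum.map_inl, Sum.map_inr]
    rcases e' x with x' | x' <;> rcases e y with y' | y' <;>
      simp [blk, Matrix.one_apply, Matrix.kroneckerMap_apply]
  · simp only [Matrix.submatrix_apply, Matrix.fromBlocks_apply₂₂, eSum, Equiv.trans_apply,
      Equiv.sumCongr_apply, Sum.map_inr]
    rcases e' x with x' | x' <;> rcases e' y with y' | y' <;>
      simp [blk, Matrix.one_apply, Matrix.kroneckerMap_apply]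

theorem fromBlocks_mul_diag {I J K I' J' K' : Type} [Fintype J] [Fintype J']
    (A : Matrix I J ℂ) (B : Matrix J K ℂ) (A' : Matrix I' J' ℂ) (B' : Matrix J' K' ℂ) :
    Matrix.fromBlocks (A * B) 0 0 (A' * B') =
      Matrix.fromBlocks A 0 0 A' * Matrix.fromBlocks B 0 0 B' := by
  rw [Matrix.fromBlocks_multiply]
  simp

theorem layer_fromBlocks {I I' : Type} [Fintype I] [Fintype I'] {G : Matrix I I ℂ}
    {H : Matrix I' I' ℂ} (hG : Layer G) (hH : Layer H) :
    Layer (Matrix.fromBlocks G 0 0 H) := by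
  obtain ⟨β, γ, hβ, hγ, e, M₁, M₂, h1, h2, rfl⟩ := hG
  obtain ⟨β', γ', hβ', hγ', e', M₁', M₂', h1', h2', rfl⟩ := hH
  refine ⟨β ⊕ β', γ ⊕ γ', inferInstance, inferInstance, eSum e e',
    Matrix.fromBlocks M₁ 0 0 M₁', Matrix.fromBlocks M₂ 0 0 M₂', h1.fromBlocks h1',
    h2.fromBlocks h2', ?_⟩
  rw [blk_sum, fromBlocks_mul_diag, fromBlocks_mul_diag]

end LAYAPIaux

theorem Lay.fromBlocks {I J I' J' : Type} [Fintype I] [Fintype I'] {A : Matrix I J ℂ}
    {B : Matrix I' J' ℂ} {d : ℕ} (hA : Lay d A) (hB : Lay d B) :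
    Lay d (Matrix.fromBlocks A 0 0 B) := by
  induction d generalizing A B with
  | zero => exact Mono.fromBlocks hA hB
  | succ d ih =>
    obtain ⟨G, A', hG, hA', rfl⟩ := hA
    obtain ⟨H, B', hH, hB', rfl⟩ := hB
    exact ⟨Matrix.fromBlocks G 0 0 H, Matrix.fromBlocks A' 0 0 B', layer_fromBlocks hG hH,
      ih hA' hB', fromBlocks_mul_diag _ _ _ _⟩

namespace LAYAPIaux

/-- rearrangement for `1 ⊗ layer` -/
def eKron {κ I β γ S : Type} (e : I ≃ (β × S) ⊕ γ) : κ × I ≃ ((κ × β) × S) ⊕ (κ × γ) :=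
  (Equiv.prodCongr (Equiv.refl κ) e).trans ((Equiv.prodSumDistrib κ (β × S) γ).trans
    (Equiv.sumCongr (Equiv.prodAssoc κ β S).symm (Equiv.refl _)))

theorem blk_kron {κ I β γ S : Type} (B : Matrix S S ℂ) (e : I ≃ (β × S) ⊕ γ) :
    (blk (κ × β) (κ × γ) B).submatrix (eKron e) (eKron e) =
      (1 : Matrix κ κ ℂ) ⊗ₖ ((blk β γ B).submatrix e e) := by
  ext ⟨k, x⟩ ⟨l, y⟩
  simp only [Matrix.submatrix_apply, eKron, Equiv.trans_apply, Equiv.prodCongr_apply,
    Prod.map_apply, Equiv.refl_apply, Matrix.kroneckerMap_apply]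
  rcases e x with ⟨b, s⟩ | c <;> rcases e y with ⟨b', s'⟩ | c' <;>
    simp only [Equiv.prodSumDistrib_apply_left, Equiv.prodSumDistrib_apply_right,
      Equiv.sumCongr_apply, Sum.map_inl, Sum.map_inr, Equiv.prodAssoc_symm_apply,
      Equiv.refl_apply, blk, Matrix.fromBlocks_apply₁₁, Matrix.fromBlocks_apply₁₂,
      Matrix.fromBlocks_apply₂₁, Matrix.fromBlocks_apply₂₂, Matrix.kroneckerMap_apply,
      Matrix.one_apply, Matrix.zero_apply, mul_zero, Prod.mk.injEq] <;>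
    by_cases h1 : k = l <;> simp [h1]

theorem one_kron_mul {κ I J K : Type} [Fintype κ] [Fintype J] (A : Matrix I J ℂ)
    (B : Matrix J K ℂ) : (1 : Matrix κ κ ℂ) ⊗ₖ (A * B) =
      ((1 : Matrix κ κ ℂ) ⊗ₖ A) * ((1 : Matrix κ κ ℂ) ⊗ₖ B) := by
  rw [← Matrix.mul_kronecker_mul, Matrix.one_mul]

theorem layer_one_kron {κ I : Type} [Fintype κ] [Fintype I] {G : Matrix I I ℂ}
    (hG : Layer G) : Layer ((1 : Matrix κ κ ℂ) ⊗ₖ G) := by
  obtain ⟨β, γ, hβ, hγ, e, M₁, M₂, h1, h2, rfl⟩ := hG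
  refine ⟨κ × β, κ × γ, inferInstance, inferInstance, eKron e,
    (1 : Matrix κ κ ℂ) ⊗ₖ M₁, (1 : Matrix κ κ ℂ) ⊗ₖ M₂, Mono.one.kron h1, Mono.one.kron h2, ?_⟩
  rw [blk_kron, one_kron_mul, one_kron_mul]

theorem lay_one_kron {κ I J : Type} [Fintype κ] [Fintype I] {A : Matrix I J ℂ}
    {d : ℕ} (hA : Lay d A) : Lay d ((1 : Matrix κ κ ℂ) ⊗ₖ A) := by
  induction d generalizing A with
  | zero => exact Mono.one.kron hA
  | succ d ih =>
    obtain ⟨G, A', hG, hA', rfl⟩ := hA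
    exact ⟨_, _, layer_one_kron hG, ih hA', one_kron_mul _ _⟩

theorem one_inst {κ : Type} [inst : DecidableEq κ] :
    (1 : Matrix κ κ ℂ) = @OfNat.ofNat (Matrix κ κ ℂ) 1
      (@One.toOfNat1 _ (@Matrix.one κ ℂ (fun a b => Classical.propDecidable (a = b)) _ _)) := by
  ext i j
  simp [Matrix.one_apply]

end LAYAPIaux

theorem Lay.one_kron {κ I J : Type} [Fintype κ] [DecidableEq κ] [Fintype I] {A : Matrix I J ℂ}
    {d : ℕ} (hA : Lay d A) : Lay d ((1 : Matrix κ κ ℂ) ⊗ₖ A) := by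
  rw [one_inst]
  exact lay_one_kron hA

theorem Lay.kron_one {κ I J : Type} [Fintype κ] [DecidableEq κ] [Fintype I] {A : Matrix I J ℂ}
    {d : ℕ} (hA : Lay d A) : Lay d (A ⊗ₖ (1 : Matrix κ κ ℂ)) := by
  have h := (Lay.one_kron (κ := κ) hA).submatrix (Equiv.prodComm I κ) (Equiv.prodComm J κ)
  have e : A ⊗ₖ (1 : Matrix κ κ ℂ) = ((1 : Matrix κ κ ℂ) ⊗ₖ A).submatrix (Equiv.prodComm I κ)
      (Equiv.prodComm J κ) := by
    ext ⟨i, k⟩ ⟨j, l⟩
    simp [mul_comm]
  rw [e]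
  exact h

namespace LAYAPIaux

/-- index equivalence for `Eblk_diagonal` -/
noncomputable def eDiag {X : Type} (d : X → ℂ) :
    X ⊕ X ≃ ({i : X // d i ≠ 0} × Option Unit) ⊕ ({i : X // ¬ d i ≠ 0} ⊕ {i : X // ¬ d i ≠ 0}) where
  toFun
    | .inl i => if h : d i ≠ 0 then .inl (⟨i, h⟩, none) else .inr (.inl ⟨i, h⟩)
    | .inr i => if h : d i ≠ 0 then .inl (⟨i, h⟩, some ()) else .inr (.inr ⟨i, h⟩)
  invFun
    | .inl (i, none) => .inl i.1
    | .inl (i, some _) => .inr i.1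
    | .inr (.inl i) => .inl i.1
    | .inr (.inr i) => .inr i.1
  left_inv := by
    rintro (i | i) <;> by_cases h : d i ≠ 0 <;> simp [h]
  right_inv := by
    rintro (⟨⟨i, hi⟩, _ | _⟩ | ⟨i, hi⟩ | ⟨i, hi⟩) <;> simp [hi]

end LAYAPIaux

/-- `y_i += d_i x_i` (coefficients may vanish) is one layer -/
theorem Lay.Eblk_diagonal {X : Type} [Fintype X] [DecidableEq X] (d : X → ℂ) :
    Lay 1 (Eblk (Matrix.diagonal d)) := by
  refine Lay.layer ⟨{i : X // d i ≠ 0}, {i : X // ¬ d i ≠ 0} ⊕ {i : X // ¬ d i ≠ 0},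
    inferInstance, inferInstance, eDiag d,
    Matrix.diagonal (Sum.elim (fun _ => 1) fun i => if d i ≠ 0 then d i else 1),
    Matrix.diagonal (Sum.elim (fun _ => 1) fun i => if d i ≠ 0 then (d i)⁻¹ else 1),
    Mono.diagonal ?_, Mono.diagonal ?_, ?_⟩
  · rintro (i | i)
    · simp
    · by_cases h : d i = 0 <;> simp [h]
  · rintro (i | i)
    · simp
    · by_cases h : d i = 0 <;> simp [h]
  · ext x y
    rw [Matrix.mul_diagonal, Matrix.diagonal_mul, Matrix.submatrix_apply]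
    rcases x with i | i <;> rcases y with j | j <;> by_cases hi : d i ≠ 0 <;>
      by_cases hj : d j ≠ 0 <;> by_cases hij : i = j <;>
      simp_all [Eblk, eDiag, blk, Matrix.one_apply, Matrix.diagonal, starM,
        Matrix.kroneckerMap_apply]

theorem Eblk_mul {X Y : Type} [Fintype X] [Fintype Y] (A B : Matrix Y X ℂ) :
    Eblk A * Eblk B = Eblk (A + B) := by
  unfold Eblk
  rw [Matrix.fromBlocks_multiply]
  simp

/-- conjugation of `Eblk` -/
theorem Eblk_conj {X Y : Type} [Fintype X] [Fintype Y] [DecidableEq X] [DecidableEq Y]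
    (A : Matrix Y X ℂ) (U U' : Matrix X X ℂ) (V V' : Matrix Y Y ℂ) (hU : U * U' = 1)
    (hV : V * V' = 1) :
    Matrix.fromBlocks U 0 0 V * Eblk A * Matrix.fromBlocks U' 0 0 V' = Eblk (V * A * U') := by
  rw [one_inst] at hU hV
  unfold Eblk
  rw [Matrix.fromBlocks_multiply, Matrix.fromBlocks_multiply]
  simp [hU, hV]

end Crest.Agent.R324
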