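import Crest.Agent.R324.PiApi
/-! Row 324, piece TP: tensor product of matrices of the form `β` copies of `B` + identity.
`⨂_l blk (β l) (γ l) B` is, after reindexing, block diagonal: for every label
`λ : ∀ l, β l ⊕ γ l` one block `B^{⊗ Q(λ)}`, `Q(λ) = {l | λ l is left}`.
Index equivalence `(∀ l, (β l × S) ⊕ γ l) ≃ Σ λ : (∀ l, β l ⊕ γ l), ({l // (λ l).isLeft} → S)`.
The number of positions in block `λ` is `|S|^|Q(λ)|`, so the total cost is `∑_x τ(#active(x))`. -/
set_option autoImplicit false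
open scoped Classical Kronecker
open Matrix
namespace Crest.Agent.R324

namespace TPaux

/-- decomposition of a letter -/
def e0 (β γ S : Type) : ((β × S) ⊕ γ) ≃ Σ c : β ⊕ γ, (c.isLeft = true → S) where
  toFun x := match x with
    | Sum.inl p => ⟨Sum.inl p.1, fun _ => p.2⟩
    | Sum.inr g => ⟨Sum.inr g, fun h => by simp at h⟩
  invFun x := match x with
    | ⟨Sum.inl b, s⟩ => Sum.inl (b, s rfl)
    | ⟨Sum.inr g, _⟩ => Sum.inr g
  left_inv x := by rcases x with p | g <;> rfl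
  right_inv x := by
    rcases x with ⟨b | g, s⟩
    · rfl
    · simp only [Sigma.mk.injEq, heq_eq_eq, true_and]
      funext h
      simp at h

theorem e0_isLeft {β γ S : Type} (x : (β × S) ⊕ γ) : (e0 β γ S x).1.isLeft = x.isLeft := by
  rcases x with p | g <;> rfl

theorem blk_ne {β γ S : Type} (B : Matrix S S ℂ) (u v : Σ c : β ⊕ γ, (c.isLeft = true → S))
    (h : u.1 ≠ v.1) : blk β γ B ((e0 β γ S).symm u) ((e0 β γ S).symm v) = 0 := by
  obtain ⟨c, s⟩ := u
  obtain ⟨c', s'⟩ := v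
  rcases c with b | g <;> rcases c' with b' | g'
  · have hb : b ≠ b' := fun hh => h (by simp [hh])
    show blk β γ B (Sum.inl (b, s rfl)) (Sum.inl (b', s' rfl)) = 0
    unfold blk
    rw [Matrix.fromBlocks_apply₁₁, Matrix.kroneckerMap_apply, Matrix.one_apply_ne hb, zero_mul]
  · show blk β γ B (Sum.inl (b, s rfl)) (Sum.inr g') = 0
    unfold blk
    rw [Matrix.fromBlocks_apply₁₂]; rfl
  · show blk β γ B (Sum.inr g) (Sum.inl (b', s' rfl)) = 0
    unfold blk
    rw [Matrix.fromBlocks_apply₂₁]; rfl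
  · have hg : g ≠ g' := fun hh => h (by simp [hh])
    show blk β γ B (Sum.inr g) (Sum.inr g') = 0
    unfold blk
    rw [Matrix.fromBlocks_apply₂₂, Matrix.one_apply_ne hg]

theorem blk_eq {β γ S : Type} (B : Matrix S S ℂ) (c : β ⊕ γ) (s s' : c.isLeft = true → S) :
    blk β γ B ((e0 β γ S).symm ⟨c, s⟩) ((e0 β γ S).symm ⟨c, s'⟩) =
      if h : c.isLeft = true then B (s h) (s' h) else 1 := by
  rcases c with b | g
  · show blk β γ B (Sum.inl (b, s rfl)) (Sum.inl (b, s' rfl)) = _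
    unfold blk
    rw [Matrix.fromBlocks_apply₁₁, Matrix.kroneckerMap_apply, Matrix.one_apply_eq, one_mul]
    simp
  · show blk β γ B (Sum.inr g) (Sum.inr g) = _
    unfold blk
    rw [Matrix.fromBlocks_apply₂₂, Matrix.one_apply_eq]
    simp

/-- decomposition of a word -/
def E {ι : Type} (β γ : ι → Type) (S : Type) : (∀ l, (β l × S) ⊕ γ l) ≃
    Σ lam : (∀ l, β l ⊕ γ l), ({l // (lam l).isLeft = true} → S) where
  toFun x := ⟨fun l => (e0 (β l) (γ l) S (x l)).1, fun q => (e0 (β q.1) (γ q.1) S (x q.1)).2 q.2⟩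
  invFun p := fun l => (e0 (β l) (γ l) S).symm ⟨p.1 l, fun h => p.2 ⟨l, h⟩⟩
  left_inv x := by
    funext l
    exact (e0 (β l) (γ l) S).symm_apply_apply (x l)
  right_inv p := by
    obtain ⟨lam, p⟩ := p
    have h1 : ∀ l, e0 (β l) (γ l) S ((e0 (β l) (γ l) S).symm ⟨lam l, fun h => p ⟨l, h⟩⟩) =
      ⟨lam l, fun h => p ⟨l, h⟩⟩ := fun l => (e0 (β l) (γ l) S).apply_symm_apply _
    have h2 : (fun l => e0 (β l) (γ l) S ((e0 (β l) (γ l) S).symm ⟨lam l, fun h => p ⟨l, h⟩⟩)) =
      fun l => ⟨lam l, fun h => p ⟨l, h⟩⟩ := funext h1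
    have h3 := congrArg (fun z : (∀ l, Σ c : β l ⊕ γ l, (c.isLeft = true → S)) =>
      (⟨fun l => (z l).1, fun q => (z q.1).2 q.2⟩ :
        Σ lam : (∀ l, β l ⊕ γ l), ({l // (lam l).isLeft = true} → S))) h2
    exact h3

end TPaux

open TPaux in
theorem TP {ι : Type} [Fintype ι] [DecidableEq ι] {β γ : ι → Type} [∀ l, Fintype (β l)]
    [∀ l, Fintype (γ l)] {S : Type} [Fintype S] (B : Matrix S S ℂ) (τ : ℕ → ℝ)
    (hτ : ∀ k ≤ Fintype.card ι, RCost (kpow (Fin k) B) (τ k * (Fintype.card S : ℝ) ^ k)) :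
    RCost (piT (fun l => blk (β l) (γ l) B))
      (∑ x : (∀ l, (β l × S) ⊕ γ l), τ (Finset.univ.filter (fun l => (x l).isLeft = true)).card) := by
  have h1 : piT (fun l => blk (β l) (γ l) B) =
      (Matrix.blockDiagonal' (fun lam : (∀ l, β l ⊕ γ l) =>
        kpow {l // (lam l).isLeft = true} B)).submatrix (E β γ S) (E β γ S) := by
    ext x y
    obtain ⟨⟨lam, p⟩, rfl⟩ := (E β γ S).symm.surjective x
    obtain ⟨⟨lam', p'⟩, rfl⟩ := (E β γ S).symm.surjective y
    rw [Matrix.submatrix_apply, Equiv.apply_symm_apply, Equiv.apply_symm_apply]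
    by_cases h : lam = lam'
    · subst h
      rw [Matrix.blockDiagonal'_apply_eq]
      show ∏ l, blk (β l) (γ l) B ((e0 (β l) (γ l) S).symm ⟨lam l, fun h => p ⟨l, h⟩⟩)
        ((e0 (β l) (γ l) S).symm ⟨lam l, fun h => p' ⟨l, h⟩⟩) = ∏ q, B (p q) (p' q)
      simp only [blk_eq]
      rw [Fintype.prod_dite]
      simp
    · rw [Matrix.blockDiagonal'_apply_ne _ _ _ h]
      obtain ⟨l, hl⟩ := Function.ne_iff.mp h
      show ∏ l, blk (β l) (γ l) B ((e0 (β l) (γ l) S).symm ⟨lam l, fun h => p ⟨l, h⟩⟩)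
        ((e0 (β l) (γ l) S).symm ⟨lam' l, fun h => p' ⟨l, h⟩⟩) = 0
      exact Finset.prod_eq_zero (Finset.mem_univ l) (blk_ne B _ _ hl)
  have h2 : ∀ lam : (∀ l, β l ⊕ γ l), RCost (kpow {l // (lam l).isLeft = true} B)
      (τ (Fintype.card {l // (lam l).isLeft = true}) *
        (Fintype.card S : ℝ) ^ Fintype.card {l // (lam l).isLeft = true}) := fun lam =>
    RCost_kpow_card rfl (hτ _ (Fintype.card_subtype_le _))
  have h3 := (RCost.blockDiagonal' h2).submatrix (E β γ S) (E β γ S)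
  rw [h1]
  refine h3.le (le_of_eq ?_)
  have h4 : ∀ x : (∀ l, (β l × S) ⊕ γ l),
      τ (Finset.univ.filter (fun l => (x l).isLeft = true)).card =
      (fun z : (Σ lam : (∀ l, β l ⊕ γ l), ({l // (lam l).isLeft = true} → S)) =>
        τ (Fintype.card {l // (z.1 l).isLeft = true})) (E β γ S x) := by
    intro x
    simp only
    congr 1
    rw [Fintype.card_subtype]
    congr 1
    ext l
    simp only [Finset.mem_filter, Finset.mem_univ, true_and]
    rw [← e0_isLeft (x l)]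
    rfl
  rw [Finset.sum_congr rfl (fun x _ => h4 x),
    Equiv.sum_comp (E β γ S) (fun z : (Σ lam : (∀ l, β l ⊕ γ l), ({l // (lam l).isLeft = true} → S)) =>
        τ (Fintype.card {l // (z.1 l).isLeft = true})), Fintype.sum_sigma]
  refine Finset.sum_congr rfl fun lam _ => ?_
  show _ = ∑ _x : ({l // (lam l).isLeft = true} → S), τ (Fintype.card {l // (lam l).isLeft = true})
  rw [Finset.sum_const, Finset.card_univ, nsmul_eq_mul, Fintype.card_fun, mul_comm]
  push_cast
  rfl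

end Crest.Agent.R324
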