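import Crest.Agent.R324.LayApi
import Crest.Agent.R324.TP
/-! Row 324, piece LAYTENSOR: all factors in lockstep. Induction on `d`;
`piT (G * A') = piT G * piT A'`, `piT` of `blk (β l) (γ l) zM` via `TP` with `τ k = κ k^θ`,
every active count is at most `card ι`. -/
set_option autoImplicit false
open scoped Classical Kronecker
open Matrix
namespace Crest.Agent.R324

theorem LAYTENSORaux.RCost_piT_of_layer {ι : Type} [Fintype ι] [DecidableEq ι] {I : ι → Type}
    [∀ l, Fintype (I l)] {G : ∀ l, Matrix (I l) (I l) ℂ} (hG : ∀ l, Layer (G l))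
    {θ κ : ℝ} (hθ : 0 < θ) (hκ : 0 ≤ κ) (hz : Pow θ (Fintype.card ι) zM κ) :
    RCost (piT G) (κ * (Fintype.card ι : ℝ) ^ θ * ∏ l, (Fintype.card (I l) : ℝ)) := by
  choose β γ fβ fγ e M₁ M₂ h1 h2 h3 using hG
  have hE : piT (fun l => (blk (β l) (γ l) zM).submatrix (e l) (e l)) =
      (piT (fun l => blk (β l) (γ l) zM)).submatrix (Equiv.piCongrRight e)
        (Equiv.piCongrRight e) := rfl
  have hT := TP (β := β) (γ := γ) zM (fun k => κ * (k : ℝ) ^ θ) (fun k hk => hz k hk)
  have hT2 : RCost (piT (fun l => blk (β l) (γ l) zM))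
      (κ * (Fintype.card ι : ℝ) ^ θ * ∏ l, (Fintype.card (I l) : ℝ)) := by
    refine hT.le ?_
    have hb : ∀ x : (∀ l, (β l × Option Unit) ⊕ γ l),
        κ * (((Finset.univ.filter (fun l => (x l).isLeft = true)).card : ℕ) : ℝ) ^ θ ≤
        κ * (Fintype.card ι : ℝ) ^ θ := fun x => by
      refine mul_le_mul_of_nonneg_left ?_ hκ
      refine Real.rpow_le_rpow (Nat.cast_nonneg _) ?_ hθ.le
      exact_mod_cast Finset.card_le_univ _
    refine (Finset.sum_le_sum fun x _ => hb x).trans ?_
    rw [Finset.sum_const, Finset.card_univ, nsmul_eq_mul, mul_comm]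
    refine le_of_eq ?_
    congr 1
    rw [← Fintype.card_congr (Equiv.piCongrRight e), Fintype.card_pi]
    push_cast
    rfl
  have hsub := hT2.submatrix (Equiv.piCongrRight e) (Equiv.piCongrRight e)
  have hG' : piT G = piT M₁ * piT (fun l => (blk (β l) (γ l) zM).submatrix (e l) (e l)) *
      piT M₂ := by
    rw [← piT_mul, ← piT_mul]
    congr
    funext l
    exact h3 l
  rw [hG', hE]
  have := ((RCost.of_mono (Mono.piT h1)).mul hsub).mul (RCost.of_mono (Mono.piT h2))
  simpa using this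

open LAYTENSORaux in
theorem RCost_piT_of_lay {ι : Type} [Fintype ι] [DecidableEq ι] {I J : ι → Type}
    [∀ l, Fintype (I l)] {A : ∀ l, Matrix (I l) (J l) ℂ} {d : ℕ} (hA : ∀ l, Lay d (A l))
    {θ κ : ℝ} (hθ : 0 < θ) (hκ : 0 ≤ κ) (hz : Pow θ (Fintype.card ι) zM κ) :
    RCost (piT A)
      (d * (κ * (Fintype.card ι : ℝ) ^ θ * ∏ l, (Fintype.card (I l) : ℝ))) := by
  induction d generalizing A with
  | zero =>
    have h : ∀ l, Mono (A l) := hA
    refine (RCost.of_mono (Mono.piT h)).le ?_
    simp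
  | succ d ih =>
    choose G A' hG hA' hGA using hA
    have h1 : piT A = piT G * piT A' := by
      rw [← piT_mul]
      congr
      funext l
      exact hGA l
    rw [h1]
    refine ((RCost_piT_of_layer hG hθ hκ hz).mul (ih hA')).le (le_of_eq ?_)
    push_cast
    ring

end Crest.Agent.R324
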