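import Crest.Agent.R324.CostApi
/-! Row 324, piece LAYERCOST. -/
set_option autoImplicit false
open scoped Classical Kronecker
open Matrix
namespace Crest.Agent.R324

namespace LAYERCOSTaux

theorem aux {I : Type} [Fintype I] [DecidableEq I] (N : Matrix I I ℂ) (T : I → Prop)
    (S : Finset (I × I)) :
    (∀ p ∈ S, T p.1 ∧ ¬ T p.2) →
    Cost (1 + Matrix.of fun i j => if (i, j) ∈ S then N i j else 0) S.card := by
  induction S using Finset.induction_on with
  | empty =>
    intro _
    apply Cost.of_mono
    refine ⟨Equiv.refl I, fun _ => 1, fun _ => one_ne_zero, ?_⟩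
    ext i j
    simp [Matrix.one_apply]
  | insert p S hp ih =>
    intro hS
    have hpT := hS p (Finset.mem_insert_self p S)
    have hS' : ∀ q ∈ S, T q.1 ∧ ¬ T q.2 := fun q hq => hS q (Finset.mem_insert_of_mem hq)
    have hne : p.1 ≠ p.2 := by
      intro h
      exact hpT.2 (h ▸ hpT.1)
    have key := (Cost.trans hne (N p.1 p.2)).mul (ih hS')
    rw [Finset.card_insert_of_notMem hp, Nat.add_comm S.card 1]
    convert key using 1
    ext a b
    have h2 : ∀ b, (p.2, b) ∉ S := fun b hb => hpT.2 (hS' _ hb).1
    simp only [Matrix.transvection, Matrix.add_mul, Matrix.one_mul, Matrix.mul_add, Matrix.mul_one,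
      Matrix.add_apply, Matrix.of_apply]
    have h3 : (Matrix.single p.1 p.2 (N p.1 p.2) *
        (Matrix.of fun i j => if (i, j) ∈ S then N i j else 0)) a b = 0 := by
      rw [Matrix.mul_apply]
      apply Finset.sum_eq_zero
      intro x _
      by_cases hx : x = p.2
      · subst hx
        simp [h2 b]
      · rw [Matrix.single_apply_of_ne, zero_mul]
        rintro ⟨_, h⟩
        exact hx h.symm
    rw [h3]
    by_cases hab : p = (a, b)
    · subst hab
      simp [hp, add_comm]
    · have hab' : ¬ (p.1 = a ∧ p.2 = b) := by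
        rintro ⟨h, h'⟩
        exact hab (Prod.ext h h')
      have hab'' : (a, b) ≠ p := fun h => hab h.symm
      simp [Finset.mem_insert, hab'', hab', add_comm]

end LAYERCOSTaux

/-- piece LAYERCOST: `1 + N` with disjoint targets and sources costs the number of nonzero
entries (product of commuting transvections; induct over a finset of entries). -/
theorem Cost.one_add {I : Type} [Fintype I] [DecidableEq I] (N : Matrix I I ℂ) (T : I → Prop)
    (hN : ∀ i j, N i j ≠ 0 → T i ∧ ¬ T j) (k : ℕ)
    (hk : (Finset.univ.filter (fun p : I × I => N p.1 p.2 ≠ 0)).card ≤ k) :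
    Cost (1 + N) k := by
  have h := LAYERCOSTaux.aux N T (Finset.univ.filter (fun p : I × I => N p.1 p.2 ≠ 0)) (by
    intro p hp
    exact hN _ _ (Finset.mem_filter.1 hp).2)
  refine Cost.le ?_ hk
  convert h using 2
  ext i j
  simp only [Matrix.of_apply, Finset.mem_filter, Finset.mem_univ, true_and]
  by_cases hij : N i j = 0
  · simp [hij]
  · simp [hij]

end Crest.Agent.R324
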