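import Mathlib
/-! Row 324, piece MODULI: pairwise coprime moduli of size `O(log n)` with product in `[2n, 4n]`
after multiplying by a power of two. Take primes in `[11, Y]`, `Y = C₀ log n`; by
`Chebyshev.theta_ge` their product exceeds `2n`. Take a maximal prefix (increasing order) with
product `≤ 2n`, drop one prime if the number is odd (pair them up as `q l, q' l`); the product `P`
satisfies `2n / Y² ≤ P ≤ 2n`; choose `a` with `2n ≤ 2^a P < 4n`. -/
set_option autoImplicit false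
namespace Crest.Agent.R324

namespace Moduli

open Nat Chebyshev

theorem prod_nth (m : ℕ) : ∏ p ∈ Finset.range (nth Nat.Prime m) with p.Prime, p
    = ∏ i ∈ Finset.range m, nth Nat.Prime i := by
  induction m with
  | zero =>
    simp only [Nat.nth_prime_zero_eq_two, Finset.range_zero, Finset.prod_empty]
    decide
  | succ k ih =>
    rw [Nat.filter_range_nth_eq_insert_of_infinite Nat.infinite_setOfPred_prime,
      Finset.prod_insert (by simp), ih, Finset.prod_range_succ, mul_comm]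

theorem theta_nth (m : ℕ) : Chebyshev.theta ((nth Nat.Prime m - 1 : ℕ) : ℝ)
    = Real.log (∏ i ∈ Finset.range m, nth Nat.Prime i : ℕ) := by
  rw [Chebyshev.theta_eq_log_primorial, Nat.floor_natCast, ← prod_nth]
  unfold primorial
  have h : nth Nat.Prime m - 1 + 1 = nth Nat.Prime m := by
    have := Nat.add_two_le_nth_prime m
    omega
  rw [h]

theorem theta_lower : ∃ y₀ : ℕ, ∀ y : ℕ, y₀ ≤ y → (y : ℝ) / 4 ≤ Chebyshev.theta y := by
  have h1 : (fun x : ℝ => Real.sqrt x * Real.log x) =o[Filter.atTop] (fun x : ℝ => x) := by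
    have h2 := (Asymptotics.isBigO_refl (fun x : ℝ => Real.sqrt x) Filter.atTop).mul_isLittleO
      (isLittleO_log_rpow_atTop (r := 1 / 2) (by norm_num))
    refine h2.congr' (Filter.EventuallyEq.rfl) ?_
    filter_upwards [Filter.eventually_ge_atTop 0] with x hx
    rw [← Real.sqrt_eq_rpow, Real.mul_self_sqrt hx]
  have h3 : ∀ᶠ x : ℝ in Filter.atTop, Real.sqrt x * Real.log x ≤ 1 / 16 * x := by
    have := h1.def (c := 1 / 16) (by norm_num)
    filter_upwards [this, Filter.eventually_ge_atTop 0] with x hx h0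
    have := le_trans (le_abs_self _) hx
    rwa [Real.norm_eq_abs, abs_of_nonneg h0] at this
  have h4 : ∀ᶠ x : ℝ in Filter.atTop, Real.log (x + 1) ≤ 1 / 16 * x := by
    have h5 := Real.isLittleO_log_id_atTop.def (c := 1 / 32) (by norm_num)
    have h6 := (Filter.tendsto_atTop_add_const_right Filter.atTop (1 : ℝ) Filter.tendsto_id).eventually h5
    filter_upwards [h6, Filter.eventually_ge_atTop 1] with x hx h0
    simp only [id_eq] at hx
    have := le_trans (le_abs_self _) hx
    rw [Real.norm_eq_abs, abs_of_nonneg (by linarith)] at this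
    linarith
  obtain ⟨x₀, hx₀⟩ := Filter.eventually_atTop.1 (h3.and h4)
  refine ⟨⌈max x₀ 0⌉₊, ?_⟩
  intro y hy
  have hy' : x₀ ≤ (y : ℝ) := le_trans (le_max_left _ _) (Nat.ceil_le.1 hy)
  obtain ⟨h5, h6⟩ := hx₀ y hy'
  have h7 := Chebyshev.theta_ge y
  have h8 : (0.5 : ℝ) ≤ Real.log 2 := by
    have := Real.log_two_gt_d9; linarith
  have hy0 : (0 : ℝ) ≤ y := Nat.cast_nonneg y
  have h9 : (y : ℝ) * (1 / 2) ≤ y * Real.log 2 := by
    apply mul_le_mul_of_nonneg_left _ hy0
    linarith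
  nlinarith

/-- the primes used -/
noncomputable def pr (i : ℕ) : ℕ := nth Nat.Prime (i + 6)

theorem pr_prime (i : ℕ) : (pr i).Prime := Nat.prime_nth_prime _

theorem pr_ge (i : ℕ) : 8 ≤ pr i := by
  have := Nat.add_two_le_nth_prime (i + 6)
  unfold pr; omega

theorem pr_strictMono : StrictMono pr := by
  intro a b h
  unfold pr
  exact Nat.nth_strictMono Nat.infinite_setOfPred_prime (by omega)

theorem pr_succ_le (i : ℕ) : pr (i + 1) ≤ 2 * pr i := by
  obtain ⟨p, hp, h1, h2⟩ := Nat.exists_prime_lt_and_le_two_mul (pr i) (by have := pr_ge i; omega)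
  refine le_trans ?_ h2
  unfold pr at h1 ⊢
  by_contra hlt
  push Not at hlt
  have h3 : nth Nat.Prime (Nat.count Nat.Prime p) = p := Nat.nth_count hp
  rw [← h3] at h1 hlt
  rw [Nat.nth_lt_nth Nat.infinite_setOfPred_prime] at h1 hlt
  omega

/-- the products -/
noncomputable def PP (r : ℕ) : ℕ := ∏ l ∈ Finset.range r, (pr (2 * l) * pr (2 * l + 1))

theorem PP_succ (r : ℕ) : PP (r + 1) = PP r * (pr (2 * r) * pr (2 * r + 1)) := by
  unfold PP; rw [Finset.prod_range_succ]

theorem prod_eq_PP (r : ℕ) : ∏ i ∈ Finset.range (2 * r + 6), nth Nat.Prime i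
    = (∏ i ∈ Finset.range 6, nth Nat.Prime i) * PP r := by
  induction r with
  | zero => simp [PP]
  | succ k ih =>
    rw [show 2 * (k + 1) + 6 = (2 * k + 6) + 1 + 1 by ring, Finset.prod_range_succ,
      Finset.prod_range_succ, ih, PP_succ]
    have h1 : pr (2 * k) = nth Nat.Prime (2 * k + 6) := rfl
    have h2 : pr (2 * k + 1) = nth Nat.Prime (2 * k + 6 + 1) := by
      unfold pr
      rw [show 2 * k + 1 + 6 = 2 * k + 6 + 1 by ring]
    rw [h1, h2]
    simp only [mul_assoc]

theorem PP_ge (r : ℕ) : 2 ^ r ≤ PP r := by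
  unfold PP
  calc 2 ^ r = ∏ _l ∈ Finset.range r, 2 := by simp
    _ ≤ _ := by
      apply Finset.prod_le_prod'
      intro i _
      have h1 := pr_ge (2 * i)
      have h2 := pr_ge (2 * i + 1)
      nlinarith

end Moduli

open Moduli in
theorem exists_moduli : ∃ (C : ℝ) (n₀ : ℕ), 0 < C ∧ ∀ n : ℕ, n₀ ≤ n →
    ∃ (r a : ℕ) (q q' : Fin r → ℕ),
      (∀ l, Odd (q l) ∧ Odd (q' l) ∧ 8 ≤ q l ∧ 8 ≤ q' l ∧
        (q l : ℝ) ≤ C * Real.log n ∧ (q' l : ℝ) ≤ C * Real.log n ∧ Nat.Coprime (q l) (q' l)) ∧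
      Pairwise (fun l l' => Nat.Coprime (q l * q' l) (q l' * q' l')) ∧
      2 * n ≤ 2 ^ a * ∏ l, (q l * q' l) ∧ 2 ^ a * ∏ l, (q l * q' l) ≤ 4 * n ∧
      ((2 : ℝ) ^ a) ≤ C * Real.log n ^ 2 := by
  obtain ⟨y₀, hy₀⟩ := theta_lower
  set K : ℕ := ∏ i ∈ Finset.range 6, Nat.nth Nat.Prime i with hK
  have hKpos : 0 < K := by
    rw [hK]
    apply Finset.prod_pos
    intro i _
    exact (Nat.prime_nth_prime i).pos
  set D : ℝ := (y₀ : ℝ) + 9 with hD
  have hD1 : 1 ≤ D := by
    have : (0 : ℝ) ≤ y₀ := Nat.cast_nonneg _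
    rw [hD]; linarith
  refine ⟨8 * D ^ 2, max 3 (2 * K), by positivity, ?_⟩
  intro n hn
  have hn3 : 3 ≤ n := le_trans (le_max_left _ _) hn
  have hnK : 2 * K ≤ n := le_trans (le_max_right _ _) hn
  have hlog1 : 1 ≤ Real.log n := by
    rw [Real.le_log_iff_exp_le (by exact_mod_cast (by omega : 0 < n))]
    have h3 : (3 : ℝ) ≤ n := by exact_mod_cast hn3
    have := Real.exp_one_lt_d9
    linarith
  -- the index
  have hex : ∃ r, 2 * n < PP r := ⟨2 * n, lt_of_lt_of_le Nat.lt_two_pow_self (PP_ge _)⟩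
  classical
  obtain ⟨hr1, hr2⟩ : 2 * n < PP (Nat.find hex) ∧ ∀ m < Nat.find hex, ¬ 2 * n < PP m :=
    ⟨Nat.find_spec hex, fun m hm => Nat.find_min hex hm⟩
  have hne : Nat.find hex ≠ 0 := by
    intro h0
    rw [h0] at hr1
    simp [PP] at hr1
    omega
  obtain ⟨r, hr⟩ : ∃ r, Nat.find hex = r + 1 := ⟨Nat.find hex - 1, by omega⟩
  rw [hr] at hr1 hr2
  have hPr : PP r ≤ 2 * n := by
    have := hr2 r (by omega)
    omega
  have hPr1 : 2 * n < PP r * (pr (2 * r) * pr (2 * r + 1)) := by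
    have : PP (r + 1) = PP r * (pr (2 * r) * pr (2 * r + 1)) := by
      unfold PP; rw [Finset.prod_range_succ]
    rw [← this]; exact hr1
  -- the primes are small
  have hsmall : (pr (2 * r) : ℝ) ≤ D * Real.log n := by
    have h1 := theta_nth (2 * r + 6)
    rw [prod_eq_PP] at h1
    have h2 : Real.log ((K * PP r : ℕ) : ℝ) ≤ 2 * Real.log n := by
      rw [← Real.log_rpow (by exact_mod_cast (by omega : 0 < n))]
      apply Real.log_le_log
      · have := PP_ge r
        have h3 : 0 < 2 ^ r := by positivity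
        exact_mod_cast (Nat.mul_pos hKpos (by omega))
      · rw [show (2 : ℝ) = ((2 : ℕ) : ℝ) by norm_num, Real.rpow_natCast]
        have : K * PP r ≤ n ^ 2 := by
          calc K * PP r ≤ K * (2 * n) := Nat.mul_le_mul_left _ hPr
            _ = (2 * K) * n := by ring
            _ ≤ n * n := Nat.mul_le_mul_right _ hnK
            _ = n ^ 2 := by ring
        exact_mod_cast this
    rw [← h1] at h2
    have hy : ((Nat.nth Nat.Prime (2 * r + 6) - 1 : ℕ) : ℝ) = (pr (2 * r) : ℝ) - 1 := by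
      have := pr_ge (2 * r)
      unfold pr at this ⊢
      rw [Nat.cast_sub (by omega)]
      norm_num
    by_cases hcase : y₀ ≤ Nat.nth Nat.Prime (2 * r + 6) - 1
    · have h3 := hy₀ _ hcase
      rw [hy] at h3 h2
      have h4 : (0 : ℝ) ≤ y₀ := Nat.cast_nonneg _
      have : (pr (2 * r) : ℝ) ≤ 8 * Real.log n + 1 := by linarith
      rw [hD]
      nlinarith
    · push Not at hcase
      have h3 : ((Nat.nth Nat.Prime (2 * r + 6) - 1 : ℕ) : ℝ) ≤ y₀ := by exact_mod_cast hcase.le
      rw [hy] at h3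
      have h4 : (0 : ℝ) ≤ y₀ := Nat.cast_nonneg _
      rw [hD]
      nlinarith
  have hsmall' : (pr (2 * r + 1) : ℝ) ≤ 2 * D * Real.log n := by
    have h1 : (pr (2 * r + 1) : ℝ) ≤ 2 * pr (2 * r) := by exact_mod_cast pr_succ_le (2 * r)
    linarith
  have hle : ∀ i, i < 2 * r → (pr i : ℝ) ≤ 8 * D ^ 2 * Real.log n := by
    intro i hi
    have h1 : (pr i : ℝ) ≤ pr (2 * r) := by exact_mod_cast (pr_strictMono hi).le
    have h2 : D * Real.log n ≤ 8 * D ^ 2 * Real.log n := by
      apply mul_le_mul_of_nonneg_right _ (by linarith)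
      nlinarith
    linarith
  -- the exponent
  have hPpos : 0 < PP r := lt_of_lt_of_le (by positivity) (PP_ge r)
  have hexa : ∃ a, 2 * n ≤ 2 ^ a * PP r := by
    refine ⟨2 * n, ?_⟩
    calc 2 * n ≤ 2 ^ (2 * n) := Nat.lt_two_pow_self.le
      _ = 2 ^ (2 * n) * 1 := by ring
      _ ≤ _ := Nat.mul_le_mul_left _ hPpos
  obtain ⟨a, ha1, ha2⟩ : ∃ a, 2 * n ≤ 2 ^ a * PP r ∧ ∀ m < a, ¬ 2 * n ≤ 2 ^ m * PP r :=
    ⟨Nat.find hexa, Nat.find_spec hexa, fun m hm => Nat.find_min hexa hm⟩
  have hprod : ∏ l : Fin r, (pr (2 * (l : ℕ)) * pr (2 * (l : ℕ) + 1)) = PP r := by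
    unfold PP
    exact Fin.prod_univ_eq_prod_range (fun l => pr (2 * l) * pr (2 * l + 1)) r
  have hodd : ∀ i, Odd (pr i) := by
    intro i
    apply (pr_prime i).odd_of_ne_two
    have := pr_ge i; omega
  have hcop : ∀ i j, i ≠ j → Nat.Coprime (pr i) (pr j) := by
    intro i j hij
    rw [Nat.coprime_primes (pr_prime i) (pr_prime j)]
    exact fun h => hij (pr_strictMono.injective h)
  refine ⟨r, a, fun l => pr (2 * l), fun l => pr (2 * l + 1), ?_, ?_, ?_, ?_, ?_⟩
  · intro l
    have hl := l.2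
    exact ⟨hodd _, hodd _, pr_ge _, pr_ge _, hle _ (by omega), hle _ (by omega), hcop _ _ (by omega)⟩
  · intro l l' hll
    have hll' : (l : ℕ) ≠ (l' : ℕ) := fun h => hll (Fin.ext h)
    simp only
    apply Nat.Coprime.mul_left <;> apply Nat.Coprime.mul_right <;> apply hcop <;> omega
  · rw [hprod]; exact ha1
  · rw [hprod]
    rcases Nat.eq_zero_or_pos a with h0 | h0
    · subst h0; omega
    · have h1 := ha2 (a - 1) (by omega)
      push Not at h1
      have h2 : 2 ^ a = 2 * 2 ^ (a - 1) := by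
        rw [← pow_succ']; congr 1; omega
      rw [h2]
      nlinarith
  · have hlogsq : 1 ≤ Real.log n ^ 2 := by nlinarith
    rcases Nat.eq_zero_or_pos a with h0 | h0
    · subst h0
      simp only [pow_zero]
      nlinarith
    · have h1 := ha2 (a - 1) (by omega)
      push Not at h1
      have h2 : 2 ^ a = 2 * 2 ^ (a - 1) := by
        rw [← pow_succ']; congr 1; omega
      have h3 : 2 ^ (a - 1) < pr (2 * r) * pr (2 * r + 1) := by
        have : 2 ^ (a - 1) * PP r < (pr (2 * r) * pr (2 * r + 1)) * PP r := by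
          calc _ < 2 * n := h1
            _ < _ := by rw [mul_comm (pr (2 * r) * pr (2 * r + 1))]; exact hPr1
        exact Nat.lt_of_mul_lt_mul_right this
      have h4 : (2 : ℝ) ^ a = 2 * 2 ^ (a - 1) := by exact_mod_cast h2
      have h5 : (2 : ℝ) ^ (a - 1) ≤ pr (2 * r) * pr (2 * r + 1) := by exact_mod_cast h3.le
      have h6 : (pr (2 * r) : ℝ) * pr (2 * r + 1) ≤ (D * Real.log n) * (2 * D * Real.log n) := by
        apply mul_le_mul hsmall hsmall' (Nat.cast_nonneg _)
        positivity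
      rw [h4]
      have h7 : (0 : ℝ) ≤ D ^ 2 * Real.log n ^ 2 := by positivity
      nlinarith

end Crest.Agent.R324
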