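import Crest.Agent.R324.ZPow
import Crest.Agent.R324.FmCost
import Crest.Agent.R324.FinalBound
import Crest.Agent.R324.Moduli
import Crest.Agent.R324.Bluestein
import Crest.Agent.R324.Circuit
/-! Row 324: final assembly (helper27). -/
set_option autoImplicit false
open scoped Classical Kronecker
open Matrix
namespace Crest.Agent.R324

theorem Mainaux.exists_K (X : ℝ) (hX : 0 ≤ X) : ∃ K : ℕ, X ≤ (2 : ℝ) ^ K ∧ (2 : ℝ) ^ K ≤ 2 * X + 8 := by
  by_cases h : X ≤ 1
  · exact ⟨0, by simpa using h, by norm_num; linarith⟩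
  · push Not at h
    have hlog : 0 ≤ Real.logb 2 X := Real.logb_nonneg (by norm_num) h.le
    refine ⟨⌈Real.logb 2 X⌉₊, ?_, ?_⟩
    · calc X = (2 : ℝ) ^ (Real.logb 2 X) := (Real.rpow_logb (by norm_num) (by norm_num) (by linarith)).symm
        _ ≤ (2 : ℝ) ^ ((⌈Real.logb 2 X⌉₊ : ℕ) : ℝ) :=
            Real.rpow_le_rpow_of_exponent_le (by norm_num) (Nat.le_ceil _)
        _ = _ := Real.rpow_natCast _ _
    · have h1 : ((⌈Real.logb 2 X⌉₊ : ℕ) : ℝ) ≤ Real.logb 2 X + 1 := (Nat.ceil_lt_add_one hlog).le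
      calc (2 : ℝ) ^ ⌈Real.logb 2 X⌉₊ = (2 : ℝ) ^ ((⌈Real.logb 2 X⌉₊ : ℕ) : ℝ) :=
            (Real.rpow_natCast _ _).symm
        _ ≤ (2 : ℝ) ^ (Real.logb 2 X + 1) :=
            Real.rpow_le_rpow_of_exponent_le (by norm_num) h1
        _ = X * 2 := by
            rw [Real.rpow_add (by norm_num), Real.rpow_logb (by norm_num) (by norm_num) (by linarith),
              Real.rpow_one]
        _ ≤ _ := by linarith

theorem main :
    ∃ C : ℝ, ∃ N₀ : ℕ, ∀ n ≥ N₀, ∃ P : Crest.FourierCircuit.LinCircuit n,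
      P.Computes (Crest.FourierCircuit.dftMatrix n) ∧
        (P.size : ℝ) ≤ C * n * Real.log n ^ Crest.FourierCircuit.savingExponent *
          Real.log (Real.log n) ^ (4 - Crest.FourierCircuit.savingExponent) := by
  obtain ⟨κ, hκ, hz⟩ := zPow
  obtain ⟨C, n₀, hC, hm⟩ := exists_moduli
  obtain ⟨C', n₁, hfb⟩ := final_bound C κ hC hκ
  refine ⟨C', max n₀ (max n₁ 3), fun n hn => ?_⟩
  have hn0 : n₀ ≤ n := le_trans (le_max_left _ _) hn
  have hn1 : n₁ ≤ n := le_trans (le_trans (le_max_left _ _) (le_max_right _ _)) hn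
  have hn3 : 3 ≤ n := le_trans (le_trans (le_max_right _ _) (le_max_right _ _)) hn
  have hnpos : 0 < n := by omega
  have hn3' : (3 : ℝ) ≤ n := by exact_mod_cast hn3
  have hL : 1 ≤ Real.log n := by
    rw [Real.le_log_iff_exp_le (by linarith)]
    linarith [Real.exp_one_lt_d9]
  obtain ⟨r, a, q, q', hq, hpair, hN1, hN2, ha⟩ := hm n hn0
  set N := 2 ^ a * ∏ l, (q l * q' l) with hNdef
  have hNpos : 0 < N := by omega
  have : NeZero N := ⟨by omega⟩
  obtain ⟨K, hK1, hK2⟩ := Mainaux.exists_K (4 * C * Real.log n ^ 2) (by positivity)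
  have hLL : Real.log n ≤ Real.log n ^ 2 := by nlinarith
  have haK : a ≤ K := by
    have h1 : (2 : ℝ) ^ a ≤ (2 : ℝ) ^ K := by
      refine le_trans ha (le_trans ?_ hK1)
      have : 0 ≤ C * Real.log n ^ 2 := by positivity
      linarith
    exact (pow_le_pow_iff_right₀ (by norm_num : (1 : ℝ) < 2)).1 h1
  have hqK : ∀ x : ℕ, (x : ℝ) ≤ C * Real.log n → 4 * x ≤ 2 ^ K := by
    intro x hx
    have h2 : C * Real.log n ≤ C * Real.log n ^ 2 := mul_le_mul_of_nonneg_left hLL hC.le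
    have : ((4 * x : ℕ) : ℝ) ≤ ((2 ^ K : ℕ) : ℝ) := by
      push_cast
      linarith
    exact_mod_cast this
  have h64 : (64 : ℕ) ^ r ≤ 4 * n := by
    refine le_trans ?_ hN2
    have h1 : (64 : ℕ) ^ r ≤ ∏ l, (q l * q' l) := by
      have : ∏ _l : Fin r, 64 ≤ ∏ l, (q l * q' l) := by
        refine Finset.prod_le_prod' fun l _ => ?_
        have := hq l
        nlinarith [this.2.2.1, this.2.2.2.1]
      simpa using this
    calc 64 ^ r ≤ 1 * ∏ l, (q l * q' l) := by simpa using h1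
      _ ≤ _ := Nat.mul_le_mul_right _ (Nat.one_le_two_pow)
  obtain ⟨ψ, hψ, hc⟩ := RCost_Fm_moduli hκ hz q q'
    (fun l => ⟨(hq l).1, (hq l).2.1, (hq l).2.2.1, (hq l).2.2.2.1, (hq l).2.2.2.2.2.2,
      hqK _ (hq l).2.2.2.2.1, hqK _ (hq l).2.2.2.2.2.1⟩) hpair haK (N := N) hNdef
  obtain ⟨c, hcost, hle⟩ := hc
  obtain ⟨d, Λ, hb⟩ := bluestein n N hnpos hN1 ψ hψ
  have hinj : Function.Injective (fun k : Fin n => (-(k.val : ZMod N) : ZMod N)) := by
    intro k k' h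
    have h1 : (k.val : ZMod N) = (k'.val : ZMod N) := neg_injective h
    have h2 := (ZMod.natCast_eq_natCast_iff' _ _ _).1 h1
    rw [Nat.mod_eq_of_lt (by omega), Nat.mod_eq_of_lt (by omega)] at h2
    exact Fin.ext h2
  obtain ⟨P, hP, hsize⟩ := circuit_of_cost (Fm ψ) hcost (Crest.FourierCircuit.dftMatrix n) d Λ
    (fun j => (j.val : ZMod N)) (fun k => -(k.val : ZMod N)) hinj hb
  refine ⟨P, hP, ?_⟩
  have h1 : (P.size : ℝ) ≤ 4 * (c : ℝ) + 3 * (N : ℝ) + 2 * (n : ℝ) := by exact_mod_cast hsize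
  refine le_trans h1 (le_trans ?_ (hfb n hn1 r a K N h64 (by linarith) hN2))
  linarith

end Crest.Agent.R324
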