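import Crest.Agent.R324.Defs
/-! Row 324, piece MONOAPI: closure properties of monomial matrices. -/
set_option autoImplicit false
open scoped Classical Kronecker
open Matrix
namespace Crest.Agent.R324

theorem Mono.one {I : Type} [DecidableEq I] : Mono (1 : Matrix I I ℂ) := by
  refine ⟨Equiv.refl I, fun _ => 1, fun _ => one_ne_zero, ?_⟩
  ext i j
  by_cases h : i = j <;> simp [Matrix.one_apply, h]

theorem Mono.mul {I J K : Type} [Fintype J] {A : Matrix I J ℂ} {B : Matrix J K ℂ}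
    (hA : Mono A) (hB : Mono B) : Mono (A * B) := by
  obtain ⟨σ, d, hd, rfl⟩ := hA
  obtain ⟨τ, c, hc, rfl⟩ := hB
  refine ⟨σ.trans τ, fun i => d i * c (σ i), fun i => mul_ne_zero (hd i) (hc _), ?_⟩
  ext i k
  rw [Matrix.mul_apply]
  simp only [Matrix.of_apply, ite_mul, zero_mul, Equiv.trans_apply]
  rw [Finset.sum_ite_eq Finset.univ (σ i)]
  by_cases h : τ (σ i) = k <;> simp [h]

theorem Mono.submatrix {I J I' J' : Type} {A : Matrix I J ℂ} (hA : Mono A) (e : I' ≃ I)
    (f : J' ≃ J) : Mono (A.submatrix e f) := by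
  obtain ⟨σ, d, hd, rfl⟩ := hA
  refine ⟨(e.trans σ).trans f.symm, fun i => d (e i), fun i => hd _, ?_⟩
  ext i j
  simp only [Matrix.submatrix_apply, Matrix.of_apply, Equiv.trans_apply, Equiv.symm_apply_eq]

theorem Mono.diagonal {I : Type} [DecidableEq I] {d : I → ℂ} (hd : ∀ i, d i ≠ 0) :
    Mono (Matrix.diagonal d) := by
  refine ⟨Equiv.refl I, d, hd, ?_⟩
  ext i j
  by_cases h : i = j <;> simp [Matrix.diagonal_apply, h]

theorem Mono.fromBlocks {I J I' J' : Type} {A : Matrix I J ℂ} {B : Matrix I' J' ℂ}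
    (hA : Mono A) (hB : Mono B) : Mono (Matrix.fromBlocks A 0 0 B) := by
  obtain ⟨σ, d, hd, rfl⟩ := hA
  obtain ⟨τ, c, hc, rfl⟩ := hB
  refine ⟨Equiv.sumCongr σ τ, Sum.elim d c, ?_, ?_⟩
  · rintro (i | i)
    · exact hd i
    · exact hc i
  · ext x y
    rcases x with x | x <;> rcases y with y | y <;> simp

theorem Mono.kron {I J I' J' : Type} {A : Matrix I J ℂ} {B : Matrix I' J' ℂ}
    (hA : Mono A) (hB : Mono B) : Mono (A ⊗ₖ B) := by
  obtain ⟨σ, d, hd, rfl⟩ := hA
  obtain ⟨τ, c, hc, rfl⟩ := hB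
  refine ⟨Equiv.prodCongr σ τ, fun x => d x.1 * c x.2, fun x => mul_ne_zero (hd _) (hc _), ?_⟩
  ext ⟨x, x'⟩ ⟨y, y'⟩
  by_cases h1 : σ x = y <;> by_cases h2 : τ x' = y' <;>
    simp [Matrix.kroneckerMap_apply, h1, h2]

theorem Mono.piT {ι : Type} [Fintype ι] {I J : ι → Type} {A : ∀ l, Matrix (I l) (J l) ℂ}
    (h : ∀ l, Mono (A l)) : Mono (piT A) := by
  choose σ d hd hA using h
  refine ⟨Equiv.piCongrRight σ, fun x => ∏ l, d l (x l),
    fun x => Finset.prod_ne_zero_iff.2 fun l _ => hd l _, ?_⟩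
  ext x y
  simp only [R324.piT, Matrix.of_apply]
  by_cases hxy : (Equiv.piCongrRight σ) x = y
  · rw [if_pos hxy]
    refine Finset.prod_congr rfl fun l _ => ?_
    rw [hA l, Matrix.of_apply, if_pos]
    rw [← hxy]; rfl
  · rw [if_neg hxy]
    have : ∃ l, σ l (x l) ≠ y l := by
      by_contra hcon
      push Not at hcon
      exact hxy (funext hcon)
    obtain ⟨l, hl⟩ := this
    refine Finset.prod_eq_zero (Finset.mem_univ l) ?_
    rw [hA l, Matrix.of_apply, if_neg hl]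

theorem Mono.blockDiagonal' {o : Type} [DecidableEq o] {I J : o → Type}
    {A : ∀ b, Matrix (I b) (J b) ℂ} (h : ∀ b, Mono (A b)) : Mono (Matrix.blockDiagonal' A) := by
  choose σ d hd hA using h
  refine ⟨Equiv.sigmaCongrRight σ, fun x => d x.1 x.2, fun x => hd _ _, ?_⟩
  ext ⟨b, i⟩ ⟨c, j⟩
  by_cases hbc : b = c
  · subst hbc
    rw [Matrix.blockDiagonal'_apply_eq, hA b]
    simp
  · rw [Matrix.blockDiagonal'_apply_ne _ _ _ hbc, Matrix.of_apply, if_neg]
    intro heq
    exact hbc (congrArg Sigma.fst heq)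

/-- inverse of a monomial matrix -/
theorem Mono.inv {I J : Type} [Fintype I] [Fintype J] [DecidableEq I] [DecidableEq J]
    {A : Matrix I J ℂ} (hA : Mono A) : ∃ B : Matrix J I ℂ, Mono B ∧ A * B = 1 ∧ B * A = 1 := by
  obtain ⟨σ, d, hd, rfl⟩ := hA
  refine ⟨Matrix.of fun j i => if σ.symm j = i then (d (σ.symm j))⁻¹ else 0,
    ⟨σ.symm, fun j => (d (σ.symm j))⁻¹, fun j => inv_ne_zero (hd _), ?_⟩, ?_, ?_⟩
  · ext j i
    by_cases h : σ.symm j = i <;> simp [h]
  · ext i k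
    rw [Matrix.mul_apply]
    simp only [Matrix.of_apply, ite_mul, zero_mul]
    rw [Finset.sum_ite_eq Finset.univ (σ i)]
    simp only [Finset.mem_univ, if_true, Equiv.symm_apply_apply, Matrix.one_apply]
    by_cases hik : i = k
    · simp [hik, hd]
    · simp [hik]
  · ext j l
    rw [Matrix.mul_apply]
    simp only [Matrix.of_apply, ite_mul, zero_mul]
    rw [Finset.sum_ite_eq Finset.univ (σ.symm j)]
    simp only [Finset.mem_univ, if_true, Equiv.apply_symm_apply, Matrix.one_apply]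
    by_cases hjl : j = l
    · simp [hjl, hd]
    · simp [hjl]

end Crest.Agent.R324
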