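import Crest.Agent.R324.Defs
/-! Row 324: the matrix `NStar`. -/
set_option autoImplicit false
open scoped Classical Kronecker
open Matrix
namespace Crest.Agent.R324

noncomputable section

/-- `(some i, some j, some k) += (some i, some j, none) + (some i, none, some k) + (none, some j, some k)` -/
def NStar (α : Type) : Matrix (Option α × (Option α × Option α)) (Option α × (Option α × Option α)) ℂ :=
  Matrix.of fun x y => match x with
    | (some i, (some j, some k)) =>
        if y = (some i, (some j, none)) ∨ y = (some i, (none, some k)) ∨ y = (none, (some j, some k))
        then 1 else 0
    | _ => 0

end

end Crest.Agent.R324
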