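import Crest.Agent.R324.Defs
/-! Row 324, piece NUMREC: the numerical inequalities of the recursion. `th = 1 - 1/10^12`.
Useful: for `0 < x`, `x^th = x * (1/x)^(1/10^12)`; if `1/x ≤ 2^40` then
`(1/x)^ε ≤ 2^(40 ε) ≤ 1 + 40 ε`; `2^th ≥ 2 (1 - ε)`, `3^th ≥ 3 (1 - 2 ε)`. -/
set_option autoImplicit false
namespace Crest.Agent.R324

noncomputable section

namespace NUMRECaux

theorem eps_pow_le (m : ℕ) (hm : m ≤ 40) :
    ((2 : ℝ) ^ m) ^ (1 / 10 ^ 12 : ℝ) ≤ 1 + m * (1 / 10 ^ 12) := by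
  rw [← Real.rpow_natCast, ← Real.rpow_mul (by norm_num)]
  have hm' : (m : ℝ) ≤ 40 := by exact_mod_cast hm
  have h := rpow_one_add_le_one_add_mul_self (s := (1 : ℝ)) (p := (m : ℝ) * (1 / 10 ^ 12))
    (by norm_num) (by positivity) (by
      have : (m : ℝ) * (1 / 10 ^ 12) ≤ 40 * (1 / 10 ^ 12) := by gcongr
      refine this.trans (by norm_num))
  norm_num at h ⊢
  exact h

theorem rpow_th {x : ℝ} (hx : 0 < x) : x ^ th = x * (x⁻¹) ^ (1 / 10 ^ 12 : ℝ) := by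
  unfold th
  rw [Real.rpow_sub hx, Real.rpow_one, Real.inv_rpow hx.le]
  rfl

theorem pow_th_le {x : ℝ} (hx : 0 < x) (m : ℕ) (hm : m ≤ 40) (h : x⁻¹ ≤ 2 ^ m) :
    x ^ th ≤ x * (1 + m * (1 / 10 ^ 12)) := by
  rw [rpow_th hx]
  have h1 : (x⁻¹) ^ (1 / 10 ^ 12 : ℝ) ≤ ((2 : ℝ) ^ m) ^ (1 / 10 ^ 12 : ℝ) :=
    Real.rpow_le_rpow (by positivity) h (by norm_num)
  exact mul_le_mul_of_nonneg_left (h1.trans (eps_pow_le m hm)) hx.le

theorem pow_th_ge {x : ℝ} (hx : 0 < x) (m : ℕ) (hm : m ≤ 40) (h : x ≤ 2 ^ m) :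
    x * (1 - m * (1 / 10 ^ 12)) ≤ x ^ th := by
  rw [rpow_th hx, Real.inv_rpow hx.le]
  have h1 : x ^ (1 / 10 ^ 12 : ℝ) ≤ 1 + m * (1 / 10 ^ 12) :=
    (Real.rpow_le_rpow hx.le h (by norm_num)).trans (eps_pow_le m hm)
  have h2 : 0 < x ^ (1 / 10 ^ 12 : ℝ) := Real.rpow_pos_of_pos hx _
  refine mul_le_mul_of_nonneg_left ?_ hx.le
  rw [← one_div, le_div_iff₀ h2]
  have h3 : (0 : ℝ) ≤ m * (1 / 10 ^ 12) := by positivity
  have h4 : (m : ℝ) * (1 / 10 ^ 12) ≤ 40 * (1 / 10 ^ 12) := by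
    have hm' : (m : ℝ) ≤ 40 := by exact_mod_cast hm
    gcongr
  have h5 : 0 ≤ 1 - (m : ℝ) * (1 / 10 ^ 12) := by
    have : (40 : ℝ) * (1 / 10 ^ 12) ≤ 1 := by norm_num
    linarith
  nlinarith

end NUMRECaux

def Acoef (s : ℕ) : ℝ := ((2 : ℝ) ^ s / ((2 : ℝ) ^ s + 1)) * (1 - s / 2000)

theorem num_double (s : ℕ) (hs : s < 12) :
    2 * (Acoef s * ((2 : ℝ) ^ s / ((2 : ℝ) ^ s + 1)) ^ th) +
      Acoef (s + 1) * ((2 * (2 : ℝ) ^ s + 1) / ((2 : ℝ) ^ s + 1) ^ 2) ^ th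
      < Acoef s * (2 : ℝ) ^ th := by
  have h1 := NUMRECaux.pow_th_le (x := (2 : ℝ) ^ s / ((2 : ℝ) ^ s + 1)) (by positivity) 1
    (by norm_num) (by interval_cases s <;> norm_num)
  have h2 := NUMRECaux.pow_th_le (x := (2 * (2 : ℝ) ^ s + 1) / ((2 : ℝ) ^ s + 1) ^ 2)
    (by positivity) 12 (by norm_num) (by interval_cases s <;> norm_num)
  have h3 := NUMRECaux.pow_th_ge (x := 2) (by norm_num) 1 (by norm_num) (by norm_num)
  generalize ((2 : ℝ) ^ s / ((2 : ℝ) ^ s + 1)) ^ th = X at *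
  generalize ((2 * (2 : ℝ) ^ s + 1) / ((2 : ℝ) ^ s + 1) ^ 2) ^ th = Y at *
  generalize (2 : ℝ) ^ th = Z at *
  unfold Acoef
  interval_cases s <;> norm_num at h1 h2 h3 ⊢ <;> linarith

theorem num_top :
    (204535246848 : ℝ) * (Acoef 0 * (2 / (4097 : ℝ) ^ 3) ^ th) < Acoef 12 * (3 : ℝ) ^ th := by
  have h1 := NUMRECaux.pow_th_le (x := 2 / (4097 : ℝ) ^ 3) (by positivity) 40
    (by norm_num) (by norm_num)
  have h3 := NUMRECaux.pow_th_ge (x := 3) (by norm_num) 2 (by norm_num) (by norm_num)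
  generalize (2 / (4097 : ℝ) ^ 3) ^ th = X at *
  generalize (3 : ℝ) ^ th = Z at *
  unfold Acoef
  norm_num at h1 h3 ⊢
  linarith

theorem th_le_savingExponent :
    th ≤ Real.logb (10 ^ 6) (10 ^ 6 - 6871402692000000 / 2 ^ 71) := by
  rw [Real.le_logb_iff_rpow_le (by norm_num) (by norm_num), NUMRECaux.rpow_th (by norm_num)]
  have h1 : (4 : ℝ) ≤ Real.log (10 ^ 6) := by
    rw [Real.le_log_iff_exp_le (by norm_num)]
    have h2 : Real.exp 4 = Real.exp 1 ^ 4 := by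
      rw [← Real.exp_nat_mul]; norm_num
    rw [h2]
    have h3 := Real.exp_one_lt_d9
    have h4 := Real.exp_pos 1
    calc Real.exp 1 ^ 4 ≤ 3 ^ 4 := pow_le_pow_left₀ h4.le (by linarith) 4
      _ ≤ _ := by norm_num
  have h2 : 1 + 4 * (1 / 10 ^ 12 : ℝ) ≤ (10 ^ 6 : ℝ) ^ (1 / 10 ^ 12 : ℝ) := by
    rw [Real.rpow_def_of_pos (by norm_num)]
    have h3 := Real.add_one_le_exp (Real.log (10 ^ 6) * (1 / 10 ^ 12))
    have h4 : 4 * (1 / 10 ^ 12 : ℝ) ≤ Real.log (10 ^ 6) * (1 / 10 ^ 12) := by gcongr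
    linarith
  rw [Real.inv_rpow (by norm_num)]
  have h3 : ((10 ^ 6 : ℝ) ^ (1 / 10 ^ 12 : ℝ))⁻¹ ≤ (1 + 4 * (1 / 10 ^ 12 : ℝ))⁻¹ :=
    inv_anti₀ (by norm_num) h2
  calc _ ≤ (10 ^ 6 : ℝ) * (1 + 4 * (1 / 10 ^ 12 : ℝ))⁻¹ := by gcongr
    _ ≤ _ := by norm_num

end

end Crest.Agent.R324
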