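import Crest.Agent.R324.ECopy
/-! Row 324, piece ONCOPY: `F_q` in place on copy 0, the other seven copies are dirty and restored.
`q` odd, `D = diagonal (ψ (j² / 2))`, `H = circulant (fun t => ψ (-t²/2))`: `Fm ψ = D * H * D`,
`H = F⁻¹ * Λ * F`, `Λ = g • D`, `g = ∑ t, ψ (-t²/2) ≠ 0` (as `F`, hence `H`, is invertible).
* `Ecop F`, `Ecop (-F⁻¹)` etc. are monomial conjugates of `Ecop H` (also with copies 0 and 1
  exchanged): `16k+4` layers each.
* `S := E₁₀(F) E₀₁(-F⁻¹) E₁₀(F)` acts on copies (0,1) as `(x,y) ↦ (-F⁻¹ y, F x)`;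
  `on0 H = S⁻¹ * (Λ on copy 1) * S`, `S⁻¹ = E₁₀(-F) E₀₁(F⁻¹) E₁₀(-F)`.
* `on0 F = on0 D * on0 H * on0 D`. Total `6 (16k+4)` layers. -/
set_option autoImplicit false
open scoped Classical Kronecker
open Matrix
namespace Crest.Agent.R324

namespace ONCOPYaux

/-- the block operator with blocks `a b c d` on the copies 0, 1 and the identity elsewhere -/
noncomputable def T {R : Type} [Ring R] (a b c d : R) : Matrix (Fin 8) (Fin 8) R :=
  1 + Matrix.single 0 0 (a - 1) + Matrix.single 0 1 b + Matrix.single 1 0 c +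
    Matrix.single 1 1 (d - 1)

theorem T_mul {R : Type} [Ring R] (a b c d a' b' c' d' : R) :
    T a b c d * T a' b' c' d' =
      T (a * a' + b * c') (a * b' + b * d') (c * a' + d * c') (c * b' + d * d') := by
  have h01 : (0 : Fin 8) ≠ 1 := by decide
  have h10 : (1 : Fin 8) ≠ 0 := by decide
  unfold T
  simp only [add_mul, mul_add, mul_one, one_mul, Matrix.single_mul_single_same,
    Matrix.single_mul_single_of_ne _ _ _ _ h01, Matrix.single_mul_single_of_ne _ _ _ _ h10]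
  ext i j
  simp only [Matrix.add_apply, Matrix.single_apply, Matrix.zero_apply]
  split_ifs <;> first | noncomm_ring | simp

theorem T_one {R : Type} [Ring R] : T (1 : R) 0 0 1 = 1 := by
  simp [T]

variable {q : ℕ} [NeZero q]

/-- back to matrices on `Fin 8 × ZMod q` -/
noncomputable abbrev cp (M : Matrix (Fin 8) (Fin 8) (Matrix (ZMod q) (ZMod q) ℂ)) :
    Matrix (Fin 8 × ZMod q) (Fin 8 × ZMod q) ℂ :=
  Matrix.compRingEquiv (Fin 8) (ZMod q) ℂ M

theorem cp_apply (M : Matrix (Fin 8) (Fin 8) (Matrix (ZMod q) (ZMod q) ℂ))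
    (a b : Fin 8 × ZMod q) : cp M a b = M a.1 b.1 a.2 b.2 := rfl

theorem cp_mul (M N : Matrix (Fin 8) (Fin 8) (Matrix (ZMod q) (ZMod q) ℂ)) :
    cp (M * N) = cp M * cp N := map_mul (Matrix.compRingEquiv (Fin 8) (ZMod q) ℂ) M N

theorem mono_cp_diag (M : Fin 8 → Matrix (ZMod q) (ZMod q) ℂ) (h : ∀ i, Mono (M i)) :
    Mono (cp (Matrix.diagonal M)) := by
  choose σ d hd hM using h
  refine ⟨Equiv.prodShear (Equiv.refl _) σ, fun x => d x.1 x.2, fun x => hd _ _, ?_⟩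
  ext ⟨i, x⟩ ⟨j, y⟩
  rw [cp_apply, Matrix.of_apply, Matrix.diagonal_apply]
  by_cases hij : i = j
  · subst hij
    rw [if_pos rfl, hM i, Matrix.of_apply]
    simp [Equiv.prodShear]
  · simp [hij, Equiv.prodShear]

theorem T_diag (a d : Matrix (ZMod q) (ZMod q) ℂ) :
    T a 0 0 d = Matrix.diagonal (fun i : Fin 8 => if i = 0 then a else if i = 1 then d else 1) := by
  ext1 i j
  simp only [T, Matrix.add_apply, Matrix.single_apply, Matrix.diagonal_apply, Matrix.one_apply]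
  fin_cases i <;> fin_cases j <;> simp

theorem mono_T (a d : Matrix (ZMod q) (ZMod q) ℂ) (ha : Mono a) (hd : Mono d) :
    Mono (cp (T a 0 0 d)) := by
  rw [T_diag]
  refine mono_cp_diag _ fun i => ?_
  split_ifs
  · exact ha
  · exact hd
  · exact Mono.one

theorem mono_swap : Mono (cp (T (0 : Matrix (ZMod q) (ZMod q) ℂ) 1 1 0)) := by
  have h : cp (T (0 : Matrix (ZMod q) (ZMod q) ℂ) 1 1 0) =
      (1 : Matrix (Fin 8 × ZMod q) (Fin 8 × ZMod q) ℂ).submatrix
        (Equiv.prodCongr (Equiv.swap 0 1) (Equiv.refl _)) (Equiv.refl _) := by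
    ext ⟨i, x⟩ ⟨j, y⟩
    rw [cp_apply]
    simp only [T, Matrix.add_apply, Matrix.single_apply, Matrix.submatrix_apply,
      Matrix.one_apply]
    fin_cases i <;> fin_cases j <;> simp [Matrix.one_apply, Equiv.swap_apply_def]
  rw [h]
  exact Mono.one.submatrix _ _

theorem Ecop_eq (A : Matrix (ZMod q) (ZMod q) ℂ) : Ecop A = cp (T 1 0 A 1) := by
  ext ⟨i, x⟩ ⟨j, y⟩
  rw [cp_apply]
  simp only [Ecop, T, Matrix.add_apply, Matrix.single_apply, Matrix.of_apply, Matrix.one_apply,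
    sub_self, Matrix.zero_apply, Prod.mk.injEq]
  by_cases hij : i = j
  · subst hij
    have : ¬ (i = 1 ∧ i = 0) := by rintro ⟨h, h'⟩; rw [h] at h'; exact absurd h' (by decide)
    have h2 : ¬ ((1 : Fin 8) = i ∧ 0 = i) := fun h => this ⟨h.1.symm, h.2.symm⟩
    simp [this, h2, Matrix.one_apply]
  · by_cases h : i = 1 ∧ j = 0
    · obtain ⟨rfl, rfl⟩ := h
      simp
    · have h2 : ¬ ((1 : Fin 8) = i ∧ 0 = j) := fun h' => h ⟨h'.1.symm, h'.2.symm⟩
      simp [hij, h, h2]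

theorem on0_eq (A : Matrix (ZMod q) (ZMod q) ℂ) : on0 A = cp (T A 0 0 1) := by
  rw [T_diag]
  ext ⟨i, x⟩ ⟨j, y⟩
  rw [cp_apply]
  simp only [on0, Matrix.of_apply, Matrix.diagonal_apply, Prod.mk.injEq]
  by_cases hij : i = j
  · subst hij
    by_cases hi : i = 0
    · subst hi; simp
    · simp [hi, Matrix.one_apply]
  · have h2 : ¬ (i = 0 ∧ j = 0) := fun h => hij (h.1.trans h.2.symm)
    simp [hij, h2]

/-- `y += A x` for a monomial conjugate `A` of a circulant -/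
theorem lay_E10 (k : ℕ) (h1 : 2 * q ≤ 2 ^ k) (h2 : 2 ^ k ≤ 4 * q) (h : ZMod q → ℂ)
    (V U : Matrix (ZMod q) (ZMod q) ℂ) (hV : Mono V) (hU : Mono U) :
    Lay (16 * k + 4) (cp (T 1 0 (V * Matrix.circulant h * U) 1)) := by
  obtain ⟨V', hV', hVV', -⟩ := hV.inv
  obtain ⟨U', hU', -, hU'U⟩ := hU.inv
  have e : T (1 : Matrix (ZMod q) (ZMod q) ℂ) 0 (V * Matrix.circulant h * U) 1 =
      T U' 0 0 V * T 1 0 (Matrix.circulant h) 1 * T U 0 0 V' := by
    rw [T_mul, T_mul]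
    simp only [mul_one, mul_zero, add_zero, zero_add, zero_mul, hVV', hU'U]
  rw [e, cp_mul, cp_mul]
  have l1 : Lay 0 (cp (T U' 0 0 V)) := Lay.of_mono (mono_T _ _ hU' hV)
  have l2 : Lay (16 * k + 4) (cp (T 1 0 (Matrix.circulant h) 1)) := by
    rw [← Ecop_eq]
    exact lay_Ecop_circ q k h1 h2 h
  have l3 : Lay 0 (cp (T U 0 0 V')) := Lay.of_mono (mono_T _ _ hU hV')
  have := (l1.mul l2).mul l3
  simpa using this

theorem lay_E01 (k : ℕ) (h1 : 2 * q ≤ 2 ^ k) (h2 : 2 ^ k ≤ 4 * q) (h : ZMod q → ℂ)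
    (V U : Matrix (ZMod q) (ZMod q) ℂ) (hV : Mono V) (hU : Mono U) :
    Lay (16 * k + 4) (cp (T 1 (V * Matrix.circulant h * U) 0 1)) := by
  have e : T (1 : Matrix (ZMod q) (ZMod q) ℂ) (V * Matrix.circulant h * U) 0 1 =
      T 0 1 1 0 * T 1 0 (V * Matrix.circulant h * U) 1 * T 0 1 1 0 := by
    rw [T_mul, T_mul]
    simp only [mul_one, mul_zero, add_zero, zero_add, zero_mul, one_mul]
  rw [e, cp_mul, cp_mul]
  have l1 : Lay 0 (cp (T (0 : Matrix (ZMod q) (ZMod q) ℂ) 1 1 0)) := Lay.of_mono mono_swap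
  have := (l1.mul (lay_E10 k h1 h2 h V U hV hU)).mul l1
  simpa using this

/-- the swap trick -/
theorem swap_trick {R : Type} [Ring R] (F G L : R) (hFG : F * G = 1) (hGF : G * F = 1) :
    T 1 0 (-F) 1 * T 1 G 0 1 * T 1 0 (-F) 1 * T 1 0 0 L * (T 1 0 F 1 * T 1 (-G) 0 1 * T 1 0 F 1) =
      T (G * L * F) 0 0 1 := by
  simp only [T_mul, mul_one, mul_zero, add_zero, zero_add, zero_mul, one_mul, neg_mul, mul_neg,
    neg_neg, hFG, hGF, neg_add_cancel, add_neg_cancel, neg_zero, mul_assoc]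

end ONCOPYaux

open ONCOPYaux

theorem lay_on0 (q k : ℕ) [NeZero q] (hodd : Odd q) (h1 : 2 * q ≤ 2 ^ k) (h2 : 2 ^ k ≤ 4 * q)
    (ψ : AddChar (ZMod q) ℂ) (hψ : ψ.IsPrimitive) : Lay (96 * k + 24) (on0 (Fm ψ)) := by
  -- one half
  obtain ⟨c, hc⟩ : ∃ c : ZMod q, 2 * c = 1 := by
    obtain ⟨r, hr⟩ := hodd
    refine ⟨(r + 1 : ℕ), ?_⟩
    have h0 : ((2 * r + 1 : ℕ) : ZMod q) = 0 := by
      rw [← hr]
      exact ZMod.natCast_self q
    push_cast at h0 ⊢
    linear_combination h0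
  have hψ0 : ∀ x, ψ x ≠ 0 := fun x => by
    intro h
    have := ψ.map_add_eq_mul x (-x)
    rw [h, zero_mul, add_neg_cancel, AddChar.map_zero_eq_one] at this
    exact one_ne_zero this
  set D : Matrix (ZMod q) (ZMod q) ℂ := Matrix.diagonal (fun j => ψ (j * j * c)) with hD
  set hfun : ZMod q → ℂ := fun t => ψ (-(t * t * c)) with hhf
  set H : Matrix (ZMod q) (ZMod q) ℂ := Matrix.circulant hfun with hH
  have hDm : Mono D := Mono.diagonal fun j => hψ0 _
  have hF : Fm ψ = D * H * D := by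
    ext i j
    rw [hD, Matrix.mul_diagonal, Matrix.diagonal_mul, hH, Matrix.circulant_apply]
    simp only [Fm, Matrix.of_apply, hhf]
    rw [← AddChar.map_add_eq_mul, ← AddChar.map_add_eq_mul]
    congr 1
    linear_combination (-(i * j)) * hc
  obtain ⟨hi1, hi2⟩ := Fm_inv ψ hψ
  set F := Fm ψ with hFdef
  set G := ((q : ℂ)⁻¹ • F.submatrix (Equiv.neg (ZMod q)) (Equiv.refl _)) with hG
  have hq0 : (q : ℂ) ≠ 0 := by exact_mod_cast NeZero.ne q
  -- `G` as a monomial multiple of `H`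
  set P : Matrix (ZMod q) (ZMod q) ℂ := (q : ℂ)⁻¹ • D.submatrix (Equiv.neg (ZMod q)) (Equiv.refl _)
    with hP
  have hsm : ∀ (a : ℂ) (M : Matrix (ZMod q) (ZMod q) ℂ), a ≠ 0 → Mono M → Mono (a • M) := by
    intro a M ha hM
    obtain ⟨σ, d, hd, rfl⟩ := hM
    refine ⟨σ, fun i => a * d i, fun i => mul_ne_zero ha (hd i), ?_⟩
    ext i j
    simp [Matrix.of_apply]
  have hPm : Mono P := hsm _ _ (inv_ne_zero hq0) (hDm.submatrix _ _)
  have hGP : G = P * H * D := by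
    rw [hG, hP, hF, Matrix.smul_mul, Matrix.smul_mul]
    congr 1
  have hsmD : Mono ((-1 : ℂ) • D) := hsm _ _ (by norm_num) hDm
  have hsmP : Mono ((-1 : ℂ) • P) := hsm _ _ (by norm_num) hPm
  have hnF : -F = ((-1 : ℂ) • D) * H * D := by
    rw [Matrix.smul_mul, Matrix.smul_mul, ← hF, neg_one_smul]
  have hnG : -G = ((-1 : ℂ) • P) * H * D := by
    rw [Matrix.smul_mul, Matrix.smul_mul, ← hGP, neg_one_smul]
  -- diagonalisation
  set g : ℂ := ∑ t, hfun t with hg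
  set L : Matrix (ZMod q) (ZMod q) ℂ := Matrix.diagonal (fun k => g * ψ (k * k * c)) with hL
  have hFH : F * H = L * F := by
    rw [hFdef, hH, Fm_mul_circulant, hL]
    congr 1
    congr 1
    funext k
    rw [hg, Finset.sum_mul, ← Equiv.sum_comp (Equiv.addRight k)]
    refine Finset.sum_congr rfl fun t _ => ?_
    simp only [hhf, Equiv.coe_addRight]
    rw [← AddChar.map_add_eq_mul, ← AddChar.map_add_eq_mul]
    congr 1
    linear_combination (-(k * (t + k))) * hc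
  have hHG : H = G * L * F := by
    rw [Matrix.mul_assoc, ← hFH, ← Matrix.mul_assoc, hi2, Matrix.one_mul]
  have hg0 : g ≠ 0 := by
    intro h0
    have hL0 : L = 0 := by
      rw [hL, h0]
      simp
    have hH0 : H = 0 := by rw [hHG, hL0]; simp
    have hF0 : F = 0 := by rw [hF, hH0]; simp
    rw [hF0, Matrix.zero_mul] at hi1
    have := congrFun (congrFun hi1 0) 0
    simp at this
  have hLm : Mono L := Mono.diagonal fun k => mul_ne_zero hg0 (hψ0 _)
  -- assembly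
  have key : on0 F = cp (T D 0 0 1) * (cp (T 1 0 (-F) 1) * cp (T 1 G 0 1) * cp (T 1 0 (-F) 1) *
      cp (T 1 0 0 L) * (cp (T 1 0 F 1) * cp (T 1 (-G) 0 1) * cp (T 1 0 F 1))) *
      cp (T D 0 0 1) := by
    rw [on0_eq]
    simp only [← cp_mul]
    congr 1
    rw [swap_trick F G L hi1 hi2, ← hHG, T_mul, T_mul]
    simp only [mul_zero, add_zero, zero_add, zero_mul, mul_one]
    rw [← hF]
  rw [key]
  have m1 : Lay 0 (cp (T D 0 0 1)) := Lay.of_mono (mono_T _ _ hDm Mono.one)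
  have m2 : Lay 0 (cp (T 1 0 0 L)) := Lay.of_mono (mono_T _ _ Mono.one hLm)
  have a1 : Lay (16 * k + 4) (cp (T 1 0 (-F) 1)) := by
    rw [hnF]; exact lay_E10 k h1 h2 hfun _ _ hsmD hDm
  have a2 : Lay (16 * k + 4) (cp (T 1 G 0 1)) := by
    rw [hGP]; exact lay_E01 k h1 h2 hfun _ _ hPm hDm
  have a3 : Lay (16 * k + 4) (cp (T 1 0 F 1)) := by
    rw [hF]; exact lay_E10 k h1 h2 hfun _ _ hDm hDm
  have a4 : Lay (16 * k + 4) (cp (T 1 (-G) 0 1)) := by
    rw [hnG]; exact lay_E01 k h1 h2 hfun _ _ hsmP hDm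
  have := (m1.mul ((((a1.mul a2).mul a1).mul m2).mul ((a3.mul a4).mul a3))).mul m1
  refine this.le (by omega)

end Crest.Agent.R324
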