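import Crest.Agent.R324.CostApi
/-! Row 324, piece PIAPI: algebra of `piT` / `kpow`. -/
set_option autoImplicit false
open scoped Classical Kronecker
open Matrix
namespace Crest.Agent.R324

theorem piT_mul {ι : Type} [Fintype ι] [DecidableEq ι] {I J K : ι → Type} [∀ l, Fintype (J l)]
    (A : ∀ l, Matrix (I l) (J l) ℂ) (B : ∀ l, Matrix (J l) (K l) ℂ) :
    piT (fun l => A l * B l) = piT A * piT B := by
  ext x y
  simp only [piT, Matrix.of_apply, Matrix.mul_apply]
  rw [Fintype.prod_sum (fun l j => A l (x l) j * B l j (y l))]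
  exact Finset.sum_congr rfl fun z _ => Finset.prod_mul_distrib

theorem kpow_mul {ι : Type} [Fintype ι] [DecidableEq ι] {I J K : Type} [Fintype J]
    (A : Matrix I J ℂ) (B : Matrix J K ℂ) : kpow ι (A * B) = kpow ι A * kpow ι B :=
  piT_mul (fun _ : ι => A) (fun _ : ι => B)

theorem kpow_submatrix {ι : Type} [Fintype ι] {I J I' J' : Type} (A : Matrix I J ℂ)
    (e : I' → I) (f : J' → J) :
    kpow ι (A.submatrix e f) = (kpow ι A).submatrix (fun x l => e (x l)) (fun x l => f (x l)) :=
  rfl

/-- tensor power only depends on the number of factors -/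
theorem RCost_kpow_card {ι : Type} [Fintype ι] [DecidableEq ι] {I J : Type} [Fintype I]
    {A : Matrix I J ℂ} {k : ℕ} {x : ℝ} (hk : Fintype.card ι = k)
    (h : RCost (kpow (Fin k) A) x) : RCost (kpow ι A) x := by
  let σ : ι ≃ Fin k := Fintype.equivFinOfCardEq hk
  have e : kpow ι A = (kpow (Fin k) A).submatrix (Equiv.arrowCongr σ (Equiv.refl I))
      (Equiv.arrowCongr σ (Equiv.refl J)) := by
    ext x y
    simp only [kpow, piT, Matrix.of_apply, Matrix.submatrix_apply]
    exact (Equiv.prod_comp σ.symm (fun l => A (x l) (y l))).symm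
  rw [e]
  exact RCost.submatrix h _ _

/-- invariance of tensor-power cost under reindexing -/
theorem RCost_kpow_submatrix {k : ℕ} {I J I' J' : Type} [Fintype I] [Fintype I']
    {A : Matrix I J ℂ} {x : ℝ} (h : RCost (kpow (Fin k) A) x) (e : I' ≃ I) (f : J' ≃ J) :
    RCost (kpow (Fin k) (A.submatrix e f)) x := by
  have e1 : kpow (Fin k) (A.submatrix e f) = (kpow (Fin k) A).submatrix
      (Equiv.arrowCongr (Equiv.refl (Fin k)) e) (Equiv.arrowCongr (Equiv.refl (Fin k)) f) := rfl
  rw [e1]
  exact RCost.submatrix h _ _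

end Crest.Agent.R324
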