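import Crest.Agent.R324.PiApi
/-! Row 324, piece PIAPIB: tensor powers and Kronecker products. -/
set_option autoImplicit false
open scoped Classical Kronecker
open Matrix
namespace Crest.Agent.R324

namespace PIAPIBaux

/-- two letters per position -/
def E2 {ι ι' : Type} (σ : ι ⊕ ι ≃ ι') (I : Type) : (ι' → I) ≃ (ι → I × I) where
  toFun x l := (x (σ (Sum.inl l)), x (σ (Sum.inr l)))
  invFun z l' := Sum.elim (fun l => (z l).1) (fun l => (z l).2) (σ.symm l')
  left_inv x := by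
    funext l'
    obtain ⟨s, rfl⟩ := σ.surjective l'
    rcases s with l | l <;> simp
  right_inv z := by
    funext l
    simp

/-- three letters per position -/
def E3 {ι ι' : Type} (σ : ι ⊕ ι ⊕ ι ≃ ι') (I : Type) : (ι' → I) ≃ (ι → I × I × I) where
  toFun x l := (x (σ (Sum.inl l)), x (σ (Sum.inr (Sum.inl l))), x (σ (Sum.inr (Sum.inr l))))
  invFun z l' := Sum.elim (fun l => (z l).1)
    (Sum.elim (fun l => (z l).2.1) (fun l => (z l).2.2)) (σ.symm l')
  left_inv x := by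
    funext l'
    obtain ⟨s, rfl⟩ := σ.surjective l'
    rcases s with l | l | l <;> simp
  right_inv z := by
    funext l
    simp

/-- split off the first letter -/
def Es (M : ℕ) (I : Type) : (Fin (M + 1) → I) ≃ (Fin M → I) × I where
  toFun x := (fun l => x l.succ, x 0)
  invFun p := Fin.cons p.2 p.1
  left_inv x := by
    funext l
    refine Fin.cases ?_ (fun l => ?_) l <;> simp
  right_inv p := by
    ext <;> simp

end PIAPIBaux

open PIAPIBaux

theorem RCost_kpow_two {L : ℕ} {I J : Type} [Fintype I] {A : Matrix I J ℂ} {x : ℝ}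
    (h : RCost (kpow (Fin L) (A ⊗ₖ A)) x) : RCost (kpow (Fin (2 * L)) A) x := by
  have σ : Fin L ⊕ Fin L ≃ Fin (2 * L) := Fintype.equivFinOfCardEq (by simp [two_mul])
  have h1 : kpow (Fin (2 * L)) A = (kpow (Fin L) (A ⊗ₖ A)).submatrix (E2 σ I) (E2 σ J) := by
    ext u v
    show ∏ l, A (u l) (v l) = ∏ l, A (u (σ (Sum.inl l))) (v (σ (Sum.inl l))) *
      A (u (σ (Sum.inr l))) (v (σ (Sum.inr l)))
    rw [← Equiv.prod_comp σ, Fintype.prod_sum_type, Finset.prod_mul_distrib]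
  rw [h1]
  convert h.submatrix (E2 σ I) (E2 σ J)

theorem RCost_kpow_three {L : ℕ} {I J : Type} [Fintype I] {A : Matrix I J ℂ} {x : ℝ}
    (h : RCost (kpow (Fin L) (A ⊗ₖ (A ⊗ₖ A))) x) : RCost (kpow (Fin (3 * L)) A) x := by
  have σ : Fin L ⊕ Fin L ⊕ Fin L ≃ Fin (3 * L) := Fintype.equivFinOfCardEq (by
    simp only [Fintype.card_sum, Fintype.card_fin]; ring)
  have h1 : kpow (Fin (3 * L)) A =
      (kpow (Fin L) (A ⊗ₖ (A ⊗ₖ A))).submatrix (E3 σ I) (E3 σ J) := by
    ext u v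
    show ∏ l, A (u l) (v l) = ∏ l, A (u (σ (Sum.inl l))) (v (σ (Sum.inl l))) *
      (A (u (σ (Sum.inr (Sum.inl l)))) (v (σ (Sum.inr (Sum.inl l)))) *
      A (u (σ (Sum.inr (Sum.inr l)))) (v (σ (Sum.inr (Sum.inr l)))))
    rw [← Equiv.prod_comp σ, Fintype.prod_sum_type, Fintype.prod_sum_type,
      Finset.prod_mul_distrib, Finset.prod_mul_distrib]
  rw [h1]
  convert h.submatrix (E3 σ I) (E3 σ J)

/-- one more factor: `A^{⊗(M+1)} = (A^{⊗M} ⊗ 1) (1 ⊗ A)` -/
theorem RCost_kpow_succ {M : ℕ} {I : Type} [Fintype I] {A : Matrix I I ℂ} {x : ℝ} {a : ℕ}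
    (h : RCost (kpow (Fin M) A) x) (ha : Cost A a) :
    RCost (kpow (Fin (M + 1)) A)
      ((Fintype.card I : ℝ) * x + (Fintype.card I : ℝ) ^ M * (a : ℝ)) := by
  have h1 : kpow (Fin (M + 1)) A =
      ((kpow (Fin M) A ⊗ₖ (1 : Matrix I I ℂ)) *
        ((1 : Matrix (Fin M → I) (Fin M → I) ℂ) ⊗ₖ A)).submatrix (Es M I) (Es M I) := by
    rw [← Matrix.mul_kronecker_mul, Matrix.mul_one, Matrix.one_mul]
    ext u v
    show ∏ l, A (u l) (v l) = (∏ l : Fin M, A (u l.succ) (v l.succ)) * A (u 0) (v 0)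
    rw [Fin.prod_univ_succ, mul_comm]
  rw [h1]
  have h2 : RCost (kpow (Fin M) A ⊗ₖ (1 : Matrix I I ℂ)) (Fintype.card I * x) := h.kron_one
  have h3 : RCost ((1 : Matrix (Fin M → I) (Fin M → I) ℂ) ⊗ₖ A)
      (Fintype.card (Fin M → I) * (a : ℝ)) := RCost.one_kron ⟨a, ha, le_rfl⟩
  have h4 := (h2.mul h3).submatrix (Es M I) (Es M I)
  have h5 : (Fintype.card (Fin M → I) : ℝ) = (Fintype.card I : ℝ) ^ M := by
    rw [Fintype.card_fun, Fintype.card_fin]
    push_cast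
    rfl
  rw [h5] at h4
  convert h4

end Crest.Agent.R324
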