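import Crest.Agent.R324.TP
import Crest.Agent.R324.Jensen
/-! Row 324, piece POWAPI: calculus of `Pow`. -/
set_option autoImplicit false
open scoped Classical Kronecker
open Matrix
namespace Crest.Agent.R324

theorem Pow.of_mono {θ : ℝ} {N : ℕ} {I J : Type} [Fintype I] {A : Matrix I J ℂ} (h : Mono A) :
    Pow θ N A 0 := by
  intro k hk
  have h1 : Mono (kpow (Fin k) A) := Mono.piT (fun _ => h)
  exact (RCost.of_mono h1).le (by simp)

theorem Pow.le {θ : ℝ} {N : ℕ} {I J : Type} [Fintype I] {A : Matrix I J ℂ} {a b : ℝ}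
    (h : Pow θ N A a) (hab : a ≤ b) : Pow θ N A b := by
  intro k hk
  refine (h k hk).le ?_
  have h1 : (0 : ℝ) ≤ (k : ℝ) ^ θ := Real.rpow_nonneg (Nat.cast_nonneg k) θ
  have h2 : (0 : ℝ) ≤ (Fintype.card I : ℝ) ^ k := pow_nonneg (Nat.cast_nonneg _) k
  exact mul_le_mul_of_nonneg_right (mul_le_mul_of_nonneg_right hab h1) h2

theorem Pow.mul {θ : ℝ} {N : ℕ} {I J K : Type} [Fintype I] [Fintype J] {A : Matrix I J ℂ}
    {B : Matrix J K ℂ} {a b : ℝ} (hcard : Fintype.card I = Fintype.card J)
    (hA : Pow θ N A a) (hB : Pow θ N B b) : Pow θ N (A * B) (a + b) := by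
  intro k hk
  have h1 := hA k hk
  have h2 := hB k hk
  rw [kpow_mul]
  refine (h1.mul h2).le ?_
  rw [hcard]
  apply le_of_eq
  ring

theorem Pow.submatrix {θ : ℝ} {N : ℕ} {I J I' J' : Type} [Fintype I] [Fintype I']
    {A : Matrix I J ℂ} {a : ℝ} (h : Pow θ N A a) (e : I' ≃ I) (f : J' ≃ J) :
    Pow θ N (A.submatrix e f) a := by
  intro k hk
  have h1 := RCost_kpow_submatrix (h k hk) e f
  rw [Fintype.card_congr e]
  exact h1

/-- uses `TP` (with `τ k = κ k^θ`) and `jensen_active` -/
theorem Pow.blk {θ : ℝ} (h0 : 0 < θ) (h1 : θ ≤ 1) {N : ℕ} {β γ S : Type} [Fintype β]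
    [Fintype γ] [Fintype S] {B : Matrix S S ℂ} {κ : ℝ} (hκ : 0 ≤ κ) (hB : Pow θ N B κ)
    (hne : 0 < Fintype.card β * Fintype.card S + Fintype.card γ) :
    Pow θ N (blk β γ B) (κ * (((Fintype.card β * Fintype.card S : ℕ) : ℝ) /
      ((Fintype.card β * Fintype.card S + Fintype.card γ : ℕ) : ℝ)) ^ θ) := by
  intro k hk
  have h2 := TP (ι := Fin k) (β := fun _ => β) (γ := fun _ => γ) B (fun j => κ * (j : ℝ) ^ θ)
    (fun j hj => hB j (by rw [Fintype.card_fin] at hj; omega))
  have h3 := jensen_active (β := β) (γ := γ) (S := S) k h0 h1 hne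
  refine RCost.le h2 ?_
  rw [← Finset.mul_sum]
  refine (mul_le_mul_of_nonneg_left h3 hκ).trans ?_
  apply le_of_eq
  have hc : Fintype.card ((β × S) ⊕ γ) = Fintype.card β * Fintype.card S + Fintype.card γ := by
    simp [Fintype.card_sum, Fintype.card_prod]
  rw [hc, mul_div_assoc, Real.mul_rpow (Nat.cast_nonneg k) (by positivity)]
  ring

namespace POWAPIaux

/-- the equivalence isolating two different elements -/
noncomputable def eqv {I : Type} {i j : I} (hij : i ≠ j) :
    I ≃ (Unit × Option Unit) ⊕ {x : I // x ≠ i ∧ x ≠ j} where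
  toFun x := if hi : x = i then Sum.inl ((), some ()) else
    if hj : x = j then Sum.inl ((), none) else Sum.inr ⟨x, hi, hj⟩
  invFun y := Sum.elim (fun p => Option.elim p.2 j (fun _ => i)) (fun z => z.1) y
  left_inv x := by
    by_cases hi : x = i
    · simp [hi]
    · by_cases hj : x = j
      · subst hj
        simp [hi]
      · simp [hi, hj]
  right_inv y := by
    rcases y with ⟨⟨⟩, y⟩ | y
    · rcases y with _ | ⟨⟩
      · simp [hij.symm]
      · simp
    · simp [y.2.1, y.2.2]

theorem eqv_i {I : Type} {i j : I} (hij : i ≠ j) : eqv hij i = Sum.inl ((), some ()) := by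
  simp [eqv]

theorem eqv_j {I : Type} {i j : I} (hij : i ≠ j) : eqv hij j = Sum.inl ((), none) := by
  simp [eqv, hij.symm]

theorem eqv_o {I : Type} {i j : I} (hij : i ≠ j) {x : I} (hi : x ≠ i) (hj : x ≠ j) :
    eqv hij x = Sum.inr ⟨x, hi, hj⟩ := by
  simp [eqv, hi, hj]

theorem transvection_one_eq {I : Type} [Fintype I] [DecidableEq I] {i j : I} (hij : i ≠ j) :
    Matrix.transvection i j (1 : ℂ) =
      (Crest.Agent.R324.blk Unit {x : I // x ≠ i ∧ x ≠ j} zM).submatrix (eqv hij) (eqv hij) := by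
  ext a b
  have hji := hij.symm
  simp only [Matrix.transvection, Matrix.add_apply, Matrix.one_apply, Matrix.single_apply,
    Matrix.submatrix_apply, Crest.Agent.R324.blk]
  by_cases hai : a = i
  · rw [hai, eqv_i hij]
    by_cases hbi : b = i
    · rw [hbi, eqv_i hij]
      simp [zM, starM, hji]
    · by_cases hbj : b = j
      · rw [hbj, eqv_j hij]
        simp [zM, starM, hij]
      · rw [eqv_o hij hbi hbj]
        simp [Ne.symm hbi, Ne.symm hbj]
  · by_cases haj : a = j
    · rw [haj, eqv_j hij]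
      by_cases hbi : b = i
      · rw [hbi, eqv_i hij]
        simp [zM, starM, hij, hji]
      · by_cases hbj : b = j
        · rw [hbj, eqv_j hij]
          simp [zM, starM, hij]
        · rw [eqv_o hij hbi hbj]
          simp [Ne.symm hbj, hij]
    · rw [eqv_o hij hai haj]
      by_cases hbi : b = i
      · rw [hbi, eqv_i hij]
        simp [hai, Ne.symm hai]
      · by_cases hbj : b = j
        · rw [hbj, eqv_j hij]
          simp [haj, Ne.symm hai]
        · rw [eqv_o hij hbi hbj]
          simp [Matrix.one_apply, Ne.symm hai]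

theorem transvection_conj {I : Type} [Fintype I] [DecidableEq I] {i j : I} (hij : i ≠ j) {c : ℂ}
    (hc : c ≠ 0) :
    Matrix.transvection i j c =
      Matrix.diagonal (fun x => if x = i then c else 1) * (Matrix.transvection i j (1 : ℂ) *
        Matrix.diagonal (fun x => if x = i then c⁻¹ else 1)) := by
  ext a b
  simp only [Matrix.diagonal_mul, Matrix.mul_diagonal, Matrix.transvection, Matrix.add_apply,
    Matrix.one_apply, Matrix.single_apply]
  by_cases hai : a = i
  · by_cases hbi : b = i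
    · subst hai; subst hbi
      simp [hij.symm, hc]
    · subst hai
      simp [Ne.symm hbi, hbi]
  · by_cases hab : a = b
    · subst hab
      simp [hai, Ne.symm hai]
    · simp [hai, hab, Ne.symm hai]

end POWAPIaux

/-- a single transvection: up to monomial matrices it is `blk Unit γ zM` with `|γ| = |I| - 2` -/
theorem Pow.transvection {θ : ℝ} (h0 : 0 < θ) (h1 : θ ≤ 1) {N : ℕ} {I : Type} [Fintype I]
    [DecidableEq I] {κ : ℝ} (hκ : 0 ≤ κ) (hz : Pow θ N zM κ) {i j : I} (hij : i ≠ j) (c : ℂ) :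
    Pow θ N (Matrix.transvection i j c) (κ * (2 / (Fintype.card I : ℝ)) ^ θ) := by
  by_cases hc : c = 0
  · subst hc
    rw [Matrix.transvection_zero]
    exact (Pow.of_mono Mono.one).le (by positivity)
  · rw [POWAPIaux.transvection_conj hij hc, POWAPIaux.transvection_one_eq hij]
    have hcard : Fintype.card I = 2 + Fintype.card {x : I // x ≠ i ∧ x ≠ j} := by
      rw [Fintype.card_congr (POWAPIaux.eqv hij)]
      simp
    have hb := Pow.blk (β := Unit) (γ := {x : I // x ≠ i ∧ x ≠ j}) (S := Option Unit)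
      h0 h1 hκ hz (by simp)
    have hb2 := Pow.submatrix hb (POWAPIaux.eqv hij) (POWAPIaux.eqv hij)
    have hm1 : Mono (Matrix.diagonal (fun x : I => if x = i then c else 1)) := by
      apply Mono.diagonal
      intro x
      split_ifs
      · exact hc
      · exact one_ne_zero
    have hm2 : Mono (Matrix.diagonal (fun x : I => if x = i then c⁻¹ else 1)) := by
      apply Mono.diagonal
      intro x
      split_ifs
      · exact inv_ne_zero hc
      · exact one_ne_zero
    have h5 := Pow.mul rfl (Pow.of_mono (θ := θ) (N := N) hm1)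
      (Pow.mul rfl hb2 (Pow.of_mono (θ := θ) (N := N) hm2))
    refine Pow.le h5 ?_
    apply le_of_eq
    rw [hcard]
    simp

/-- a matrix of cost `G` -/
theorem Pow.of_cost {θ : ℝ} (h0 : 0 < θ) (h1 : θ ≤ 1) {N : ℕ} {I : Type} [Fintype I]
    {κ : ℝ} (hκ : 0 ≤ κ) (hz : Pow θ N zM κ) {A : Matrix I I ℂ} {G : ℕ} (hA : Cost A G) :
    Pow θ N A (G * (κ * (2 / (Fintype.card I : ℝ)) ^ θ)) := by
  obtain ⟨L, M, hM, hL, rfl⟩ := hA
  have key : Pow θ N ((L.map Matrix.TransvectionStruct.toMatrix).prod * M)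
      (L.length * (κ * (2 / (Fintype.card I : ℝ)) ^ θ)) := by
    clear hL
    induction L with
    | nil => 
      simp only [List.map_nil, List.prod_nil, Matrix.one_mul, List.length_nil, Nat.cast_zero,
        zero_mul]
      exact Pow.of_mono hM
    | cons t L ih =>
      simp only [List.map_cons, List.prod_cons, List.length_cons, Matrix.mul_assoc]
      refine (Pow.mul rfl (Pow.transvection h0 h1 hκ hz t.hij t.c) ih).le ?_
      apply le_of_eq
      push_cast
      ring
  refine key.le ?_
  have h3 : (0:ℝ) ≤ κ * (2 / (Fintype.card I : ℝ)) ^ θ := by positivity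
  exact mul_le_mul_of_nonneg_right (by exact_mod_cast hL) h3

end Crest.Agent.R324
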