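import Crest.Agent.R324.NStarDef
import Crest.Agent.R324.GammaReg
/-! Row 324, piece GAMMASTAR. -/
set_option autoImplicit false
open scoped Classical Kronecker
open Matrix
namespace Crest.Agent.R324

namespace GAMMASTARaux

variable {α β P P' : Type}

def hi (x : Fin 4) : Fin 2 := ⟨x.val / 2, by omega⟩
def lo (x : Fin 4) : Fin 2 := ⟨x.val % 2, by omega⟩

theorem hi_cell (r s : Fin 2) : hi (cellNo r s) = r := by
  revert r s; decide

theorem lo_cell (r s : Fin 2) : lo (cellNo r s) = s := by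
  revert r s; decide

theorem cell_iff (x : Fin 4) (r s : Fin 2) : (hi x = r ∧ lo x = s) ↔ x = cellNo r s := by
  revert x r s; decide

/-- the registers as variables of the star matrix -/
def emb (e₁ : α ≃ β × Fin 8) (e₂ : α ≃ P × Fin 2) (e₃ : α ≃ P' × Fin 2) :
    Reg β P P' → Option α × (Option α × Option α)
  | Sum.inl (b, (i, r, s), J, K) =>
      (some (e₁.symm (b, i)), (some (e₂.symm (J, r)), some (e₃.symm (K, s))))
  | Sum.inr (Sum.inl (b, (i, r), J)) => (some (e₁.symm (b, i)), (some (e₂.symm (J, r)), none))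
  | Sum.inr (Sum.inr (Sum.inl (b, (s, i), K))) =>
      (some (e₁.symm (b, i)), (none, some (e₃.symm (K, s))))
  | Sum.inr (Sum.inr (Sum.inr (x, J, K))) =>
      (none, (some (e₂.symm (J, hi x)), some (e₃.symm (K, lo x))))

theorem emb_inj (e₁ : α ≃ β × Fin 8) (e₂ : α ≃ P × Fin 2) (e₃ : α ≃ P' × Fin 2) :
    Function.Injective (emb e₁ e₂ e₃) := by
  rintro (⟨b, ⟨i, r, s⟩, J, K⟩ | ⟨b, ⟨i, r⟩, J⟩ | ⟨b, ⟨s, i⟩, K⟩ | ⟨x, J, K⟩)
    (⟨b', ⟨i', r', s'⟩, J', K'⟩ | ⟨b', ⟨i', r'⟩, J'⟩ | ⟨b', ⟨s', i'⟩, K'⟩ | ⟨x', J', K'⟩) h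
  all_goals simp only [emb, Prod.mk.injEq, Option.some.injEq, Equiv.apply_eq_iff_eq, reduceCtorEq,
    and_false, false_and, and_self] at h
  · obtain ⟨⟨rfl, rfl⟩, ⟨rfl, rfl⟩, rfl, rfl⟩ := h; rfl
  · obtain ⟨⟨rfl, rfl⟩, ⟨rfl, rfl⟩, _⟩ := h; rfl
  · obtain ⟨⟨rfl, rfl⟩, _, rfl, rfl⟩ := h; rfl
  · obtain ⟨_, ⟨rfl, h1⟩, rfl, h2⟩ := h
    have : x = x' := by
      have := (cell_iff x (hi x') (lo x')).1 ⟨h1, h2⟩
      rw [this]; exact ((cell_iff x' (hi x') (lo x')).1 ⟨rfl, rfl⟩).symm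
    rw [this]

theorem NStar_emb (e₁ : α ≃ β × Fin 8) (e₂ : α ≃ P × Fin 2) (e₃ : α ≃ P' × Fin 2)
    (x y : Reg β P P') : NStar α (emb e₁ e₂ e₃ x) (emb e₁ e₂ e₃ y) = NGam x y := by
  rcases x with (⟨b, ⟨i, r, s⟩, J, K⟩ | ⟨b, ⟨i, r⟩, J⟩ | ⟨b, ⟨s, i⟩, K⟩ | ⟨x, J, K⟩)
  · rcases y with (⟨b', ⟨i', r', s'⟩, J', K'⟩ | ⟨b', ⟨i', r'⟩, J'⟩ | ⟨b', ⟨s', i'⟩, K'⟩ | ⟨x', J', K'⟩)
    · simp [NStar, NGam, emb]
    · simp only [NStar, NGam, emb, Matrix.of_apply, Prod.mk.injEq, Option.some.injEq,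
        Equiv.apply_eq_iff_eq, reduceCtorEq, and_false, or_false, and_true]
      refine if_congr ?_ rfl rfl
      tauto
    · simp only [NStar, NGam, emb, Matrix.of_apply, Prod.mk.injEq, Option.some.injEq,
        Equiv.apply_eq_iff_eq, reduceCtorEq, and_false, false_and, or_false, false_or, true_and]
      refine if_congr ?_ rfl rfl
      tauto
    · simp only [NStar, NGam, emb, Matrix.of_apply, Prod.mk.injEq, Option.some.injEq,
        Equiv.apply_eq_iff_eq, reduceCtorEq, and_false, false_and, false_or, true_and]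
      refine if_congr ?_ rfl rfl
      rw [← cell_iff]
      tauto
  · rcases y with (⟨b', ⟨i', r', s'⟩, J', K'⟩ | ⟨b', ⟨i', r'⟩, J'⟩ | ⟨b', ⟨s', i'⟩, K'⟩ | ⟨x', J', K'⟩) <;>
    simp [NStar, NGam, emb]
  · rcases y with (⟨b', ⟨i', r', s'⟩, J', K'⟩ | ⟨b', ⟨i', r'⟩, J'⟩ | ⟨b', ⟨s', i'⟩, K'⟩ | ⟨x', J', K'⟩) <;>
    simp [NStar, NGam, emb]
  · rcases y with (⟨b', ⟨i', r', s'⟩, J', K'⟩ | ⟨b', ⟨i', r'⟩, J'⟩ | ⟨b', ⟨s', i'⟩, K'⟩ | ⟨x', J', K'⟩) <;>
    simp [NStar, NGam, emb]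

/-- `(some, some, some)`, and the sources, are registers -/
theorem NStar_left (e₁ : α ≃ β × Fin 8) (e₂ : α ≃ P × Fin 2) (e₃ : α ≃ P' × Fin 2)
    (x y : Option α × (Option α × Option α)) (hx : x ∉ Set.range (emb e₁ e₂ e₃)) :
    NStar α x y = 0 := by
  rcases x with ⟨_ | i, _ | j, _ | k⟩
  all_goals first
    | (simp [NStar]; done)
    | skip
  exfalso
  apply hx
  refine ⟨Sum.inl ((e₁ i).1, ((e₁ i).2, (e₂ j).2, (e₃ k).2), (e₂ j).1, (e₃ k).1), ?_⟩
  simp [emb]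

theorem NStar_right (e₁ : α ≃ β × Fin 8) (e₂ : α ≃ P × Fin 2) (e₃ : α ≃ P' × Fin 2)
    (x y : Option α × (Option α × Option α)) (hy : y ∉ Set.range (emb e₁ e₂ e₃)) :
    NStar α x y = 0 := by
  rcases x with ⟨_ | i, _ | j, _ | k⟩
  all_goals first
    | (simp [NStar]; done)
    | skip
  simp only [NStar, Matrix.of_apply]
  rw [if_neg]
  rintro (rfl | rfl | rfl)
  · apply hy
    refine ⟨Sum.inr (Sum.inl ((e₁ i).1, ((e₁ i).2, (e₂ j).2), (e₂ j).1)), ?_⟩
    simp [emb]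
  · apply hy
    refine ⟨Sum.inr (Sum.inr (Sum.inl ((e₁ i).1, ((e₃ k).2, (e₁ i).2), (e₃ k).1))), ?_⟩
    simp [emb]
  · apply hy
    refine ⟨Sum.inr (Sum.inr (Sum.inr (cellNo (e₂ j).2 (e₃ k).2, (e₂ j).1, (e₃ k).1))), ?_⟩
    simp [emb, hi_cell, lo_cell]

end GAMMASTARaux

open GAMMASTARaux in
/-- piece GAMMASTAR: `1 + NStar α` is `fromBlocks (1 + NGam) 0 0 1` after reindexing, with
`α ≃ β × Fin 8` (first index), `α ≃ P × Fin 2` (second), `α ≃ P' × Fin 2` (third). -/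
theorem Cost_NStar {α β P P' : Type} [Fintype α] [Fintype β] [Fintype P] [Fintype P']
    (e₁ : α ≃ β × Fin 8) (e₂ : α ≃ P × Fin 2) (e₃ : α ≃ P' × Fin 2) :
    Cost (1 + NStar α)
      (Fintype.card β * (95 * (Fintype.card P * Fintype.card P') +
        190 * (Fintype.card P + Fintype.card P')) + 6 * (Fintype.card P * Fintype.card P')) := by
  set f := emb e₁ e₂ e₃ with hf
  have hinj : Function.Injective f := emb_inj e₁ e₂ e₃
  let R : Type := {y : Option α × (Option α × Option α) // y ∉ Set.range f}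
  let e : Option α × (Option α × Option α) ≃ Reg β P P' ⊕ R :=
    (Equiv.Set.sumCompl (Set.range f)).symm.trans
      (Equiv.sumCongr (Equiv.ofInjective f hinj).symm (Equiv.refl _))
  have he1 : ∀ r, e.symm (Sum.inl r) = f r := fun r => by
    simp [e, Equiv.ofInjective]
  have he2 : ∀ s : R, e.symm (Sum.inr s) = s.1 := fun s => by
    simp [e]; rfl
  have h1 : Cost (Matrix.fromBlocks (1 + NGam (β := β) (P := P) (P' := P')) 0 0
      (1 : Matrix R R ℂ)) (Fintype.card β * (95 * (Fintype.card P * Fintype.card P') +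
        190 * (Fintype.card P + Fintype.card P')) + 6 * (Fintype.card P * Fintype.card P') + 0) :=
    Cost.fromBlocks Cost_gammaReg (Cost.of_mono Mono.one)
  have h2 := Cost.submatrix h1 e e
  have h3 : (1 + NStar α : Matrix (Option α × (Option α × Option α))
      (Option α × (Option α × Option α)) ℂ) =
      (Matrix.fromBlocks (1 + NGam (β := β) (P := P) (P' := P')) 0 0
      (1 : Matrix R R ℂ)).submatrix e e := by
    ext x y
    obtain ⟨a, rfl⟩ := e.symm.surjective x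
    obtain ⟨b, rfl⟩ := e.symm.surjective y
    rw [Matrix.submatrix_apply, Equiv.apply_symm_apply, Equiv.apply_symm_apply, Matrix.add_apply]
    rcases a with r | s <;> rcases b with r' | s'
    · rw [he1, he1, Matrix.fromBlocks_apply₁₁, Matrix.add_apply, NStar_emb]
      congr 1
      rw [Matrix.one_apply, Matrix.one_apply]
      by_cases h : r = r'
      · subst h; simp
      · rw [if_neg h, if_neg (fun h' => h (hinj h'))]
    · rw [he1, he2, Matrix.fromBlocks_apply₁₂, NStar_right e₁ e₂ e₃ _ _ s'.2, add_zero,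
        Matrix.one_apply, if_neg]
      · rfl
      · intro h; exact s'.2 ⟨r, h⟩
    · rw [he1, he2, Matrix.fromBlocks_apply₂₁, NStar_left e₁ e₂ e₃ _ _ s.2, add_zero,
        Matrix.one_apply, if_neg]
      · rfl
      · intro h; exact s.2 ⟨r', h.symm⟩
    · rw [he2, he2, Matrix.fromBlocks_apply₂₂, NStar_left e₁ e₂ e₃ _ _ s.2, add_zero]
      rw [Matrix.one_apply, Matrix.one_apply]
      by_cases h : s = s'
      · subst h; simp
      · rw [if_neg h, if_neg (fun h' => h (Subtype.ext h'))]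
  rw [h3]
  simpa using h2

end Crest.Agent.R324
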