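import Crest.Agent.R324.NStarDef
import Crest.Agent.R324.LayerCost
/-! Row 324, piece STAR3FACT. -/
set_option autoImplicit false
open scoped Classical Kronecker
open Matrix
namespace Crest.Agent.R324

namespace STAR3FACTaux

noncomputable section

/-- `x += s x` -/
def layM {I : Type} (s : I → Option I) : Matrix I I ℂ :=
  Matrix.of fun x y => if s x = some y then 1 else 0

theorem layM_mulVec {I : Type} [Fintype I] (s : I → Option I) (v : I → ℂ) (x : I) :
    (layM s).mulVec v x = (s x).elim 0 v := by
  unfold layM Matrix.mulVec dotProduct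
  simp only [Matrix.of_apply]
  cases h : s x with
  | none => simp
  | some y => simp

theorem one_add_layM_mulVec {I : Type} [Fintype I] [DecidableEq I] (s : I → Option I)
    (v : I → ℂ) :
    (1 + layM s).mulVec v = fun x => v x + (s x).elim 0 v := by
  funext x
  rw [Matrix.add_mulVec, Pi.add_apply, layM_mulVec, Matrix.one_mulVec]

theorem cost_layM {I β : Type} [Fintype I] [DecidableEq I] [Fintype β] (s : I → Option I)
    (hs : ∀ x y, s x = some y → s y = none) (g : β → I) (hg : ∀ x, s x ≠ none → ∃ b, g b = x) :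
    Cost (1 + layM s) (Fintype.card β) := by
  refine Cost.one_add (layM s) (fun x => s x ≠ none) ?_ _ ?_
  · intro i j hij
    have h : s i = some j := by
      by_contra hne
      exact hij (by simp [layM, hne])
    refine ⟨by rw [h]; simp, ?_⟩
    rw [hs i j h]; simp
  · calc (Finset.univ.filter (fun p : I × I => layM s p.1 p.2 ≠ 0)).card
        ≤ (Finset.image (fun b : β => (g b, (s (g b)).getD (g b))) Finset.univ).card := by
          apply Finset.card_le_card
          intro p hp
          rw [Finset.mem_filter] at hp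
          have h : s p.1 = some p.2 := by
            by_contra hne
            exact hp.2 (by simp [layM, hne])
          obtain ⟨b, hb⟩ := hg p.1 (by rw [h]; simp)
          rw [Finset.mem_image]
          refine ⟨b, Finset.mem_univ _, ?_⟩
          rw [hb, h]
          simp
      _ ≤ Fintype.card β := by
          refine Finset.card_image_le.trans ?_
          simp

abbrev K3 (α : Type) : Type := Option α × (Option α × Option α)

variable (α : Type)

def s00k : K3 α → Option (K3 α)
  | (none, (none, some _)) => some (none, (none, none))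
  | _ => none

def si00 : K3 α → Option (K3 α)
  | (some _, (none, none)) => some (none, (none, none))
  | _ => none

def s0j0 : K3 α → Option (K3 α)
  | (none, (some _, none)) => some (none, (none, none))
  | _ => none

/-- `(i,j,0) += (0,j,0)` -/
def sij0a : K3 α → Option (K3 α)
  | (some _, (some j, none)) => some (none, (some j, none))
  | _ => none

/-- `(i,0,k) += (i,0,0)` -/
def si0ka : K3 α → Option (K3 α)
  | (some i, (none, some _)) => some (some i, (none, none))
  | _ => none

/-- `(0,j,k) += (0,0,k)` -/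
def s0jka : K3 α → Option (K3 α)
  | (none, (some _, some k)) => some (none, (none, some k))
  | _ => none

/-- `(i,j,0) += (i,0,0)` -/
def sij0b : K3 α → Option (K3 α)
  | (some i, (some _, none)) => some (some i, (none, none))
  | _ => none

/-- `(i,0,k) += (0,0,k)` -/
def si0kb : K3 α → Option (K3 α)
  | (some _, (none, some k)) => some (none, (none, some k))
  | _ => none

/-- `(0,j,k) += (0,j,0)` -/
def s0jkb : K3 α → Option (K3 α)
  | (none, (some j, some _)) => some (none, (some j, none))
  | _ => none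

variable [Fintype α]

theorem cost1 (s : K3 α → Option (K3 α)) (hs : ∀ x y, s x = some y → s y = none)
    (g : α → K3 α) (hg : ∀ x, s x ≠ none → ∃ b, g b = x) :
    Cost (1 + layM s) (Fintype.card α) := cost_layM s hs g hg

theorem cost2 (s : K3 α → Option (K3 α)) (hs : ∀ x y, s x = some y → s y = none)
    (g : α × α → K3 α) (hg : ∀ x, s x ≠ none → ∃ b, g b = x) :
    Cost (1 + layM s) (Fintype.card α ^ 2) := by
  have := cost_layM s hs g hg
  rwa [Fintype.card_prod, ← pow_two] at this

theorem cost_s00k : Cost (1 + layM (s00k α)) (Fintype.card α) := by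
  refine cost1 α _ ?_ (fun k => (none, (none, some k))) ?_
  · rintro ⟨_ | i, _ | j, _ | k⟩ y h <;> simp [s00k] at h
    subst h; rfl
  · rintro ⟨_ | i, _ | j, _ | k⟩ h <;> simp [s00k] at h
    exact ⟨k, rfl⟩

theorem cost_si00 : Cost (1 + layM (si00 α)) (Fintype.card α) := by
  refine cost1 α _ ?_ (fun k => (some k, (none, none))) ?_
  · rintro ⟨_ | i, _ | j, _ | k⟩ y h <;> simp [si00] at h
    subst h; rfl
  · rintro ⟨_ | i, _ | j, _ | k⟩ h <;> simp [si00] at h
    exact ⟨i, rfl⟩

theorem cost_s0j0 : Cost (1 + layM (s0j0 α)) (Fintype.card α) := by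
  refine cost1 α _ ?_ (fun k => (none, (some k, none))) ?_
  · rintro ⟨_ | i, _ | j, _ | k⟩ y h <;> simp [s0j0] at h
    subst h; rfl
  · rintro ⟨_ | i, _ | j, _ | k⟩ h <;> simp [s0j0] at h
    exact ⟨j, rfl⟩

theorem cost_sij0a : Cost (1 + layM (sij0a α)) (Fintype.card α ^ 2) := by
  refine cost2 α _ ?_ (fun k => (some k.1, (some k.2, none))) ?_
  · rintro ⟨_ | i, _ | j, _ | k⟩ y h <;> simp [sij0a] at h
    subst h; rfl
  · rintro ⟨_ | i, _ | j, _ | k⟩ h <;> simp [sij0a] at h
    exact ⟨(i, j), rfl⟩

theorem cost_sij0b : Cost (1 + layM (sij0b α)) (Fintype.card α ^ 2) := by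
  refine cost2 α _ ?_ (fun k => (some k.1, (some k.2, none))) ?_
  · rintro ⟨_ | i, _ | j, _ | k⟩ y h <;> simp [sij0b] at h
    subst h; rfl
  · rintro ⟨_ | i, _ | j, _ | k⟩ h <;> simp [sij0b] at h
    exact ⟨(i, j), rfl⟩

theorem cost_si0ka : Cost (1 + layM (si0ka α)) (Fintype.card α ^ 2) := by
  refine cost2 α _ ?_ (fun k => (some k.1, (none, some k.2))) ?_
  · rintro ⟨_ | i, _ | j, _ | k⟩ y h <;> simp [si0ka] at h
    subst h; rfl
  · rintro ⟨_ | i, _ | j, _ | k⟩ h <;> simp [si0ka] at h
    exact ⟨(i, k), rfl⟩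

theorem cost_si0kb : Cost (1 + layM (si0kb α)) (Fintype.card α ^ 2) := by
  refine cost2 α _ ?_ (fun k => (some k.1, (none, some k.2))) ?_
  · rintro ⟨_ | i, _ | j, _ | k⟩ y h <;> simp [si0kb] at h
    subst h; rfl
  · rintro ⟨_ | i, _ | j, _ | k⟩ h <;> simp [si0kb] at h
    exact ⟨(i, k), rfl⟩

theorem cost_s0jka : Cost (1 + layM (s0jka α)) (Fintype.card α ^ 2) := by
  refine cost2 α _ ?_ (fun k => (none, (some k.1, some k.2))) ?_
  · rintro ⟨_ | i, _ | j, _ | k⟩ y h <;> simp [s0jka] at h
    subst h; rfl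
  · rintro ⟨_ | i, _ | j, _ | k⟩ h <;> simp [s0jka] at h
    exact ⟨(j, k), rfl⟩

theorem cost_s0jkb : Cost (1 + layM (s0jkb α)) (Fintype.card α ^ 2) := by
  refine cost2 α _ ?_ (fun k => (none, (some k.1, some k.2))) ?_
  · rintro ⟨_ | i, _ | j, _ | k⟩ y h <;> simp [s0jkb] at h
    subst h; rfl
  · rintro ⟨_ | i, _ | j, _ | k⟩ h <;> simp [s0jkb] at h
    exact ⟨(j, k), rfl⟩

theorem NStar_mulVec (v : K3 α → ℂ) (x : K3 α) :
    (NStar α).mulVec v x = match x with
      | (some i, (some j, some k)) =>
          v (some i, (some j, none)) + v (some i, (none, some k)) + v (none, (some j, some k))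
      | _ => 0 := by
  unfold NStar Matrix.mulVec dotProduct
  rcases x with ⟨_ | i, _ | j, _ | k⟩ <;> simp only [Matrix.of_apply, zero_mul, Finset.sum_const_zero]
  have h : ∀ y : K3 α, (if y = (some i, (some j, none)) ∨ y = (some i, (none, some k)) ∨
      y = (none, (some j, some k)) then (1 : ℂ) else 0) * v y =
      (if y = (some i, (some j, none)) then v y else 0) +
      (if y = (some i, (none, some k)) then v y else 0) +
      (if y = (none, (some j, some k)) then v y else 0) := by
    rintro ⟨_ | i', _ | j', _ | k'⟩ <;> simp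
  rw [Finset.sum_congr rfl (fun y _ => h y), Finset.sum_add_distrib, Finset.sum_add_distrib]
  simp

theorem one_add_NStar_mulVec [DecidableEq (K3 α)] (v : K3 α → ℂ) :
    (1 + NStar α).mulVec v = fun x => v x + (match x with
      | (some i, (some j, some k)) =>
          v (some i, (some j, none)) + v (some i, (none, some k)) + v (none, (some j, some k))
      | _ => 0) := by
  funext x
  rw [Matrix.add_mulVec, Pi.add_apply, NStar_mulVec, Matrix.one_mulVec]

theorem star_sum (x : Option α) (f : Option α → ℂ) :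
    ∑ y, starM α x y * f y = f none + x.elim 0 (fun i => f (some i)) := by
  rcases x with _ | i
  · rw [Fintype.sum_option]
    simp [starM]
  · rw [Fintype.sum_option]
    simp [starM]

theorem star3_mulVec (v : K3 α → ℂ) (x : K3 α) :
    (starM α ⊗ₖ (starM α ⊗ₖ starM α)).mulVec v x =
      ∑ a, starM α x.1 a * ∑ b, starM α x.2.1 b * ∑ c, starM α x.2.2 c * v (a, (b, c)) := by
  unfold Matrix.mulVec dotProduct
  rw [Fintype.sum_prod_type]
  refine Finset.sum_congr rfl fun a _ => ?_
  rw [Fintype.sum_prod_type, Finset.mul_sum]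
  refine Finset.sum_congr rfl fun b _ => ?_
  rw [Finset.mul_sum, Finset.mul_sum]
  refine Finset.sum_congr rfl fun c _ => ?_
  simp only [Matrix.kroneckerMap_apply]
  ring

end

end STAR3FACTaux

open STAR3FACTaux in
/-- piece STAR3FACT. Acting on vectors, `Pre` (first): `(0,0,k) += (0,0,0)` [n];
`(i,j,0) += (0,j,0)`, `(i,0,k) += (i,0,0)`, `(0,j,k) += (0,0,k)` [3n²].
Then `1 + NStar`. Then `Post`: `(i,0,0) += (0,0,0)` [n]; `(i,j,0) += (i,0,0)`,
`(i,0,k) += (0,0,k)`, `(0,j,k) += (0,j,0)` [3n²]; `(0,j,0) += (0,0,0)` [n].  (`0 = none`.) -/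
theorem star3_fact (α : Type) [Fintype α] :
    ∃ Post Pre : Matrix (Option α × (Option α × Option α)) (Option α × (Option α × Option α)) ℂ,
      starM α ⊗ₖ (starM α ⊗ₖ starM α) = Post * (1 + NStar α) * Pre ∧
      Cost Post (3 * Fintype.card α ^ 2 + 2 * Fintype.card α) ∧
      Cost Pre (3 * Fintype.card α ^ 2 + Fintype.card α) := by
  refine ⟨(1 + layM (s0j0 α)) * ((1 + layM (s0jkb α)) * ((1 + layM (si0kb α)) *
      ((1 + layM (sij0b α)) * (1 + layM (si00 α))))),
    (1 + layM (s0jka α)) * ((1 + layM (si0ka α)) * ((1 + layM (sij0a α)) *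
      (1 + layM (s00k α)))), ?_, ?_, ?_⟩
  · apply Matrix.mulVec_injective
    funext v
    funext x
    rw [star3_mulVec]
    simp only [star_sum]
    simp only [← Matrix.mulVec_mulVec, one_add_layM_mulVec, one_add_NStar_mulVec]
    rcases x with ⟨_ | i, _ | j, _ | k⟩ <;>
    simp only [s00k, si00, s0j0, sij0a, sij0b, si0ka, si0kb, s0jka, s0jkb, Option.elim_none,
      Option.elim_some, add_zero] <;>
    ring
  · have h := (cost_s0j0 α).mul ((cost_s0jkb α).mul ((cost_si0kb α).mul ((cost_sij0b α).mul
      (cost_si00 α))))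
    refine h.le ?_
    omega
  · have h := (cost_s0jka α).mul ((cost_si0ka α).mul ((cost_sij0a α).mul (cost_s00k α)))
    refine h.le ?_
    omega

end Crest.Agent.R324
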