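import Crest.Agent.R324.Star3A
import Crest.Agent.R324.Star3B
/-! Row 324, piece STAR3COST. -/
set_option autoImplicit false
open scoped Classical Kronecker
open Matrix
namespace Crest.Agent.R324

/-- piece STAR3COST: the two above, with `|α| = 8 b`, `|β| = b`, `|P| = |P'| = 4 b`. -/
theorem star3_cost (b : ℕ) :
    Cost (starM (Fin (8 * b)) ⊗ₖ (starM (Fin (8 * b)) ⊗ₖ starM (Fin (8 * b))))
      (1520 * b ^ 3 + 2000 * b ^ 2 + 24 * b) := by
  obtain ⟨Post, Pre, hf, hPost, hPre⟩ := star3_fact (Fin (8 * b))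
  have e₁ : Fin (8 * b) ≃ Fin b × Fin 8 := Fintype.equivOfCardEq (by simp [mul_comm])
  have e₂ : Fin (8 * b) ≃ Fin (4 * b) × Fin 2 := Fintype.equivOfCardEq (by simp; ring)
  have e₃ : Fin (8 * b) ≃ Fin (4 * b) × Fin 2 := Fintype.equivOfCardEq (by simp; ring)
  have hN := Cost_NStar e₁ e₂ e₃
  have h := (hPost.mul hN).mul hPre
  rw [← hf] at h
  refine h.le ?_
  simp only [Fintype.card_fin]
  apply le_of_eq
  ring

end Crest.Agent.R324
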