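import Crest.Agent.R324.StarKron
import Crest.Agent.R324.PowApi
import Crest.Agent.R324.LayerCost
/-! Row 324, piece STARDOUBLE: consequences of `star_kron_star` for `Pow`. -/
set_option autoImplicit false
open scoped Classical Kronecker
open Matrix
namespace Crest.Agent.R324

/-- star matrices only depend on the number of leaves -/
theorem Pow_star_card {θ : ℝ} {N : ℕ} {α α' : Type} [Fintype α] [Fintype α'] {κ : ℝ}
    (hc : Fintype.card α = Fintype.card α') (h : Pow θ N (starM α) κ) :
    Pow θ N (starM α') κ := by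
  have e : α' ≃ α := Fintype.equivOfCardEq hc.symm
  have h2 := h.submatrix e.optionCongr e.optionCongr
  convert h2 using 1
  ext x y
  simp only [starM, Matrix.of_apply, Matrix.submatrix_apply]
  have h3 : (x = y ∨ y = none) ↔ (e.optionCongr x = e.optionCongr y ∨ e.optionCongr y = none) := by
    constructor
    · rintro (h | h)
      · exact Or.inl (by rw [h])
      · right
        rw [h]
        rfl
    · rintro (h | h)
      · exact Or.inl (e.optionCongr.injective h)
      · right
        cases y with
        | none => rfl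
        | some y => simp at h
  by_cases h4 : (x = y ∨ y = none)
  · rw [if_pos h4, if_pos (h3.1 h4)]
  · rw [if_neg h4, if_neg (fun h => h4 (h3.2 h))]

/-- cost of one star: one transvection per leaf -/
theorem Cost_star (α : Type) [Fintype α] : Cost (starM α) (Fintype.card α) := by
  have h := Cost.one_add (I := Option α)
    (Matrix.of fun x y => if x ≠ none ∧ y = none then (1 : ℂ) else 0) (fun x => x ≠ none)
    (by
      intro i j hij
      simp only [Matrix.of_apply, ne_eq, ite_eq_right_iff, one_ne_zero, imp_false,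
        not_not] at hij
      exact ⟨hij.1, fun h => h hij.2⟩) (Fintype.card α) (by
      rw [← Finset.card_univ (α := α)]
      refine Finset.card_le_card_of_surjOn (fun a : α => ((some a, none) : Option α × Option α)) ?_
      rintro ⟨x, y⟩ hxy
      simp only [Finset.coe_filter, Finset.mem_univ, true_and, Matrix.of_apply, ne_eq,
        ite_eq_right_iff, one_ne_zero, imp_false, not_not, Set.mem_setOf_eq] at hxy
      obtain ⟨hx, hy⟩ := hxy
      cases x with
      | none => exact absurd rfl hx
      | some x => exact ⟨x, by simp, by rw [hy]⟩)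
  convert h using 1
  ext x y
  simp only [starM, Matrix.of_apply, Matrix.add_apply, Matrix.one_apply]
  by_cases hxy : x = y
  · subst hxy
    by_cases hx : x = none
    · simp [hx]
    · simp [hx]
  · by_cases hy : y = none
    · subst hy
      simp [hxy]
    · simp [hxy, hy]

theorem Pow_star_kron_star {θ : ℝ} (h0 : 0 < θ) (h1 : θ ≤ 1) {N : ℕ} {q : ℕ} {κ κ' : ℝ}
    (hκ : 0 ≤ κ) (hκ' : 0 ≤ κ')
    (h : Pow θ N (starM (Fin q)) κ) (h' : Pow θ N (starM (Fin (2 * q))) κ') :
    Pow θ N (starM (Fin q) ⊗ₖ starM (Fin q))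
      (2 * (κ * ((q : ℝ) / (q + 1)) ^ θ) + κ' * ((2 * q + 1 : ℝ) / ((q : ℝ) + 1) ^ 2) ^ θ) := by
  obtain ⟨e₁, f₁, e₂, f₂, e₃, f₃, hE⟩ := star_kron_star (Fin q)
  rw [hE]
  have h2 : Pow θ N (starM (Fin q ⊕ Fin q)) κ' :=
    Pow_star_card (α := Fin (2 * q)) (by simp [two_mul]) h'
  have hb1 := Pow.blk h0 h1 (β := Fin q) (γ := Option (Fin q)) hκ h (by simp)
  have hb2 := Pow.blk h0 h1 (β := Unit) (γ := Fin q × Fin q) hκ' h2 (by simp)
  have hs1 := hb1.submatrix e₁ f₁
  have hs2 := hb2.submatrix e₂ f₂
  have hs3 := hb1.submatrix e₃ f₃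
  have hm := (hs1.mul rfl hs2).mul rfl hs3
  refine hm.le (le_of_eq ?_)
  have hq : (0 : ℝ) < (q : ℝ) + 1 := by positivity
  have r1 : (((Fintype.card (Fin q) * Fintype.card (Option (Fin q)) : ℕ) : ℝ) /
      ((Fintype.card (Fin q) * Fintype.card (Option (Fin q)) +
        Fintype.card (Option (Fin q)) : ℕ) : ℝ)) = (q : ℝ) / (q + 1) := by
    simp only [Fintype.card_option, Fintype.card_fin]
    push_cast
    field_simp
  have r2 : (((Fintype.card Unit * Fintype.card (Option (Fin q ⊕ Fin q)) : ℕ) : ℝ) /
      ((Fintype.card Unit * Fintype.card (Option (Fin q ⊕ Fin q)) +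
        Fintype.card (Fin q × Fin q) : ℕ) : ℝ)) = (2 * q + 1 : ℝ) / ((q : ℝ) + 1) ^ 2 := by
    simp only [Fintype.card_option, Fintype.card_fin, Fintype.card_unit, Fintype.card_sum,
      Fintype.card_prod]
    push_cast
    congr 1 <;> ring
  rw [r1, r2]
  ring

end Crest.Agent.R324
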