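import Crest.Agent.R324.Defs
/-! Row 324, piece STARKRON: `star α ⊗ star α` = (stars in coordinate 2, first coordinate ≠ 0)
 * (big star with `2q` leaves at `(0,0)`) * (stars in coordinate 1, second coordinate ≠ 0). -/
set_option autoImplicit false
open scoped Classical Kronecker
open Matrix
namespace Crest.Agent.R324

namespace STARKRONaux

theorem starM_none {α : Type} [Fintype α] (v : Option α → ℂ) :
    (starM α *ᵥ v) none = v none := by
  simp [starM, mulVec, dotProduct]

theorem starM_some {α : Type} [Fintype α] (v : Option α → ℂ) (i : α) :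
    (starM α *ᵥ v) (some i) = v (some i) + v none := by
  simp [starM, mulVec, dotProduct, Fintype.sum_option, add_comm]

theorem blk_inl {β γ S : Type} [Fintype β] [Fintype γ] [Fintype S] (B : Matrix S S ℂ)
    (w : (β × S) ⊕ γ → ℂ) (b : β) (s : S) :
    (blk β γ B *ᵥ w) (Sum.inl (b, s)) = (B *ᵥ fun t => w (Sum.inl (b, t))) s := by
  simp only [blk, mulVec, dotProduct, Fintype.sum_sum_type, fromBlocks_apply₁₁,
    fromBlocks_apply₁₂, Fintype.sum_prod_type, kroneckerMap_apply, Matrix.zero_apply, zero_mul,
    Finset.sum_const_zero, add_zero, Matrix.one_apply]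
  rw [Finset.sum_eq_single b]
  · simp
  · intro b' _ hb
    simp [Ne.symm hb]
  · simp

theorem blk_inr {β γ S : Type} [Fintype β] [Fintype γ] [Fintype S] (B : Matrix S S ℂ)
    (w : (β × S) ⊕ γ → ℂ) (c : γ) :
    (blk β γ B *ᵥ w) (Sum.inr c) = w (Sum.inr c) := by
  simp only [blk, mulVec, dotProduct, Fintype.sum_sum_type, fromBlocks_apply₂₁,
    fromBlocks_apply₂₂, Matrix.zero_apply, zero_mul,
    Finset.sum_const_zero, zero_add, Matrix.one_apply]
  simp

theorem kron_mulVec {S T : Type} [Fintype S] [Fintype T] (A : Matrix S S ℂ) (B : Matrix T T ℂ)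
    (v : S × T → ℂ) (i : S) (j : T) :
    ((A ⊗ₖ B) *ᵥ v) (i, j) = (A *ᵥ fun k => (B *ᵥ fun l => v (k, l)) j) i := by
  simp only [mulVec, dotProduct, Fintype.sum_prod_type, kroneckerMap_apply, Finset.mul_sum]
  refine Finset.sum_congr rfl fun k _ => Finset.sum_congr rfl fun l _ => ?_
  ring

def e1 (α : Type) : Option α × Option α ≃ (α × Option α) ⊕ Option α where
  toFun p := match p with
    | (some i, y) => Sum.inl (i, y)
    | (none, y) => Sum.inr y
  invFun p := match p with
    | Sum.inl (i, y) => (some i, y)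
    | Sum.inr y => (none, y)
  left_inv p := by rcases p with ⟨_ | i, y⟩ <;> rfl
  right_inv p := by rcases p with ⟨i, y⟩ | y <;> rfl

def e3 (α : Type) : Option α × Option α ≃ (α × Option α) ⊕ Option α where
  toFun p := match p with
    | (x, some j) => Sum.inl (j, x)
    | (x, none) => Sum.inr x
  invFun p := match p with
    | Sum.inl (j, x) => (x, some j)
    | Sum.inr x => (x, none)
  left_inv p := by rcases p with ⟨x, _ | j⟩ <;> rfl
  right_inv p := by rcases p with ⟨i, y⟩ | y <;> rfl

def e2 (α : Type) : Option α × Option α ≃ (Unit × Option (α ⊕ α)) ⊕ (α × α) where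
  toFun p := match p with
    | (none, none) => Sum.inl ((), none)
    | (some i, none) => Sum.inl ((), some (Sum.inl i))
    | (none, some j) => Sum.inl ((), some (Sum.inr j))
    | (some i, some j) => Sum.inr (i, j)
  invFun p := match p with
    | Sum.inl (_, none) => (none, none)
    | Sum.inl (_, some (Sum.inl i)) => (some i, none)
    | Sum.inl (_, some (Sum.inr j)) => (none, some j)
    | Sum.inr (i, j) => (some i, some j)
  left_inv p := by rcases p with ⟨_ | i, _ | j⟩ <;> rfl
  right_inv p := by rcases p with ⟨⟨⟩, _ | i | j⟩ | ⟨i, j⟩ <;> rfl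

end STARKRONaux

open STARKRONaux in
/-- Acting on vectors (rightmost factor first): `Z`: `(i,some j) += (none,some j)` for all `i,j`
(for each `j` a star in coordinate 1: `α` copies of `starM α`, idle: second coordinate `none`);
`Y`: `(some i,none) += (none,none)`, `(none,some j) += (none,none)`: one copy of `starM (α ⊕ α)`,
idle `α × α`; `X`: `(some i, some j) += (some i, none)`: `α` copies of `starM α`, idle `Option α`. -/
theorem star_kron_star (α : Type) [Fintype α] :
    ∃ (e₁ f₁ : Option α × Option α ≃ (α × Option α) ⊕ Option α)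
      (e₂ f₂ : Option α × Option α ≃ (Unit × Option (α ⊕ α)) ⊕ (α × α))
      (e₃ f₃ : Option α × Option α ≃ (α × Option α) ⊕ Option α),
      starM α ⊗ₖ starM α =
        (blk α (Option α) (starM α)).submatrix e₁ f₁ *
        (blk Unit (α × α) (starM (α ⊕ α))).submatrix e₂ f₂ *
        (blk α (Option α) (starM α)).submatrix e₃ f₃ := by
  refine ⟨e1 α, e1 α, e2 α, e2 α, e3 α, e3 α, ?_⟩
  apply Matrix.mulVec_injective
  funext v
  rw [← mulVec_mulVec, ← mulVec_mulVec, submatrix_mulVec_equiv, submatrix_mulVec_equiv,
    submatrix_mulVec_equiv]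
  funext p
  rcases p with ⟨_ | i, _ | j⟩
  all_goals
    rw [kron_mulVec]
    simp only [Function.comp, e1, e2, e3, Equiv.coe_fn_mk, Equiv.coe_fn_symm_mk, blk_inl, blk_inr,
      starM_none, starM_some]
    try ring

end Crest.Agent.R324
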