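import Crest.Agent.R324.Gadget
/-! Row 324: the tile program (95 steps for 32 outputs) and its finite check. -/
set_option autoImplicit false
namespace Crest.Agent.R324

/-- the tile program found by computer search; executed from left to right -/
def tileProg : List Step :=
  [.A .R (some (0, 0)) none,
   .C .R (some (1, 0)) none,
   .use (0, 0, 0),
   .C (.U (0, 0, 0)) (some (0, 0)) (some (1, 0)),
   .use (0, 0, 1),
   .D (.U (0, 0, 1)) 1 false,
   .A .R (some (0, 1)) (some (0, 0)),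
   .use (0, 1, 1),
   .D (.U (0, 1, 1)) 3 false,
   .C .R (some (0, 1)) (some (1, 0)),
   .use (1, 0, 0),
   .A (.U (1, 0, 0)) (some (1, 0)) (some (0, 1)),
   .D .R 2 false,
   .use (0, 1, 0),
   .C (.U (0, 1, 0)) (some (0, 0)) (some (0, 1)),
   .A .R (some (1, 1)) (some (0, 1)),
   .use (1, 1, 0),
   .C .R (some (0, 3)) (some (0, 1)),
   .use (2, 1, 0),
   .A (.U (2, 1, 0)) (some (2, 1)) (some (1, 1)),
   .C (.U (2, 1, 0)) (some (0, 2)) (some (0, 3)),
   .use (3, 1, 0),
   .A (.U (3, 1, 0)) (some (3, 1)) (some (1, 1)),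
   .D .R 2 true,
   .use (3, 0, 0),
   .A (.U (3, 0, 0)) (some (3, 0)) (some (1, 1)),
   .C .R (some (1, 1)) (some (0, 3)),
   .use (1, 1, 1),
   .D (.U (1, 1, 1)) 3 false,
   .A .R (some (2, 0)) (some (1, 1)),
   .use (2, 0, 0),
   .C (.U (2, 0, 0)) (some (0, 2)) (some (1, 1)),
   .D .R 1 false,
   .use (1, 0, 1),
   .A (.U (1, 0, 1)) (some (1, 0)) (some (2, 0)),
   .C .R (some (1, 2)) (some (1, 1)),
   .use (2, 0, 1),
   .A .R (some (4, 0)) (some (2, 0)),
   .use (3, 0, 1),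
   .A (.U (3, 0, 1)) (some (3, 0)) (some (4, 0)),
   .C (.U (3, 0, 1)) (some (1, 3)) (some (1, 2)),
   .use (4, 0, 1),
   .C (.U (4, 0, 1)) (some (1, 4)) (some (1, 2)),
   .D .R 1 true,
   .use (2, 1, 1),
   .D (.U (2, 1, 1)) 3 false,
   .A (.U (2, 1, 1)) (some (2, 1)) (some (4, 0)),
   .C .R (some (0, 4)) (some (1, 2)),
   .use (4, 0, 0),
   .A .R (some (4, 1)) (some (4, 0)),
   .use (4, 1, 0),
   .D (.U (4, 1, 0)) 2 false,
   .C .R (some (1, 5)) (some (0, 4)),
   .use (5, 0, 1),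
   .D (.U (5, 0, 1)) 1 false,
   .A (.U (5, 0, 1)) (some (5, 0)) (some (4, 1)),
   .D .R 3 false,
   .use (4, 1, 1),
   .C (.U (4, 1, 1)) (some (1, 4)) (some (1, 5)),
   .A .R (some (5, 1)) (some (4, 1)),
   .use (3, 1, 1),
   .A (.U (3, 1, 1)) (some (3, 1)) (some (5, 1)),
   .C (.U (3, 1, 1)) (some (1, 3)) (some (1, 5)),
   .use (5, 1, 1),
   .A .R (some (7, 0)) (some (5, 1)),
   .C .R (some (1, 7)) (some (1, 5)),
   .use (7, 1, 1),
   .A (.U (7, 1, 1)) (some (7, 1)) (some (7, 0)),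
   .D .R 3 true,
   .use (7, 0, 1),
   .D (.U (7, 0, 1)) 1 false,
   .C .R (some (0, 7)) (some (1, 7)),
   .use (7, 0, 0),
   .A .R (some (6, 1)) (some (7, 0)),
   .D .R 2 false,
   .use (7, 1, 0),
   .A (.U (7, 1, 0)) (some (7, 1)) (some (6, 1)),
   .C .R (some (0, 5)) (some (0, 7)),
   .use (5, 1, 0),
   .A (.U (5, 1, 0)) (some (5, 1)) (some (6, 1)),
   .use (6, 1, 0),
   .C (.U (6, 1, 0)) (some (0, 6)) (some (0, 5)),
   .D .R 2 true,
   .use (5, 0, 0),
   .A (.U (5, 0, 0)) (some (5, 0)) (some (6, 1)),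
   .C .R (some (1, 6)) (some (0, 5)),
   .use (6, 1, 1),
   .D (.U (6, 1, 1)) 3 false,
   .A .R (some (6, 0)) (some (6, 1)),
   .use (6, 0, 1),
   .D (.U (6, 0, 1)) 1 false,
   .C .R none (some (1, 6)),
   .use (6, 0, 0),
   .C (.U (6, 0, 0)) (some (0, 6)) none,
   .A .R none (some (6, 0))]

theorem tileProg_length : tileProg.length = 95 := rfl

/-- initial symbolic state -/
def tInit : TState := ⟨formB 0, fun _ => 0⟩

/-- the form that must be added to `u_(i,r,s)` -/
def goalForm (t : UV) : Form :=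
  optA (some (t.1, t.2.1)) + optC (some (t.2.2, t.1)) + formB 0 +
    (if cellNo t.2.1 t.2.2 = 0 then 0 else formB (cellNo t.2.1 t.2.2))

instance : DecidablePred Step.ok := fun s => match s with
  | .A _ p m => inferInstanceAs (Decidable (p ≠ m))
  | .C _ p m => inferInstanceAs (Decidable (p ≠ m))
  | .D _ x _ => inferInstanceAs (Decidable (x ≠ 0))
  | .use _ => inferInstanceAs (Decidable True)

theorem tileProg_ok : ∀ s ∈ tileProg, s.ok := by decide +kernel

theorem tileProg_R : (tileProg.foldl Step.exec tInit).R = formB 0 := by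
  funext v
  revert v
  decide +kernel

theorem tileProg_U : ∀ t : UV, (tileProg.foldl Step.exec tInit).U t = goalForm t := by
  have h : ∀ (t : UV) (v : AV ⊕ CV ⊕ Fin 4), (tileProg.foldl Step.exec tInit).U t v = goalForm t v := by
    decide +kernel
  intro t
  funext v
  exact h t v

end Crest.Agent.R324
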