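import Crest.Agent.R324.StarDouble
import Crest.Agent.R324.Star3C
import Crest.Agent.R324.PiApiB
import Crest.Agent.R324.NumRec
/-! Row 324, piece ZPOW: the recursion.
Claim: there is `Λ > 0` such that for all `N` and all `s ≤ 12`: `Pow th N (starM (Fin (2^s))) (Λ * Acoef s)`.
Induction on `N` (for all `s` together). Let `M = N+1`.
* `M ≤ 2`: direct (`Cost_star`, `RCost_kpow_succ`), `Λ` large.
* `s < 12`, `M = 2L + r`, `L ≥ 1`, `r ≤ 1`: `Pow_star_kron_star` for exponent `L ≤ N`,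
  `RCost_kpow_two`, then `RCost_kpow_succ` (adds at most `1 * |I|^M`);
  `num_double` gives a gap `η L^th`, so `Λ η ≥ 1` suffices.
* `s = 12`, `M = 3L + r`, `L ≥ 1`, `r ≤ 2`: `Pow.of_cost` with `star3_cost 512` (`8 * 512 = 2^12`,
  cost 204535246848, `|I| = 4097^3`), `RCost_kpow_three`, `RCost_kpow_succ` at most twice. -/
set_option autoImplicit false
open scoped Classical Kronecker
open Matrix
namespace Crest.Agent.R324

namespace ZPOWaux

theorem th_pos : 0 < th := by unfold th; norm_num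
theorem th_le : th ≤ 1 := by unfold th; norm_num

theorem Acoef_pos {s : ℕ} (hs : s ≤ 12) : 0 < Acoef s := by
  unfold Acoef
  have h1 : (0:ℝ) < 2 ^ s := by positivity
  have h2 : (s:ℝ) ≤ 12 := by exact_mod_cast hs
  have h3 : (0:ℝ) < 1 - s / 2000 := by linarith
  positivity

theorem kzero {I : Type} [Fintype I] (A : Matrix I I ℂ) (n : ℝ) :
    RCost (kpow (Fin 0) A) (0 * n ^ 0) := by
  rw [zero_mul]
  exact RCost.of_mono (Mono.piT (fun l => l.elim0))

theorem ksucc {M : ℕ} {I : Type} [Fintype I] {A : Matrix I I ℂ} {C : ℝ} {a : ℕ}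
    (ha : Cost A a) (hc : a ≤ Fintype.card I)
    (h : RCost (kpow (Fin M) A) (C * (Fintype.card I : ℝ) ^ M)) :
    RCost (kpow (Fin (M + 1)) A) ((C + 1) * (Fintype.card I : ℝ) ^ (M + 1)) := by
  refine (RCost_kpow_succ h ha).le ?_
  have h1 : (a : ℝ) ≤ Fintype.card I := by exact_mod_cast hc
  have h2 : (0:ℝ) ≤ (Fintype.card I : ℝ) ^ M := by positivity
  have := mul_le_mul_of_nonneg_left h1 h2
  rw [pow_succ]
  nlinarith

theorem ksucc' {M : ℕ} (r : ℕ) {I : Type} [Fintype I] {A : Matrix I I ℂ} {C : ℝ} {a : ℕ}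
    (ha : Cost A a) (hc : a ≤ Fintype.card I)
    (h : RCost (kpow (Fin M) A) (C * (Fintype.card I : ℝ) ^ M)) :
    RCost (kpow (Fin (M + r)) A) ((C + r) * (Fintype.card I : ℝ) ^ (M + r)) := by
  induction r with
  | zero => simpa using h
  | succ r ih =>
    have := ksucc ha hc ih
    rw [Nat.cast_succ, ← add_assoc C]
    exact this

theorem card_star (m : ℕ) : Fintype.card (Option (Fin m)) = m + 1 := by
  rw [Fintype.card_option, Fintype.card_fin]

theorem rpow_ge_one {L : ℕ} (hL : 1 ≤ L) : (1:ℝ) ≤ (L:ℝ) ^ th :=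
  Real.one_le_rpow (by exact_mod_cast hL) th_pos.le

/-- the gap inequality -/
theorem gap {Λ C0 A b : ℝ} {L r M : ℕ} (q : ℕ) (hM : M = q * L + r) (hL : 1 ≤ L)
    (hA : 0 ≤ A) (hΛ : 0 ≤ Λ)
    (hb : b ≤ 2) (hg : 2 ≤ Λ * (A * (q:ℝ) ^ th - C0)) :
    Λ * C0 * (L:ℝ) ^ th + b ≤ Λ * A * (M:ℝ) ^ th := by
  have h1 : ((q * L : ℕ) : ℝ) ^ th ≤ (M:ℝ) ^ th := by
    apply Real.rpow_le_rpow (by positivity) _ th_pos.le
    rw [hM]; push_cast; nlinarith [(Nat.cast_nonneg r : (0:ℝ) ≤ r)]
  rw [Nat.cast_mul, Real.mul_rpow (by positivity) (by positivity)] at h1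
  have h2 := rpow_ge_one hL
  have h3 : Λ * A * ((q:ℝ) ^ th * (L:ℝ) ^ th) ≤ Λ * A * (M:ℝ) ^ th :=
    mul_le_mul_of_nonneg_left h1 (by positivity)
  have h4 : 2 * (L:ℝ) ^ th ≤ Λ * (A * (q:ℝ) ^ th - C0) * (L:ℝ) ^ th :=
    mul_le_mul_of_nonneg_right hg (by linarith)
  nlinarith

end ZPOWaux

open ZPOWaux

theorem starPow : ∃ Λ : ℝ, 0 < Λ ∧ ∀ N : ℕ, ∀ s ≤ 12,
    Pow th N (starM (Fin (2 ^ s))) (Λ * Acoef s) := by
  -- constants
  set C1 : ℕ → ℝ := fun s => 2 * (Acoef s * ((2 : ℝ) ^ s / ((2 : ℝ) ^ s + 1)) ^ th) +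
      Acoef (s + 1) * ((2 * (2 : ℝ) ^ s + 1) / ((2 : ℝ) ^ s + 1) ^ 2) ^ th with hC1
  set C2 : ℝ := (204535246848 : ℝ) * (Acoef 0 * (2 / (4097 : ℝ) ^ 3) ^ th) with hC2
  set Λ : ℝ := ∑ s ∈ Finset.range 13, 2 / Acoef s +
    ∑ s ∈ Finset.range 12, 2 / (Acoef s * (2:ℝ) ^ th - C1 s) +
    2 / (Acoef 12 * (3:ℝ) ^ th - C2) with hΛ
  have hA : ∀ s ∈ Finset.range 13, 0 < 2 / Acoef s := by
    intro s hs
    have := Acoef_pos (s := s) (by rw [Finset.mem_range] at hs; omega)
    positivity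
  have hB : ∀ s ∈ Finset.range 12, 0 < 2 / (Acoef s * (2:ℝ) ^ th - C1 s) := by
    intro s hs
    rw [Finset.mem_range] at hs
    have := num_double s hs
    apply div_pos (by norm_num)
    rw [hC1]; linarith
  have hC : 0 < 2 / (Acoef 12 * (3:ℝ) ^ th - C2) := by
    apply div_pos (by norm_num)
    have := num_top
    rw [hC2]; linarith
  have hΛA : ∀ s ≤ 12, 2 ≤ Λ * Acoef s := by
    intro s hs
    have h0 := Acoef_pos hs
    have hm : s ∈ Finset.range 13 := by rw [Finset.mem_range]; omega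
    have h1 : 2 / Acoef s ≤ Λ := by
      have := Finset.single_le_sum (f := fun s => 2 / Acoef s) (fun i hi => (hA i hi).le) hm
      have h2 := Finset.sum_nonneg (fun i hi => (hB i hi).le)
      rw [hΛ]; linarith
    rwa [div_le_iff₀ h0] at h1
  have hΛB : ∀ s < 12, 2 ≤ Λ * (Acoef s * (2:ℝ) ^ th - C1 s) := by
    intro s hs
    have h0 : 0 < Acoef s * (2:ℝ) ^ th - C1 s := by
      have := num_double s hs
      rw [hC1]; linarith
    have hm : s ∈ Finset.range 12 := by rw [Finset.mem_range]; omega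
    have h1 : 2 / (Acoef s * (2:ℝ) ^ th - C1 s) ≤ Λ := by
      have := Finset.single_le_sum (f := fun s => 2 / (Acoef s * (2:ℝ) ^ th - C1 s))
        (fun i hi => (hB i hi).le) hm
      have h2 := Finset.sum_nonneg (fun i hi => (hA i hi).le)
      rw [hΛ]; linarith
    rwa [div_le_iff₀ h0] at h1
  have hΛC : 2 ≤ Λ * (Acoef 12 * (3:ℝ) ^ th - C2) := by
    have h0 : 0 < Acoef 12 * (3:ℝ) ^ th - C2 := by
      have := num_top
      rw [hC2]; linarith
    have h1 : 2 / (Acoef 12 * (3:ℝ) ^ th - C2) ≤ Λ := by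
      have h2 := Finset.sum_nonneg (fun i hi => (hA i hi).le)
      have h3 := Finset.sum_nonneg (fun i hi => (hB i hi).le)
      rw [hΛ]; linarith
    rwa [div_le_iff₀ h0] at h1
  have hΛ0 : 0 < Λ := by
    have h2 := Finset.sum_nonneg (fun i hi => (hA i hi).le)
    have h3 := Finset.sum_nonneg (fun i hi => (hB i hi).le)
    rw [hΛ]; linarith
  refine ⟨Λ, hΛ0, ?_⟩
  intro N
  induction N with
  | zero =>
    intro s _ k hk
    obtain rfl : k = 0 := by omega
    refine (kzero _ 1).le ?_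
    rw [zero_mul, Nat.cast_zero, Real.zero_rpow th_pos.ne', mul_zero, zero_mul]
  | succ N ih =>
    intro s hs k hk
    rcases Nat.lt_or_ge k (N + 1) with hlt | hge
    · exact ih s hs k (by omega)
    obtain rfl : k = N + 1 := by omega
    have hcost : Cost (starM (Fin (2 ^ s))) (Fintype.card (Fin (2 ^ s))) := Cost_star _
    have hcl : Fintype.card (Fin (2 ^ s)) ≤ Fintype.card (Option (Fin (2 ^ s))) := by
      rw [Fintype.card_option]; omega
    have hA0 := Acoef_pos hs
    -- small case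
    have small : N + 1 ≤ 2 → RCost (kpow (Fin (N + 1)) (starM (Fin (2 ^ s))))
        (Λ * Acoef s * ((N + 1 : ℕ) : ℝ) ^ th *
          (Fintype.card (Option (Fin (2 ^ s))) : ℝ) ^ (N + 1)) := by
      intro hN
      have h := ksucc' (N + 1) hcost hcl (kzero (starM (Fin (2 ^ s))) _)
      rw [zero_add (N + 1)] at h
      refine h.le ?_
      apply mul_le_mul_of_nonneg_right _ (by positivity)
      rw [zero_add]
      have h1 := hΛA s hs
      have h2 := rpow_ge_one (L := N + 1) (by omega)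
      have h3 : ((N + 1 : ℕ) : ℝ) ≤ 2 := by exact_mod_cast hN
      nlinarith
    by_cases hs12 : s < 12
    · obtain ⟨L, r, hr, hM⟩ : ∃ L r, r ≤ 1 ∧ N + 1 = 2 * L + r :=
        ⟨(N + 1) / 2, (N + 1) % 2, by omega, by omega⟩
      by_cases hL : 1 ≤ L
      swap
      · exact small (by omega)
      have ih1 := ih s hs
      have ih2 : Pow th N (starM (Fin (2 * 2 ^ s))) (Λ * Acoef (s + 1)) :=
        Pow_star_card (by rw [Fintype.card_fin, Fintype.card_fin, pow_succ]; ring)
          (ih (s + 1) (by omega))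
      have hA1 := Acoef_pos (s := s + 1) (by omega)
      have h2 := Pow_star_kron_star th_pos th_le (by positivity) (by positivity) ih1 ih2
        L (by omega)
      have h3 := RCost_kpow_two h2
      have h4 : RCost (kpow (Fin (2 * L)) (starM (Fin (2 ^ s))))
          ((Λ * C1 s * (L:ℝ) ^ th) * (Fintype.card (Option (Fin (2 ^ s))) : ℝ) ^ (2 * L)) := by
        refine h3.le (le_of_eq ?_)
        rw [Fintype.card_prod, Nat.cast_mul, mul_pow, ← pow_add, ← two_mul, hC1]
        push_cast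
        ring
      have h5 := ksucc' r hcost hcl h4
      rw [← hM] at h5
      refine h5.le ?_
      apply mul_le_mul_of_nonneg_right _ (by positivity)
      refine gap 2 hM hL hA0.le hΛ0.le ?_ ?_
      · have : (r:ℝ) ≤ 1 := by exact_mod_cast hr
        linarith
      · exact_mod_cast hΛB s hs12
    · obtain rfl : s = 12 := by omega
      obtain ⟨L, r, hr, hM⟩ : ∃ L r, r ≤ 2 ∧ N + 1 = 3 * L + r :=
        ⟨(N + 1) / 3, (N + 1) % 3, by omega, by omega⟩
      by_cases hL : 1 ≤ L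
      swap
      · exact small (by omega)
      have ih0 : Pow th N zM (Λ * Acoef 0) :=
        Pow_star_card (by simp) (ih 0 (by omega))
      have hA00 := Acoef_pos (s := 0) (by omega)
      have h2 := Pow.of_cost th_pos th_le (by positivity) ih0 (star3_cost 512) L (by omega)
      have h3 := RCost_kpow_three h2
      have hc : Fintype.card (Option (Fin (8 * 512))) = 4097 := by
        rw [Fintype.card_option, Fintype.card_fin]
      have hc' : Fintype.card (Option (Fin (2 ^ 12))) = 4097 := by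
        rw [Fintype.card_option, Fintype.card_fin]; norm_num
      have h4 : RCost (kpow (Fin (3 * L)) (starM (Fin (2 ^ 12))))
          ((Λ * C2 * (L:ℝ) ^ th) * (Fintype.card (Option (Fin (2 ^ 12))) : ℝ) ^ (3 * L)) := by
        refine RCost.le (x := _) (h := h3) (le_of_eq ?_)
        rw [Fintype.card_prod, Fintype.card_prod, hc, hc', hC2]
        have e1 : (((4097 * (4097 * 4097) : ℕ) : ℝ)) = (4097:ℝ) ^ 3 := by norm_num
        rw [e1, ← pow_mul]
        push_cast
        ring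
      have h5 := ksucc' r hcost hcl h4
      rw [← hM] at h5
      refine h5.le ?_
      apply mul_le_mul_of_nonneg_right _ (by positivity)
      refine gap 3 hM hL hA0.le hΛ0.le ?_ ?_
      · exact_mod_cast hr
      · exact_mod_cast hΛC

theorem zPow : ∃ κ : ℝ, 0 ≤ κ ∧ ∀ N : ℕ, Pow th N zM κ := by
  obtain ⟨Λ, h0, h⟩ := starPow
  have hA := Acoef_pos (s := 0) (by omega)
  refine ⟨Λ * Acoef 0, by positivity, fun N => ?_⟩
  exact Pow_star_card (by simp) (h N 0 (by omega))

end Crest.Agent.R324
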